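import Vale.Agent.P287D.I.Rr

/-!
# P287D: the criterion of Siu
-/

set_option linter.all false

open Set Filter Topology
open Vale.Agent.P297 (Place)
open Vale.Agent.P277Z Vale.Agent.P277Z.FI Vale.Agent.P277Z.F5 Vale.Agent.P277Z.F5.Dg

noncomputable section

namespace Vale.Agent.P287D.I

variable {n N : ℕ} {K : Type} [Field K] [Algebra ℂ K]

section siu

variable {M : Mdl (n + 1) N K} {A B D E : Div K}

theorem amp_open {M : Mdl n N K} (h : Pos M) {ι : Type*} [Fintype ι] (D : ι → Div K) (C : Div K) :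
    IsOpen {x : ι → ℝ | M.Amp (C + ∑ i, x i • D i)} := by
  refine Metric.isOpen_iff.2 fun x hx => ?_
  obtain ⟨ε, h0, h1⟩ := amp_box h D Finset.univ _ hx
  refine ⟨ε, h0, fun y hy => ?_⟩
  have := h1 (y - x) fun j _ => ((dist_pi_lt_iff h0).1 hy j).le
  simpa [sub_smul] using this

/-- **the criterion of Siu** -/
theorem siu (h : Pc M) (hA : M.Dv A) (hn : M.Nef A) (hB : M.Dv B) (hm : M.Nef B)
    (hc : (n + 1) * num M (Fin.cons B fun _ => A) < vol M A) : Big M (A - B) := by
  classical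
  obtain ⟨H, hH⟩ := h.pol
  let T := A.support ∪ B.support ∪ H.support
  have hT : ∀ P ∈ T, M.Pr P := fun P hP => by
    simp only [T, Finset.mem_union] at hP
    exact hP.elim (·.elim (hA P) (hB P)) (hH.dv P)
  let d : T → Div K := fun P => Finsupp.single P 1
  let a : T ⊕ T → Div K := Sum.elim d 0
  let b : T ⊕ T → Div K := Sum.elim 0 d
  obtain ⟨φ, eφ⟩ : ∃ φ : (T ⊕ T → ℝ) → ℝ, φ = fun x => vol M (∑ i, x i • a i) -
    (n + 1) * num M (Fin.cons (∑ i, x i • b i) fun _ => ∑ i, x i • a i) := ⟨_, rfl⟩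
  have ea : ∀ x : T ⊕ T → ℝ, ∑ i, x i • a i = ∑ P, x (.inl P) • d P := fun x => by simp [a]
  have eb : ∀ x : T ⊕ T → ℝ, ∑ i, x i • b i = ∑ P, x (.inr P) • d P := fun x => by simp [b]
  have hφ : Continuous φ := by
    rw [eφ]
    refine (ml_cont (num M) a (c := fun _ x => x) fun _ => continuous_id).sub
      (continuous_const.mul ((ml_cont (num M) d (c := Fin.cons (fun x P => x (.inr P))
        fun _ x P => x (.inl P)) (Fin.cases (by simp; fun_prop) fun _ => by simp; fun_prop)).congr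
          fun x => congrArg _ (funext (Fin.cases (eb x).symm fun _ => (ea x).symm))))
  let U := {x | 0 < φ x} ∩ ({x | M.Amp (0 + ∑ i, x i • a i)} ∩ {x | M.Amp (0 + ∑ i, x i • b i)} ∩
    {x | M.Amp (A - B + ∑ i, x i • (b i - a i))})
  have hU : IsOpen U := (isOpen_lt continuous_const hφ).inter
    (((amp_open h.pos _ _).inter (amp_open h.pos _ _)).inter (amp_open h.pos _ _))
  let x : ℝ → T ⊕ T → ℝ := fun t => Sum.elim (fun P => (A + t • H) P) fun P => (B + (2 * t) • H) P
  have es : ∀ D : Div K, D.support ⊆ T → ∀ t : ℝ, ∑ P : T, (D + t • H) P • d P = D + t • H :=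
    fun D hD t => (Finset.sum_coe_sort T fun P => (D + t • H) P • Finsupp.single P (1 : ℝ)).trans
      (eq_sum_single (Finset.coe_subset.2 (Finsupp.support_add.trans (Finset.union_subset hD
        (Finsupp.support_smul.trans Finset.subset_union_right))))).symm
  have xa : ∀ t, ∑ i, x t i • a i = A + t • H := fun t => (ea _).trans
    (es A (Finset.subset_union_left.trans Finset.subset_union_left) t)
  have xb : ∀ t, ∑ i, x t i • b i = B + (2 * t) • H := fun t => (eb _).trans
    (es B (Finset.subset_union_right.trans Finset.subset_union_left) _)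
  have hx : Continuous x := continuous_pi fun i => by
    rcases i with P | P <;> simp [x] <;> fun_prop
  have x0 : 0 < φ (x 0) := by
    simp only [eφ, xa, xb, mul_zero, zero_smul, add_zero]
    exact sub_pos.2 hc
  have x1 : ∀ᶠ t in 𝓝 (0 : ℝ), 0 < φ (x t) :=
    continuousAt_const.eventually_lt (hφ.comp' hx).continuousAt x0
  obtain ⟨t, t1, t2⟩ : ∃ t, 0 < φ (x t) ∧ 0 < t := ((x1.filter_mono
    (nhdsWithin_le_nhds (s := Ioi 0))).and self_mem_nhdsWithin).exists
  have t3 : x t ∈ U := by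
    refine ⟨t1, ⟨?_, ?_⟩, ?_⟩
    · simpa only [mem_setOf_eq, xa, zero_add] using hn _ (h.pos.smul _ _ t2 hH.amp)
    · simpa only [mem_setOf_eq, xb, zero_add] using hm _ (h.pos.smul _ _ (mul_pos two_pos t2) hH.amp)
    · simp only [mem_setOf_eq, smul_sub, Finset.sum_sub_distrib, xa, xb]
      exact Eq.mp (congrArg M.Amp (by module)) (h.pos.smul _ _ t2 hH.amp)
  obtain ⟨k, z, k0, z1, ⟨z2, z3⟩, z4⟩ := int_pt hU t3
  have k1 : (0 : ℝ) < (k : ℝ)⁻¹ := by positivity
  have gd : ∀ w : T → ℤ, ∑ P, (w P : ℝ) • d P ∈ Gd M := fun w => sum_mem fun P _ =>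
    ⟨dv_smul (dv_single (hT P.1 P.2) 1) _, IsInt.zsmul (IsInt.single _) _⟩
  have ga := gd fun P => z (.inl P)
  have gb := gd fun P => z (.inr P)
  simp only [eφ, mem_setOf_eq, zero_add, smul_sub, Finset.sum_sub_distrib, ea, eb, mul_smul,
    ← Finset.smul_sum] at z1 z2 z3 z4
  generalize ∑ P, (z (.inl P) : ℝ) • d P = A' at *
  generalize ∑ P, (z (.inr P) : ℝ) • d P = B' at *
  have sc : ∀ (s : ℝ) (X Z : Div K), vol M (s • X) - (n + 1) * num M (Fin.cons (s • Z) fun _ => s • X)
      = s ^ (n + 1) * (vol M X - (n + 1) * num M (Fin.cons Z fun _ => X)) := fun s X Z => by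
    have := (num M).map_smul_univ (fun _ => s) (Fin.cons Z fun _ => X)
    rw [show (fun i => s • (Fin.cons Z fun _ => X : Fin (n + 1) → Div K) i) =
      Fin.cons (s • Z) fun _ => s • X from funext (Fin.cases rfl fun _ => rfl)] at this
    rw [this, vol_smul]
    simp
    ring
  have un : ∀ X : Div K, M.Amp ((k : ℝ)⁻¹ • X) → M.Amp X := fun X hX => by
    simpa [smul_smul, k0.ne'] using h.pos.smul _ k (by exact_mod_cast k0) hX
  obtain ⟨m, m0, hp⟩ := pol_mul h.pos gb.1 gb.2 (un _ z3)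
  have m1 : (0 : ℝ) < m := by exact_mod_cast m0
  rw [sc] at z1
  have key := siu_int h (gd_nsmul ga m) (nef_smul h.pos (nef_of_amp h.pos (un _ z2)) m1.le)
    (gd_nsmul gb m) (hp m le_rfl).free (sub_pos.1 (by
      rw [sc]
      exact mul_pos (pow_pos m1 _) ((mul_pos_iff_of_pos_left (pow_pos k1 _)).1 z1)))
  rw [← smul_sub] at key
  have := ((key.of_smul h.pos m1).smul h.pos k1).add_eff (eff_amp h.loc h.pos
    (dv_add (dv_sub hA hB) (dv_sub (dv_smul gb.1 _) (dv_smul ga.1 _))) z4)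
  exact Eq.mp (congrArg (Big M) (by module)) this

end siu

variable {M : Mdl n N K} {D : Div K}

theorem big_of_vol (h : Pc M) (hD : M.Dv D) (hn : M.Nef D) (hv : 0 < vol M D) : Big M D := by
  cases n with
  | zero =>
    obtain ⟨H, hH⟩ := h.pol
    exact ⟨H, hH.dv, hH.amp, eff_of_h0 h.loc (dv_sub hD hH.dv) (by simp [h0_zero h])⟩
  | succ n => simpa using siu h hD hn dv_zero nef_zero (by rwa [cons_zero, mul_zero])

theorem big_iff_vol (h : Pc M) (hD : M.Dv D) (hn : M.Nef D) : Big M D ↔ 0 < vol M D :=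
  ⟨vol_big h hD hn, big_of_vol h hD hn⟩

end Vale.Agent.P287D.I
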