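import Vale.Agent.P287D.I.Bas

/-!
# P287D: intersection numbers, positivity
-/

set_option linter.all false

open Set Filter Topology
open Vale.Agent.P297 (Place)
open Vale.Agent.P277Z Vale.Agent.P277Z.FI Vale.Agent.P277Z.F5 Vale.Agent.P277Z.F5.Dg

noncomputable section

namespace Vale.Agent.P287D.I

variable {n N : ℕ} {K : Type} [Field K] [Algebra ℂ K]

theorem nonneg_of_eps {x y : ℝ} (h : ∀ c : ℝ, 0 < c → 0 ≤ x + c * y) : 0 ≤ x := by
  have h1 : Tendsto (fun c : ℝ => x + c * y) (𝓝[>] 0) (𝓝 (x + 0 * y)) :=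
    ((continuous_const.add (continuous_id.mul continuous_const)).tendsto 0).mono_left
      nhdsWithin_le_nhds
  rw [zero_mul, add_zero] at h1
  exact ge_of_tendsto h1 (eventually_nhdsWithin_of_forall h)

section lin

variable {M : Mdl n N K} {φ : Div K →ₗ[ℝ] ℝ} {D : Div K}

theorem lin_amp (h : Pos M) (hφ : ∀ H, Pol M H → 0 ≤ φ H) (h1 : M.Dv D) (h2 : M.Amp D) : 0 ≤ φ D :=
  amp_ind h (p := fun A => 0 ≤ φ A) (fun _ _ a b => by rw [map_add]; exact add_nonneg a b)
    (fun _ c hc a => by rw [map_smul]; exact mul_nonneg hc.le a) hφ h1 h2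

theorem lin_amp_pos (h : Pos M) (hφ : ∀ H, Pol M H → 0 < φ H) (h1 : M.Dv D) (h2 : M.Amp D) :
    0 < φ D :=
  amp_ind h (p := fun A => 0 < φ A) (fun _ _ a b => by rw [map_add]; exact add_pos a b)
    (fun _ c hc a => by rw [map_smul]; exact mul_pos hc a) hφ h1 h2

theorem lin_nef (h : Pos M) (hφ : ∀ H, Pol M H → 0 ≤ φ H) (h1 : M.Dv D) (h2 : M.Nef D) :
    0 ≤ φ D := by
  obtain ⟨H, hH⟩ := exists_pol h
  refine nonneg_of_eps (y := φ H) fun c hc => ?_
  have := lin_amp h hφ (dv_add h1 (dv_smul hH.dv c)) (h2 _ (h.smul _ c hc hH.amp))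
  rwa [map_add, map_smul] at this

theorem lin_psef (h : Pos M) (hφ : ∀ G, Eff M G → 0 ≤ φ G) (h1 : Psef M D) : 0 ≤ φ D := by
  obtain ⟨H, hH⟩ := exists_pol h
  refine nonneg_of_eps (y := φ H) fun c hc => ?_
  have := hφ _ (h1 _ (dv_smul hH.dv c) (h.smul _ c hc hH.amp))
  rwa [map_add, map_smul] at this

end lin

theorem pol_nef {M : Mdl n N K} (h : Pos M) {H : Div K} (hH : Pol M H) : M.Nef H :=
  nef_of_amp h hH.amp

theorem eff_of_prime {M : Mdl (n + 1) N K} {a : Fin n → Div K}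
    (h : ∀ Q, M.Pr Q → 0 ≤ num M (Fin.cons (Finsupp.single Q 1) a)) {G : Div K} (hG : 0 ≤ G) :
    0 ≤ num M (Fin.cons G a) := by
  rw [cons_eq_sum]
  refine Finset.sum_nonneg fun Q _ => mul_nonneg (hG Q) ?_
  by_cases hQ : M.Pr Q
  · exact h Q hQ
  · exact (cons_off hQ 1).ge

theorem r_cons {M : Mdl (n + 1) N K} {P : Place K} (u : SubM M P) {k : ℕ} (D : Div K)
    (a : Fin k → Div K) : (fun i => u.r ((Fin.cons D a : Fin (k + 1) → Div K) i)) =
      Fin.cons (u.r D) fun i => u.r (a i) := funext (Fin.cases rfl fun _ => rfl)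

theorem dv_cons {M : Mdl n N K} {k : ℕ} {D : Div K} {a : Fin k → Div K} (hD : M.Dv D)
    (ha : ∀ i, M.Dv (a i)) : ∀ i, M.Dv ((Fin.cons D a : Fin (k + 1) → Div K) i) := Fin.cases hD ha

theorem eff_pol : ∀ (n : ℕ) {N : ℕ} {K : Type} [Field K] [Algebra ℂ K] {M : Mdl (n + 1) N K},
    Pc M → ∀ {a : Fin n → Div K}, (∀ i, Pol M (a i)) → ∀ {G : Div K}, 0 ≤ G →
    0 ≤ num M (Fin.cons G a)
  | 0, _, _, _, _, _, h, a, _, _, hG => eff_of_prime (fun Q hQ => by
      rw [num_one h hQ]; exact zero_le_one) hG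
  | n + 1, N, K, _, _, M, h, a, ha, _, hG => by
    refine eff_of_prime (fun Q hQ => ?_) hG
    obtain ⟨f, Y, hf, e1, -, e2, e3⟩ := h.cut (ha 0).dv (ha 0).int (ha 0).free finite_empty
      (snc_empty h.loc) (finite_singleton Q)
    have hY : ∀ P ∈ Y, M.Snc {P} := fun P hP => snc_mono e3 (by simpa using hP)
    let u : ∀ P : Y, SubM M P := fun P => (h.ex_sub (hY P.1 P.2)).some
    rw [← Fin.cons_self_tail a, cons_swap h, num_cut h u hY (by rw [← e1]; simpa using div_mem_prR hf)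
      (dv_cons (a := Fin.tail a) (dv_single hQ 1) fun i => (ha _).dv)]
    refine Finset.sum_nonneg fun P _ => ?_
    rw [r_cons]
    exact eff_pol n (h.sub _ (hY P.1 P.2)) (fun i => h.r_pol _ (hY P.1 P.2) (ha _))
      (r_nonneg _ (Finsupp.single_nonneg.2 zero_le_one) (Finsupp.single_eq_of_ne fun e =>
        disjoint_left.1 e2 (Finset.mem_coe.2 P.2) e))

section succ

variable {M : Mdl (n + 1) N K} {a b : Fin n → Div K} {D G : Div K}

/-- **effective times nef** -/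
theorem num_eff (h : Pc M) (hG : 0 ≤ G) (ha : ∀ i, M.Dv (a i) ∧ M.Nef (a i)) :
    0 ≤ num M (Fin.cons G a) := by
  classical
  refine ml_ind (q := fun D => M.Dv D ∧ M.Nef D) (r := Pol M)
    (p := fun a => 0 ≤ (num M).curryLeft G a) (fun a i h1 h2 => ?_)
    (fun H hH => ⟨hH.dv, pol_nef h.pos hH⟩) (fun a ha => eff_pol n h ha hG) ha
  have := lin_nef (φ := ((num M).curryLeft G).toLinearMap a i) h.pos h2 (h1 i).1 (h1 i).2
  simpa using this

theorem num_Eff (h : Pc M) (hD : Eff M D) (ha : ∀ i, M.Dv (a i) ∧ M.Nef (a i)) :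
    0 ≤ num M (Fin.cons D a) :=
  let ⟨_, h1, h2⟩ := hD
  cons_eqv h h2 a ▸ num_eff h h1 ha

/-- **pseudo-effective times nef** -/
theorem num_psef (h : Pc M) (hD : Psef M D) (ha : ∀ i, M.Dv (a i) ∧ M.Nef (a i)) :
    0 ≤ num M (Fin.cons D a) :=
  lin_psef (φ := nc M a) h.pos (fun _ hG => num_Eff h hG ha) hD

theorem cons_mono (h : Pc M) (hD : Psef M (G - D)) (ha : ∀ i, M.Dv (a i) ∧ M.Nef (a i)) :
    num M (Fin.cons D a) ≤ num M (Fin.cons G a) :=
  sub_nonneg.1 (cons_sub (a := a) G D ▸ num_psef h hD ha)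

theorem cons_le (h : Pc M) (hD : D ≤ G) (ha : ∀ i, M.Dv (a i) ∧ M.Nef (a i)) :
    num M (Fin.cons D a) ≤ num M (Fin.cons G a) :=
  sub_nonneg.1 (cons_sub (a := a) G D ▸ num_eff h (sub_nonneg.2 hD) ha)

end succ

variable {M : Mdl n N K} {a b : Fin n → Div K} {D E : Div K}

theorem num_psef_at (h : Pc M) (i : Fin n) (hi : Psef M (a i))
    (ha : ∀ j, j ≠ i → M.Dv (a j) ∧ M.Nef (a j)) : 0 ≤ num M a := by
  obtain ⟨n, rfl⟩ : ∃ k, n = k + 1 := ⟨n - 1, by have := i.2; omega⟩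
  rw [num_front h a i]
  exact num_psef h hi fun j => ha _ (Fin.succAbove_ne i j)

/-- **nef divisors have non negative intersection numbers** -/
theorem num_nef (h : Pc M) (ha : ∀ i, M.Dv (a i) ∧ M.Nef (a i)) : 0 ≤ num M a := by
  cases n with
  | zero => rw [num_zero h]; exact zero_le_one
  | succ n => exact num_psef_at h 0 (psef_nef h.loc h.pos (ha 0).1 (ha 0).2) fun j _ => ha j

/-- **monotonicity** -/
theorem num_mono (h : Pc M) (ha : ∀ i, M.Dv (a i) ∧ M.Nef (a i))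
    (hb : ∀ i, M.Dv (b i) ∧ M.Nef (b i)) (e : ∀ i, Psef M (b i - a i)) : num M a ≤ num M b := by
  classical
  suffices k : ∀ s : Finset (Fin n), num M a ≤ num M (s.piecewise b a) by
    simpa using k Finset.univ
  intro s
  induction s using Finset.induction_on with
  | empty => simp
  | insert i s hi ih =>
    refine ih.trans (sub_nonneg.1 ?_)
    have e1 : s.piecewise b a = Function.update (s.piecewise b a) i (a i) := by
      rw [← Finset.piecewise_eq_of_notMem s b a hi, Function.update_eq_self]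
    rw [Finset.piecewise_insert, e1, Function.update_idem, ← (num M).map_update_sub]
    refine num_psef_at h i (by rw [Function.update_self]; exact e i) fun j hj => ?_
    rw [Function.update_of_ne hj]
    by_cases c : j ∈ s
    · rw [Finset.piecewise_eq_of_mem _ _ _ c]; exact hb j
    · rw [Finset.piecewise_eq_of_notMem _ _ _ c]; exact ha j

theorem vol_nef (h : Pc M) (h1 : M.Dv D) (h2 : M.Nef D) : 0 ≤ vol M D := num_nef h fun _ => ⟨h1, h2⟩

theorem vol_mono (h : Pc M) (h1 : M.Dv D) (h2 : M.Nef D) (h3 : M.Dv E) (h4 : M.Nef E)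
    (e : Psef M (E - D)) : vol M D ≤ vol M E :=
  num_mono h (fun _ => ⟨h1, h2⟩) (fun _ => ⟨h3, h4⟩) fun _ => e

theorem exists_small (h : Pos M) {k : ℕ} {a : Fin k → Div K} (ha : ∀ i, M.Amp (a i)) (H : Div K) :
    ∃ c : ℝ, 0 < c ∧ ∀ i, M.Amp (a i - c • H) := by
  obtain ⟨c, h1, h2⟩ := (((eventually_all.2 fun i => F5.amp_ev h (ha i) (-H)).filter_mono
    (nhdsWithin_le_nhds (s := Ioi 0))).and self_mem_nhdsWithin).exists
  exact ⟨c, h2, fun i => by simpa [sub_eq_add_neg] using h1 i⟩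

/-- multilinear forms which are non negative on nef divisors are monotone -/
theorem ml_mono {k : ℕ} {f : MultilinearMap ℝ (fun _ : Fin k => Div K) ℝ}
    (hf : ∀ a, (∀ i, M.Dv (a i) ∧ M.Nef (a i)) → 0 ≤ f a) {a b : Fin k → Div K}
    (ha : ∀ i, M.Dv (a i) ∧ M.Nef (a i)) (e : ∀ i, M.Dv (b i - a i) ∧ M.Nef (b i - a i)) :
    f a ≤ f b := by
  classical
  have k : b = a + fun i => b i - a i := by funext i; simp
  rw [k, f.map_add_univ]
  refine le_trans (by simp) (Finset.single_le_sum (fun s _ => hf _ fun i => ?_)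
    (Finset.mem_univ Finset.univ))
  by_cases c : i ∈ s
  · rw [Finset.piecewise_eq_of_mem _ _ _ c]; exact ha i
  · rw [Finset.piecewise_eq_of_notMem _ _ _ c]; exact e i

section pos

variable {M : Mdl (n + 1) N K} {a : Fin n → Div K} {D G : Div K}

theorem prime_pos (h : Pc M) {P : Place K} (hP : M.Pr P) (ha : ∀ i, M.Dv (a i) ∧ M.Amp (a i)) :
    0 < num M (Fin.cons (Finsupp.single P 1) a) := by
  obtain ⟨H, hH⟩ := h.pol
  obtain ⟨c, h1, h2⟩ := exists_small h.pos (fun i => (ha i).2) H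
  have k1 := dposA n N K M h.proj h.cpt H hH P hP
  rw [deg_eq_num h ⟨hH.dv, hH.int⟩] at k1
  have k2 := ml_mono (f := (num M).curryLeft (Finsupp.single P 1)) (a := fun _ => c • H) (b := a)
    (fun a ha => num_eff h (Finsupp.single_nonneg.2 zero_le_one) ha)
    (fun _ => ⟨dv_smul hH.dv c, nef_smul h.pos (pol_nef h.pos hH) h1.le⟩)
    fun i => ⟨dv_sub (ha i).1 (dv_smul hH.dv c), nef_of_amp h.pos (h2 i)⟩
  rw [((num M).curryLeft (Finsupp.single P 1)).map_smul_univ (fun _ => c) fun _ => H] at k2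
  refine lt_of_lt_of_le ?_ k2
  exact smul_pos (Finset.prod_pos fun _ _ => h1) (one_pos.trans_le k1)

/-- **effective and non zero times ample** -/
theorem num_eff_pos (h : Pc M) (hG : 0 ≤ G) {P : Place K} (hP : M.Pr P) (h0 : G P ≠ 0)
    (ha : ∀ i, M.Dv (a i) ∧ M.Amp (a i)) : 0 < num M (Fin.cons G a) := by
  have k : G P • Finsupp.single P (1 : ℝ) ≤ G := fun Q => by
    by_cases e : Q = P
    · simp [e]
    · simpa [Finsupp.single_eq_of_ne e] using hG Q
  refine lt_of_lt_of_le ?_ (cons_le h k fun i => ⟨(ha i).1, nef_of_amp h.pos (ha i).2⟩)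
  rw [cons_smul]
  exact mul_pos (lt_of_le_of_ne (hG P) h0.symm) (prime_pos h hP ha)

theorem eff_eq_zero (h : Pc M) (hG : 0 ≤ G) (hd : M.Dv G) (ha : ∀ i, M.Dv (a i) ∧ M.Amp (a i))
    (h0 : num M (Fin.cons G a) ≤ 0) : G = 0 :=
  Finsupp.ext fun P => by_contra fun e =>
    (num_eff_pos h hG (hd P (Finsupp.mem_support_iff.2 e)) e ha).not_ge h0

end pos

/-- **ample divisors have positive intersection numbers** -/
theorem num_amp (h : Pc M) (ha : ∀ i, M.Dv (a i) ∧ M.Amp (a i)) : 0 < num M a := by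
  cases n with
  | zero => rw [num_zero h]; exact one_pos
  | succ n =>
    obtain ⟨G, hG⟩ := eff_amp h.loc h.pos (ha 0).1 (ha 0).2
    have g1 := hG.dv (ha 0).1
    have g2 : G ≠ 0 := fun e => (((cpA _ N K M h.proj).2 h.cpt).2.2.2.1 n.succ_pos).2 0 dv_zero le_rfl
      (by simpa [e] using hG.amp h.loc h.pos (ha 0).2)
    rw [← Fin.cons_self_tail a, ← cons_eqv h hG.2]
    exact lt_of_not_ge fun c => g2 (eff_eq_zero h hG.1 g1 (fun i => ha _) c)

theorem vol_amp (h : Pc M) (h1 : M.Dv D) (h2 : M.Amp D) : 0 < vol M D := num_amp h fun _ => ⟨h1, h2⟩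

namespace Big

theorem of_amp (h1 : M.Dv D) (h2 : M.Amp D) : Big M D := ⟨D, h1, h2, by simpa using eff_zero⟩

theorem add_eff (hD : Big M D) (hE : Eff M E) : Big M (D + E) :=
  let ⟨A, h1, h2, h3⟩ := hD
  ⟨A, h1, h2, by rw [add_sub_right_comm]; exact h3.add hE⟩

theorem add_psef (hP : Pos M) (hD : Big M D) (hE : Psef M E) : Big M (D + E) := by
  obtain ⟨A, h1, h2, h3⟩ := hD
  have a := dv_smul h1 (1 / 2)
  have b := hP.smul _ _ one_half_pos h2
  refine ⟨_, a, b, ?_⟩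
  have := h3.add (hE _ a b)
  convert this using 1
  module

theorem smul (hP : Pos M) (hD : Big M D) {c : ℝ} (hc : 0 < c) : Big M (c • D) :=
  let ⟨A, h1, h2, h3⟩ := hD
  ⟨c • A, dv_smul h1 c, hP.smul _ c hc h2, by rw [← smul_sub]; exact h3.smul hc.le⟩

theorem of_smul (hP : Pos M) {c : ℝ} (hc : 0 < c) (hD : Big M (c • D)) : Big M D := by
  have := hD.smul hP (inv_pos.2 hc)
  rwa [smul_smul, inv_mul_cancel₀ hc.ne', one_smul] at this

theorem congr (hD : Big M D) (e : E - D ∈ PrR M) : Big M E := by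
  simpa using hD.add_eff (eff_prR e)

theorem mono (hD : Big M D) (e : D ≤ E) : Big M E := by
  simpa using hD.add_eff (eff_of_nonneg (sub_nonneg.2 e))

theorem eff (hL : Loc M) (hP : Pos M) (hD : Big M D) : Eff M D := by
  obtain ⟨A, h1, h2, h3⟩ := hD
  simpa using h3.add (eff_amp hL hP h1 h2)

theorem psef (hL : Loc M) (hP : Pos M) (hD : Big M D) : Psef M D := (hD.eff hL hP).psef hL hP

theorem dv (hD : Big M D) (h0 : ∀ P, ¬ M.Pr P → D P ≤ 0) : M.Dv D := by
  obtain ⟨A, h1, -, G, h3, h4⟩ := hD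
  refine dv_iff.2 fun P hP => le_antisymm (h0 P hP) ?_
  have := dv_iff.1 (prR_dv h4) P hP
  have := dv_iff.1 h1 P hP
  have := h3 P
  simp only [Finsupp.sub_apply, Finsupp.coe_zero, Pi.zero_apply] at *
  linarith

/-- bigness is an open condition -/
theorem ev (hP : Pos M) (hD : Big M D) (hE : M.Dv E) : ∀ᶠ c in 𝓝 (0 : ℝ), Big M (D + c • E) :=
  let ⟨A, h1, h2, h3⟩ := hD
  (F5.amp_ev hP h2 E).mono fun c hc =>
    ⟨_, dv_add h1 (dv_smul hE c), hc, by rwa [add_sub_add_right_eq_sub]⟩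

end Big

/-- nef and big divisors have positive intersection numbers -/
theorem num_big (h : Pc M) (ha : ∀ i, M.Dv (a i) ∧ M.Nef (a i) ∧ Big M (a i)) : 0 < num M a := by
  choose A h1 h2 h3 using fun i => (ha i).2.2
  exact (num_amp h fun i => ⟨h1 i, h2 i⟩).trans_le (num_mono h
    (fun i => ⟨h1 i, nef_of_amp h.pos (h2 i)⟩) (fun i => ⟨(ha i).1, (ha i).2.1⟩)
    fun i => (h3 i).psef h.loc h.pos)

theorem vol_big (h : Pc M) (h1 : M.Dv D) (h2 : M.Nef D) (h3 : Big M D) : 0 < vol M D :=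
  num_big h fun _ => ⟨h1, h2, h3⟩

theorem cons_big {M : Mdl (n + 1) N K} (h : Pc M) {a : Fin n → Div K} {D : Div K} (hD : Big M D)
    (ha : ∀ i, M.Dv (a i) ∧ M.Nef (a i) ∧ Big M (a i)) : 0 < num M (Fin.cons D a) := by
  obtain ⟨A, h1, h2, h3⟩ := hD
  exact (num_big h (a := Fin.cons A a) (Fin.cases ⟨h1, nef_of_amp h.pos h2, .of_amp h1 h2⟩ ha)).trans_le
    (cons_mono h (h3.psef h.loc h.pos) fun i => ⟨(ha i).1, (ha i).2.1⟩)

end Vale.Agent.P287D.I
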