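import Vale.Agent.P287D.I.Pos
import Vale.Agent.P287D.Kv.St

/-!
# P287D: the vanishing of `H¹` along a divisor; effective divisors with nef restrictions are nef
-/

set_option linter.all false

open Set Filter Topology
open Vale.Agent.P297 (Place)
open Vale.Agent.P297Z.Pl
open Vale.Agent.P277Z Vale.Agent.P277Z.FI Vale.Agent.P277Z.F5 Vale.Agent.P277Z.F5.Dg
open Vale.Agent.P277Z.Kv (Ls KV)
open Vale.Agent.P277Z.Lift (LG)

noncomputable section

namespace Vale.Agent.P287D.I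

variable {n N : ℕ} {K : Type} [Field K] [Algebra ℂ K]

section loc

variable {M : Mdl n N K} {x : M.F} {D E L : Div K} {f g t : K}

theorem ls_zero : Ls M x D 0 := Or.inl rfl

theorem ls_mono (h : Ls M x D f) (e : D ≤ E) : Ls M x E f :=
  h.imp_right fun k P hP => (k P hP).trans (by linarith [e P])

theorem ls_add (hf : Ls M x D f) (hg : Ls M x D g) : Ls M x D (f + g) := by
  by_cases f0 : f = 0
  · simpa [f0] using hg
  by_cases g0 : g = 0
  · simpa [g0] using hf
  refine or_iff_not_imp_left.2 fun h P hP => ?_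
  have a := min_ord_le_add P f0 g0 h
  have b := hf.resolve_left f0 P hP
  have c := hg.resolve_left g0 P hP
  rcases min_le_iff.1 a with k | k <;> have k' := Int.cast_le (R := ℝ).2 k <;> linarith

theorem ls_neg (hf : Ls M x D f) : Ls M x D (-f) :=
  hf.imp (fun e => by rw [e, neg_zero]) fun k P hP => by rw [ord_neg]; exact k P hP

theorem ls_sub (hf : Ls M x D f) (hg : Ls M x D g) : Ls M x D (f - g) := by
  rw [sub_eq_add_neg]; exact ls_add hf (ls_neg hg)

theorem ls_iff (hL : Loc M) (ht : LG M x D t) : Ls M x D f ↔ f * t ∈ M.O x := by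
  by_cases f0 : f = 0
  · simp only [f0, zero_mul, zero_mem, iff_true]; exact ls_zero
  refine ⟨fun h => hL.mem x _ fun R hR => ?_, fun h => Or.inr fun R hR => ?_⟩
  · have := h.resolve_left f0 R hR
    rw [← ht.2 R hR] at this
    rw [ord_mul R f0 ht.1]
    exact_mod_cast this
  · have := ord_nonneg_of_mem R (ct_of_on hR _ h)
    rw [ord_mul R f0 ht.1] at this
    rw [← ht.2 R hR]
    exact_mod_cast this

theorem ls_near (hL : Loc M) (h : Ls M x D f) : ∀ᶠ y in 𝓝 x, Ls M y D f := by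
  filter_upwards [(eventually_all_finite ((hL.fin f).union D.support.finite_toSet)).2
    fun R _ => hL.near x R] with y hy
  refine h.imp_right fun k R hR => ?_
  by_cases h1 : R ∈ {P | M.Pr P ∧ P.ord f ≠ 0} ∪ (D.support : Set (Place K))
  · exact k R (hy R h1 hR)
  · rw [mem_union, not_or] at h1
    have a : R.ord f = 0 := by_contra fun e => h1.1 ⟨⟨y, hR⟩, e⟩
    have b : D R = 0 := by_contra fun e => h1.2 (Finsupp.mem_support_iff.2 e)
    simp [a, b]

theorem ls_mul (hL : Loc M) (h : Ls M x D f) (ht : t ≠ 0) (k : ℤ) :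
    Ls M x (D - (k : ℝ) • M.div t) (f * t ^ k) := by
  refine or_iff_not_imp_left.2 fun h0 R hR => ?_
  have f0 := left_ne_zero_of_mul h0
  have := h.resolve_left f0 R hR
  rw [ord_mul R f0 (zpow_ne_zero _ ht), ord_zpow, Finsupp.sub_apply, Finsupp.smul_apply,
    div_apply hL t ⟨x, hR⟩, smul_eq_mul]
  push_cast
  linarith

theorem ls_mul' (hL : Loc M) (ht : t ≠ 0) (k : ℤ) (h : Ls M x (D - (k : ℝ) • M.div t) f) :
    Ls M x D (f * t ^ (-k)) := by
  have := ls_mul hL h ht (-k)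
  rwa [Int.cast_neg, neg_smul, sub_neg_eq_add, sub_add_cancel] at this

theorem ls_of_mem (h : f ∈ M.H0 D) (x : M.F) : Ls M x D f :=
  h.imp_right fun k P hP => k P ⟨x, hP⟩

theorem mem_of_ls (h : ∀ x, Ls M x D f) : f ∈ M.H0 D :=
  or_iff_not_imp_left.2 fun h0 P ⟨x, hP⟩ => (h x).resolve_left h0 P hP

theorem lc_iff (hD : IsInt D) : Kv.Lc M x D f ↔ Ls M x D f :=
  or_congr_right (forall₂_congr fun P _ => by
    obtain ⟨k, hk⟩ := hD P
    rw [hk]
    exact_mod_cast (by omega : -1 < P.ord f + k ↔ 0 ≤ P.ord f + k))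

theorem ls_ring {P : Place K} (h : Ls M x D f) (hP : M.On x P) (h0 : D P = 0) : f ∈ P.ring := by
  by_cases f0 : f = 0
  · rw [f0]; exact zero_mem _
  have := h.resolve_left f0 P hP
  rw [h0, add_zero] at this
  exact (ord_nonneg_iff P f0).1 (by exact_mod_cast this)

variable (M L) in
/-- `H¹(L) = 0` -/
def H1z : Prop := ∀ h : M.F → K, (∀ x, ∀ᶠ y in 𝓝 x, Ls M y L (h x - h y)) →
  ∃ f, ∀ x, Ls M x L (f - h x)

theorem h1z_kv (hK : KV n) (h : Pc M) {κ : Div K} (hκ : IsCan M κ) (hL : IsInt L)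
    (hA : M.Amp (L - κ)) : H1z M L := fun c hc => by
  simpa only [lc_iff hL] using hK N K M h.proj κ L ∅ c ⟨hκ, finite_empty, snc_empty h.loc⟩
    (fun P _ => hL P) hA (by simpa only [lc_iff hL] using hc)

theorem h1z_div (hL : Loc M) (h : H1z M L) (ht : t ≠ 0) (k : ℤ) :
    H1z M (L - (k : ℝ) • M.div t) := fun c hc => by
  obtain ⟨f, hf⟩ := h (fun x => c x * t ^ (-k)) fun x => (hc x).mono fun y hy => by
    rw [← sub_mul]; exact ls_mul' hL ht k hy
  refine ⟨f * t ^ k, fun x => ?_⟩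
  have := ls_mul hL (hf x) ht k
  rwa [sub_mul, mul_assoc, ← zpow_add₀ ht, neg_add_cancel, zpow_zero, mul_one] at this

theorem free_of_div (hL : Loc M) (ht : t ≠ 0) (k : ℤ) (h : M.Free (L - (k : ℝ) • M.div t) x) :
    M.Free L x := by
  obtain ⟨f, h1, h2, h3⟩ := h
  refine ⟨f * t ^ (-k), mem_of_ls fun y => ls_mul' hL ht k (ls_of_mem h1 y),
    mul_ne_zero h2 (zpow_ne_zero _ ht), fun R hR => ?_⟩
  have := h3 R hR
  rw [Finsupp.sub_apply, Finsupp.smul_apply, div_apply hL t ⟨x, hR⟩, smul_eq_mul] at this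
  rw [ord_mul R h2 (zpow_ne_zero _ ht), ord_zpow]
  push_cast
  linarith

end loc

section res

variable {L' : Type} [Field L'] [Algebra ℂ L'] {S : Mdl n N L'} {M : Mdl (n + 1) N K}
  {P : Place K} {s : Sub S M P} {y : S.F} {L : Div K} {f g t : K}

theorem res_sub' (hf : f ∈ P.ring) (hg : g ∈ P.ring) : s.res (f - g) = s.res f - s.res g := by
  rw [eq_sub_iff_add_eq, ← s.res_add _ (sub_mem hf hg) _ hg, sub_add_cancel]

theorem ls_res (hL : Loc M) (hS : Loc S) (hR : Rst s) (hi : IsInt L) (h0 : L P = 0)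
    (h : Ls M (ip s y) L f) : Ls S y (s.rs L) (s.res f) := by
  have ht := Lift.lg_eqD (x := ip s y) hL hi
  rw [ls_iff hS (ht.res hL hS hR h0), ← s.res_mul _ (ls_ring h (on_ip s y) h0) _ (ht.ring h0)]
  exact res_O ((ls_iff hL ht).1 h)

/-- a section whose restriction generates is a generator -/
theorem lg_of_res (hL : Loc M) (hS : Loc S) (hR : Rst s) (hi : IsInt L) (h0 : L P = 0)
    (hf : f ∈ M.H0 L) (h : LG S y (-s.rs L) (s.res f)) : LG M (ip s y) (-L) f := by
  have ht := Lift.lg_eqD (x := ip s y) hL hi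
  refine Mu.lg_of_val hL hi hf ?_
  have k := h.mul (ht.res hL hS hR h0)
  rw [neg_add_cancel, ← s.res_mul _ (mem_ring_of_H0 hf (pr_sub s) h0) _ (ht.ring h0)] at k
  have := (k.val_ne hS).2
  rwa [Lift.res_val (ht.mem hL hf)] at this

theorem res_div_of (hg : g ∈ P.ring) (h : f / g ∈ P.ring) (h1 : s.res g ≠ 0) :
    s.res (f / g) = s.res f / s.res g := by
  have g0 : g ≠ 0 := fun e => h1 (by rw [e, res_zero'])
  rw [eq_div_iff h1, ← s.res_mul _ h _ hg, div_mul_cancel₀ _ g0]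

/-- the residue map is onto on the local rings -/
theorem loc_surj₀ (h : Pc M) (hS : Pc S) (hR : Rst s) (hs : M.Snc {P}) {w : L'}
    (hw : w ∈ S.O y) : ∃ c ∈ M.O (ip s y), s.res c = w := by
  by_cases w0 : w = 0
  · exact ⟨0, zero_mem _, by rw [res_zero', w0]⟩
  obtain ⟨κ, hκ⟩ := h.can
  obtain ⟨H, hH⟩ := h.pol
  obtain ⟨f, Y, f0, e, d, -, -⟩ := h.cut hH.dv hH.int hH.free (finite_singleton P) hs finite_empty
  set A := M.div f + H
  have A0 : A P = 0 := by
    rw [e, Finsupp.finset_sum_apply]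
    exact Finset.sum_eq_zero fun Q hQ => Finsupp.single_eq_of_ne fun k =>
      disjoint_left.1 d (Finset.mem_coe.2 hQ) (k ▸ rfl)
  have A1 : M.Amp A := by
    rw [show A = H + M.div f from add_comm _ _]; exact h.pos.div _ f f0 hH.amp
  have A2 : IsInt A := IsInt.add (int_div h.loc f) hH.int
  have A3 : M.Dv A := dv_add (dv_div f) hH.dv
  have D1 : IsInt (S.div w ⊓ 0) := fun Q => by
    obtain ⟨k, hk⟩ := int_div hS.loc w Q
    exact ⟨min k 0, by rw [Finsupp.inf_apply, hk]; simp⟩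
  obtain ⟨m₀, hm⟩ := hS.pos.gg _ _ (hR.amp A A0 A1) (rs_int hR A0 A2) D1
  obtain ⟨m, m1, m2⟩ := ((eventually_ge_atTop m₀).and
    (Dg.amp_ev h.pos A1 (-κ - Finsupp.single P 1 - 0))).exists
  have B0 : ((m : ℝ) • A) P = 0 := by simp [A0]
  have B2 := IsInt.nsmul A2 m
  have ext := tb.ext n N K M h.proj L' S P s κ ((m : ℝ) • A) 0 ∅ hS.proj (notMem_empty P)
    ⟨hκ, by simp, by simpa using hs⟩ ⟨by simp, by simp⟩ (dv_smul A3 _) B2 B0
    (by convert m2 using 1; abel)
  rw [rs_smul hR _ A0] at ext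
  obtain ⟨a, a1, a2, a3⟩ := hm m m1 y
  obtain ⟨b, b1, rfl⟩ := ext a (H0_mono (add_le_of_nonpos_left inf_le_right) a1)
  obtain ⟨c, c1, c2⟩ := ext (w * s.res b) (Or.inr fun Q hQ => by
    have := a1.resolve_left a2 Q hQ
    rw [Finsupp.add_apply, Finsupp.inf_apply, div_apply hS.loc w hQ] at this
    rw [ord_mul Q w0 a2, Int.cast_add]
    linarith [min_le_left (Q.ord w : ℝ) ((0 : Div L') Q)])
  have k : LG M (ip s y) (-((m : ℝ) • A)) b := lg_of_res h.loc hS.loc hR B2 B0 b1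
    ⟨a2, fun Q hQ => by
      have := a3 Q hQ
      have h1 : (0 : ℝ) ≤ Q.ord w := by exact_mod_cast ord_nonneg_of_mem Q (ct_of_on hQ _ hw)
      rw [Finsupp.add_apply, Finsupp.inf_apply, div_apply hS.loc w ⟨y, hQ⟩, Finsupp.zero_apply,
        inf_eq_right.2 h1] at this
      rw [Finsupp.neg_apply, rs_smul hR _ A0]
      linarith⟩
  have k1 : c / b ∈ M.O (ip s y) := by
    rw [div_eq_mul_inv]; exact (by simpa using k.inv : LG M _ ((m : ℝ) • A) b⁻¹).mem h.loc c1
  refine ⟨c / b, k1, ?_⟩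
  rw [res_div_of (mem_ring_of_H0 b1 (pr_sub s) B0) (ct_of_on (on_ip s y) _ k1) a2, c2,
    mul_div_cancel_right₀ _ a2]

theorem loc_surj (h : Pc M) (hS : Pc S) (hR : Rst s) (hs : M.Snc {P}) (hi : IsInt L)
    (h0 : L P = 0) {w : L'} (hw : Ls S y (s.rs L) w) : ∃ c, Ls M (ip s y) L c ∧ s.res c = w := by
  have ht := Lift.lg_eqD (x := ip s y) h.loc hi
  have h1 := ht.res h.loc hS.loc hR h0
  obtain ⟨c, c1, c2⟩ := loc_surj₀ h hS hR hs ((ls_iff hS.loc h1).1 hw)
  have k : Ls M (ip s y) L (c / Lift.eqD M (ip s y) L) := by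
    rw [ls_iff h.loc ht, div_mul_cancel₀ _ ht.1]; exact c1
  refine ⟨_, k, ?_⟩
  rw [res_div_of (ht.ring h0) (ls_ring k (on_ip s y) h0) h1.1, c2, mul_div_cancel_right₀ _ h1.1]

theorem ls_sub_single {x : M.F} (h0 : L P = 0) (h : Ls M x L f) (h1 : M.On x P → s.res f = 0) :
    Ls M x (L - Finsupp.single P 1) f := by
  refine or_iff_not_imp_left.2 fun f0 Q hQ => ?_
  by_cases e : Q = P
  · subst e
    have := ((s.res_zero f (ls_ring h hQ h0)).1 (h1 hQ)).resolve_left f0
    rw [Finsupp.sub_apply, h0, Finsupp.single_eq_same]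
    have : (1 : ℝ) ≤ Q.ord f := by exact_mod_cast this
    linarith
  · rw [Finsupp.sub_apply, Finsupp.single_eq_of_ne e, sub_zero]
    exact h.resolve_left f0 Q hQ

theorem res_of_sub {x : M.F} (h0 : L P = 0) (h : Ls M x (L - Finsupp.single P 1) f)
    (hP : M.On x P) : s.res f = 0 := by
  refine (s.res_zero f (ls_ring (ls_mono h
    (sub_le_self _ (Finsupp.single_nonneg.2 zero_le_one))) hP h0)).2 (h.imp_right fun k => ?_)
  have := k P hP
  rw [Finsupp.sub_apply, h0, Finsupp.single_eq_same] at this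
  exact_mod_cast (by linarith : (0 : ℝ) < P.ord f)

/-- the lifting lemma -/
theorem h1z_lift (h : Pc M) (hS : Pc S) (hR : Rst s) (hs : M.Snc {P}) (hi : IsInt L)
    (h0 : L P = 0) (hz : H1z M (L - Finsupp.single P 1)) {c : M.F → K}
    (hc : ∀ x, ∀ᶠ y in 𝓝 x, Ls M y L (c x - c y)) (hr : ∀ y, c (ip s y) ∈ P.ring) {w : L'}
    (hw : ∀ y, Ls S y (s.rs L) (w - s.res (c (ip s y)))) :
    ∃ f, (∀ x, Ls M x L (f - c x)) ∧ s.res f = w := by
  have key : ∀ x, ∃ a, Ls M x L a ∧ (M.On x P → c x + a ∈ P.ring ∧ s.res (c x + a) = w) := by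
    intro x
    by_cases hx : M.On x P
    · obtain ⟨y, hy, e⟩ := (s.on x).1 hx
      obtain rfl : ip s ⟨y, hy⟩ = x := Subtype.ext e
      obtain ⟨a, a1, a2⟩ := loc_surj h hS hR hs hi h0 (hw ⟨y, hy⟩)
      have := ls_ring a1 hx h0
      exact ⟨a, a1, fun _ => ⟨add_mem (hr _) this, by
        rw [s.res_add _ (hr _) _ this, a2, add_sub_cancel]⟩⟩
    · exact ⟨0, ls_zero, fun k => (hx k).elim⟩
  choose a a1 a2 using key
  have le : L - Finsupp.single P 1 ≤ L := sub_le_self _ (Finsupp.single_nonneg.2 zero_le_one)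
  obtain ⟨f, hf⟩ := hz (fun x => c x + a x) fun x => by
    filter_upwards [hc x, ls_near h.loc (a1 x), h.loc.near x P] with y k1 k2 k3
    refine ls_sub_single (s := s) h0 ?_ fun k => ?_
    · rw [add_sub_add_comm]; exact ls_add k1 (ls_sub k2 (a1 y))
    · rw [res_sub' (a2 x (k3 k)).1 (a2 y k).1, (a2 x (k3 k)).2, (a2 y k).2, sub_self]
  refine ⟨f, fun x => ?_, ?_⟩
  · have := ls_add (ls_mono (hf x) le) (a1 x)
    rwa [show f - (c x + a x) + a x = f - c x by ring] at this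
  · obtain ⟨y, hy⟩ := S.conn.nonempty
    have k := on_ip s ⟨y, hy⟩
    have := s.res_add _ (ls_ring (ls_mono (hf _) le) k h0) _ (a2 _ k).1
    rwa [sub_add_cancel, res_of_sub h0 (hf _) k, zero_add, (a2 _ k).2] at this

theorem h1z_res (h : Pc M) (hS : Pc S) (hR : Rst s) (hs : M.Snc {P}) (hi : IsInt L)
    (h0 : L P = 0) (hz : H1z M (L - Finsupp.single P 1)) (hz' : H1z S (s.rs L)) : H1z M L := by
  intro c hc
  have ct : Continuous (ip s) := (s.cont.comp continuous_subtype_val).subtype_mk _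
  have := Subtype.preconnectedSpace S.conn.isPreconnected
  have k : ∀ y y', c (ip s y) - c (ip s y') ∈ P.ring :=
    PreconnectedSpace.induction₂' (fun y y' => c (ip s y) - c (ip s y') ∈ P.ring) (fun y => by
      filter_upwards [ct.continuousAt.eventually (hc (ip s y))] with y' hy
      have := ls_ring hy (on_ip s y') h0
      exact ⟨this, by rw [← neg_sub]; exact neg_mem this⟩)
      ⟨fun _ _ _ a b => by simpa using add_mem a b⟩
  obtain ⟨y₀, hy⟩ := S.conn.nonempty
  obtain ⟨w, hw⟩ := hz' (fun y => s.res (c (ip s y) - c (ip s ⟨y₀, hy⟩))) fun y => by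
    filter_upwards [ct.continuousAt.eventually (hc (ip s y))] with y' hy'
    rw [← res_sub' (k _ _) (k _ _), sub_sub_sub_cancel_right]
    exact ls_res h.loc hS.loc hR hi h0 hy'
  obtain ⟨f, hf, -⟩ := h1z_lift h hS hR hs hi h0 hz (c := fun x => c x - c (ip s ⟨y₀, hy⟩))
    (by simpa only [sub_sub_sub_cancel_right] using hc) (fun y => k _ _) hw
  exact ⟨f + c (ip s ⟨y₀, hy⟩), fun x => by convert hf x using 1; ring⟩

/-- `H¹(L - P) = 0`: all the sections of the restriction lift -/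
theorem h1z_onto (h : Pc M) (hS : Pc S) (hR : Rst s) (hs : M.Snc {P}) (hi : IsInt L)
    (h0 : L P = 0) (hz : H1z M (L - Finsupp.single P 1)) {w : L'} (hw : w ∈ S.H0 (s.rs L)) :
    ∃ f ∈ M.H0 L, s.res f = w := by
  obtain ⟨f, h1, h2⟩ := h1z_lift h hS hR hs hi h0 hz (c := fun _ => 0) (w := w)
    (fun x => .of_forall fun y => by simpa using ls_zero) (fun _ => zero_mem _)
    fun y => by simpa [res_zero'] using ls_of_mem hw y
  exact ⟨f, mem_of_ls (by simpa using h1), h2⟩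

end res

section sub

variable {M : Mdl (n + 1) N K} {P : Place K} {L : Div K}

theorem ut_ne (h : Pc M) (u : SubM M P) : u.t ≠ 0 := fun e => by
  have := u.ht
  simp [e, div_apply h.loc _ (pr_sub u.s)] at this

theorem h1z_step (h : Pc M) (u : SubM M P) (hs : M.Snc {P}) (hi : IsInt L)
    (hz : H1z M (L - Finsupp.single P 1)) (hz' : H1z u.S (u.r L)) : H1z M L := by
  obtain ⟨k, hk⟩ := hi P
  have e : nr M P u.t L = L - (k : ℝ) • M.div u.t := by rw [nr_apply, hk]
  have := h1z_div h.loc (h1z_res h (h.sub u hs) u.rst hs (L := nr M P u.t L)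
    (e ▸ IsInt.sub hi (IsInt.zsmul (int_div h.loc _) k)) (nr_self u.ht L)
    (by rw [e, sub_right_comm]; exact h1z_div h.loc hz (ut_ne h u) k) hz') (ut_ne h u) (-k)
  rwa [e, Int.cast_neg, neg_smul, sub_neg_eq_add, sub_add_cancel] at this

theorem free_step (h : Pc M) (u : SubM M P) (hs : M.Snc {P}) (hi : IsInt L)
    (hz : H1z M (L - Finsupp.single P 1)) {y : u.S.F} (hy : u.S.Free (u.r L) y) :
    M.Free L (ip u.s y) := by
  obtain ⟨k, hk⟩ := hi P
  have e : nr M P u.t L = L - (k : ℝ) • M.div u.t := by rw [nr_apply, hk]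
  have h1 : IsInt (nr M P u.t L) := e ▸ IsInt.sub hi (IsInt.zsmul (int_div h.loc _) k)
  obtain ⟨w, w1, w2⟩ := Mu.free_iff.1 hy
  obtain ⟨f, f1, rfl⟩ := h1z_onto h (h.sub u hs) u.rst hs h1 (nr_self u.ht L)
    (by rw [e, sub_right_comm]; exact h1z_div h.loc hz (ut_ne h u) k) w1
  refine free_of_div h.loc (ut_ne h u) k (e ▸ Mu.free_iff.2 ⟨f, f1, ?_⟩)
  exact lg_of_res h.loc (h.sub u hs).loc u.rst h1 (nr_self u.ht L) f1 w2

theorem mem_clos {T : Set (Place K)} {F : Div K} (hi : IsInt F) (h0 : 0 ≤ F)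
    (hT : (F.support : Set (Place K)) ⊆ T) :
    F ∈ AddSubmonoid.closure ((fun P => Finsupp.single P (1 : ℝ)) '' T) := by
  rw [eq_sum_single (E := F) (T := F.support) subset_rfl]
  refine sum_mem fun Q hQ => ?_
  obtain ⟨k, hk⟩ := Lift.exists_nat (hi Q) (h0 Q)
  rw [← hk, Nat.cast_smul_eq_nsmul]
  exact nsmul_mem (AddSubmonoid.subset_closure (mem_image_of_mem _ (hT hQ))) k

theorem h1z_chain (hK : KV n) (h : Pc M) {A B F : Div K} {T : Set (Place K)} (hA : IsInt A)
    (hB : IsInt B) (hT : ∀ P ∈ T, M.Snc {P} ∧ ∃ u : SubM M P, u.S.Amp (u.r A) ∧ u.S.Amp (u.r B))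
    (hF : F ∈ AddSubmonoid.closure ((fun P => Finsupp.single P (1 : ℝ)) '' T)) :
    IsInt F ∧ ∀ᶠ m : ℕ in atTop, ∀ j k : ℕ, j + k = m → H1z M ((j : ℝ) • A + (k : ℝ) • B) →
      H1z M ((j : ℝ) • A + (k : ℝ) • B + F) := by
  induction hF using AddSubmonoid.closure_induction_right with
  | zero => exact ⟨IsInt.zero, .of_forall fun _ _ _ _ k => by simpa using k⟩
  | add_right F _ _ hP ih =>
    obtain ⟨P, hP, rfl⟩ := hP
    obtain ⟨hs, u, u1, u2⟩ := hT P hP
    have hS := h.sub u hs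
    obtain ⟨κ, hκ⟩ := hS.can
    have i1 := IsInt.add ih.1 (IsInt.single P)
    refine ⟨i1, ?_⟩
    filter_upwards [ih.2, Dg.amp_ev hS.pos u1 (u.r (F + Finsupp.single P 1) - κ),
      Dg.amp_ev hS.pos u2 (u.r (F + Finsupp.single P 1) - κ), eventually_gt_atTop 0]
      with m k1 k2 k3 k4 j k e hz
    have i2 := IsInt.add (IsInt.add (IsInt.nsmul hA j) (IsInt.nsmul hB k)) i1
    refine h1z_step h u hs i2 (by rw [← add_assoc, add_sub_cancel_right]; exact k1 j k e hz)
      (h1z_kv hK hS hκ (gd_r h.loc u i2).2 ?_)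
    have m0 : (0 : ℝ) < m := Nat.cast_pos.2 k4
    have e' : (j : ℝ) + k = m := by exact_mod_cast e
    have := amp_comb hS.pos k2 k3 (a := j / m) (b := k / m) (by positivity) (by positivity)
      (by rw [← add_div, e']; positivity)
    convert this using 1
    rw [map_add _ _ (F + _), map_add _ (_ • A), map_smul, map_smul]
    generalize u.r (F + Finsupp.single P 1) = Z
    subst e
    push_cast at m0
    match_scalars <;> field_simp
    ring

/-- the criterion of Nakai, integral form -/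
theorem nak_int (hK : KV n) (hK' : KV (n + 1)) (h : Pc M) {A E : Div K} (hA : M.Amp A)
    (iA : IsInt A) (iE : IsInt E) (h0 : 0 ≤ E)
    (hT : ∀ P ∈ E.support, M.Snc {P} ∧ ∃ u : SubM M P, u.S.Amp (u.r (A + E))) :
    M.Nef (A + E) := by
  have iB := IsInt.add iA iE
  have hT' : ∀ P ∈ (E.support : Set (Place K)), M.Snc {P} ∧
      ∃ u : SubM M P, u.S.Amp (u.r A) ∧ u.S.Amp (u.r (A + E)) := fun P hP =>
    let ⟨a, u, b⟩ := hT P hP
    ⟨a, u, h.r_amp u a hA, b⟩
  obtain ⟨κ, hκ⟩ := h.can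
  obtain ⟨m₀, hm⟩ := h.pos.gg A 0 hA iA IsInt.zero
  have all : ∀ᶠ m : ℕ in atTop, ∀ k j : ℕ, j + k = m → H1z M ((j : ℝ) • A + (k : ℝ) • (A + E)) := by
    filter_upwards [(h1z_chain hK h iA iB hT' (mem_clos iE h0 subset_rfl)).2,
      Dg.amp_ev h.pos hA (-κ)] with m k1 k2 k
    induction k with
    | zero =>
      rintro j rfl
      simpa using h1z_kv hK' h hκ (IsInt.nsmul iA j) (by simpa [sub_eq_add_neg] using k2)
    | succ k ih =>
      intro j e
      convert k1 (j + 1) k (by omega) (ih (j + 1) (by omega)) using 1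
      push_cast
      module
  have on : ∀ P ∈ E.support, ∀ᶠ m : ℕ in atTop, ∀ x, M.On x P → M.Free ((m : ℝ) • (A + E)) x := by
    intro P hP
    obtain ⟨hs, u, hu⟩ := hT P hP
    have hS := h.sub u hs
    obtain ⟨m₁, h1⟩ := hS.pos.gg _ 0 hu (gd_r h.loc u iB).2 IsInt.zero
    have h2 : 0 ≤ E - Finsupp.single P 1 := fun Q => by
      by_cases e : Q = P
      · obtain ⟨k, hk⟩ := Lift.exists_nat (iE Q) (h0 Q)
        have : k ≠ 0 := fun k0 => Finsupp.mem_support_iff.1 hP (by rw [← e, ← hk, k0]; simp)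
        have : (1 : ℝ) ≤ k := by exact_mod_cast Nat.pos_of_ne_zero this
        simp only [Finsupp.sub_apply, ← hk, ← e, Finsupp.single_eq_same, Finsupp.zero_apply]
        linarith
      · simpa [Finsupp.single_eq_of_ne e] using h0 Q
    have h3 : ((E - Finsupp.single P 1).support : Set (Place K)) ⊆ E.support := fun Q hQ => by
      by_contra k
      have e : Q ≠ P := fun e => k (e ▸ hP)
      have := Finsupp.notMem_support_iff.1 k
      simp [Finsupp.single_eq_of_ne e, this] at hQ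
    filter_upwards [all, (h1z_chain hK h iA iB hT'
      (mem_clos (IsInt.sub iE (IsInt.single P)) h2 h3)).2, eventually_ge_atTop m₁,
      eventually_gt_atTop 0] with m k1 k2 k3 k4 x hx
    obtain ⟨y, hy, e⟩ := (u.s.on x).1 hx
    obtain rfl : ip u.s ⟨y, hy⟩ = x := Subtype.ext e
    obtain ⟨k, rfl⟩ := Nat.exists_eq_add_one_of_ne_zero k4.ne'
    refine free_step h u hs (IsInt.nsmul iB _) ?_ (by simpa using h1 _ k3 ⟨y, hy⟩)
    convert k2 1 k (by omega) (k1 k 1 (by omega)) using 1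
    push_cast
    module
  obtain ⟨m, k1, k2, k3⟩ := (((eventually_all_finset _).2 on).and
    ((eventually_ge_atTop m₀).and (eventually_gt_atTop 0))).exists
  have m0 : (0 : ℝ) < m := Nat.cast_pos.2 k3
  have := nef_smul h.pos (h.pos.free _ (IsInt.nsmul iB m) fun x => ?_) (inv_pos.2 m0).le
  · rwa [smul_smul, inv_mul_cancel₀ m0.ne', one_smul] at this
  by_cases hx : ∃ P ∈ E.support, M.On x P
  · obtain ⟨P, p1, p2⟩ := hx
    exact k1 P p1 x p2
  · obtain ⟨f, f1, f2, f3⟩ := hm m k2 x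
    refine ⟨f, H0_mono ?_ f1, f2, fun P hP => ?_⟩
    · rw [zero_add, smul_add]; exact le_add_of_nonneg_right (smul_nonneg m0.le h0)
    · have : E P = 0 := by_contra fun e => hx ⟨P, Finsupp.mem_support_iff.2 e, hP⟩
      simpa [this] using f3 P hP

/-- **effective divisors with nef restrictions to their (smooth) components are nef** -/
theorem nak (hK : KV n) (hK' : KV (n + 1)) (h : Pc M) {D E : Div K} (hE : Rep M D E)
    (hT : ∀ P ∈ E.support, M.Snc {P} ∧ ∃ u : SubM M P, u.S.Nef (u.r D)) : M.Nef D := by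
  refine nef_congr h.loc h.pos (fun A hA => ?_) (by simpa using neg_mem hE.2 : D - E ∈ PrR M)
  obtain ⟨H, hH⟩ := h.pol
  obtain ⟨p, p0, hp⟩ : ∃ p : ℕ, 0 < p ∧ M.Amp (A + (-(2 / p : ℝ)) • H) := by
    have t : Tendsto (fun p : ℕ => -(2 / p : ℝ)) atTop (𝓝 0) := by
      simpa using (tendsto_const_div_atTop_nhds_zero_nat (2 : ℝ)).neg
    exact ((eventually_gt_atTop 0).and (t.eventually (F5.amp_ev h.pos hA H))).exists
  have p1 : (0 : ℝ) < p := Nat.cast_pos.2 p0
  obtain ⟨ε, e0, he⟩ := amp_small h.pos (h.pos.smul H _ (inv_pos.2 p1) hH.amp)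
    E.support.finite_toSet
  obtain ⟨q, hq⟩ := exists_nat_gt ε⁻¹
  have q1 : (0 : ℝ) < q := (inv_pos.2 e0).trans hq
  have pq : (0 : ℝ) < p * q := mul_pos p1 q1
  set G : Div K := E.mapRange (fun c : ℝ => ((⌊(p : ℝ) * q * c⌋ : ℤ) : ℝ)) (by simp) with hG
  have G1 : (G.support : Set (Place K)) ⊆ E.support :=
    Finset.coe_subset.2 Finsupp.support_mapRange
  have G2 : ∀ Q, |((p * q : ℝ)⁻¹ • G - E) Q| ≤ ε := fun Q => by
    have a := Int.floor_le (p * q * E Q)
    have b := Int.lt_floor_add_one (p * q * E Q)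
    have c : ((p * q : ℝ)⁻¹ • G - E) Q = (⌊p * q * E Q⌋ - p * q * E Q) / (p * q) := by
      simp only [hG, Finsupp.sub_apply, Finsupp.smul_apply, Finsupp.mapRange_apply, smul_eq_mul]
      field_simp
    have d : 1 ≤ ε * (p * q) := by
      have : (1 : ℝ) ≤ p := by exact_mod_cast p0
      have k := (inv_lt_iff_one_lt_mul₀' e0).1 hq
      nlinarith [mul_pos e0 q1]
    rw [c, abs_div, abs_of_pos pq, div_le_iff₀ pq, abs_le]
    constructor <;> linarith
  have G3 : (((p * q : ℝ)⁻¹ • G - E).support : Set (Place K)) ⊆ E.support := fun Q hQ => by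
    by_contra k
    have a := Finsupp.notMem_support_iff.1 k
    have b := Finsupp.notMem_support_iff.1 fun k' => k (G1 k')
    simp [a, b] at hQ
  have k1 := nak_int hK hK' h (A := (q : ℝ) • H) (E := G) (h.pos.smul H _ q1 hH.amp)
    (IsInt.nsmul hH.int q) (fun Q => ⟨_, Finsupp.mapRange_apply⟩)
    (fun Q => by
      simpa [hG] using Int.floor_nonneg.2 (mul_nonneg pq.le (hE.1 Q))) fun P hP => by
      obtain ⟨hs, u, hu⟩ := hT P (G1 hP)
      have hS := h.sub u hs
      refine ⟨hs, u, ?_⟩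
      have := hS.pos.smul _ _ pq (nef_congr hS.loc hS.pos hu (E := u.r E)
        (by rw [← map_sub]; exact h.r_prR u hs hE.2) _ (h.r_amp u hs (he _ G3 G2)))
      convert this using 1
      rw [← map_add, ← map_smul]
      congr 1
      match_scalars <;> field_simp <;> ring
  have k2 := he (-((p * q : ℝ)⁻¹ • G - E)) (by rwa [Finsupp.support_neg])
    fun Q => by rw [Finsupp.neg_apply, abs_neg]; exact G2 Q
  convert amp_add_nef (h.pos.add _ _ hp k2) (nef_smul h.pos k1 (inv_pos.2 pq).le) using 1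
  match_scalars <;> field_simp <;> ring

end sub

end Vale.Agent.P287D.I
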