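import Vale.Agent.P277Z.F5.Fin

/-!
# P287D, intersection numbers: pull backs compose; smooth prime divisors lift
-/

set_option linter.all false

open Set
open Vale.Agent.P297 (Place)
open Vale.Agent.P277Z Vale.Agent.P277Z.FI Vale.Agent.P277Z.F5

noncomputable section

namespace Vale.Agent.P287D.I

variable {n N : ℕ} {K : Type} [Field K] [Algebra ℂ K] {M M' M'' : Mdl n N K}

/-- a centre upstairs gives a centre downstairs -/
theorem ct_down {m : Mod M' M} (hB : Bir M' M m) {y : M'.F} {Q : Place K} (h : M'.Ct y Q) :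
    M.Ct (pt m y) Q := fun f hf => h f ((hB.le y (pt m y) rfl).1 hf)

theorem ordAt_pull (hL' : Loc M') {m : Mod M' M} (hB : Bir M' M m) {y : M'.F} {Q : Place K}
    (h : M'.Ct y Q) (D : P277Z.Div K) : M'.ordAt y Q (M.pull M' D) = M.ordAt (pt m y) Q D := by
  induction D using Finsupp.induction_linear with
  | zero =>
    rw [← pl_apply hB, map_zero]
    simp [Mdl.ordAt]
  | add D E h1 h2 => rw [← pl_apply hB, map_add, ordAt_add, ordAt_add, pl_apply, pl_apply, h1, h2]
  | single P c =>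
    have k : M'.ordAt y Q (M.pull M' (Finsupp.single P c) + (-c) • M'.div (M.eqn (pt m y) P)) = 0 :=
      ordAt_eq_zero Q fun R hR => by
        rw [Finsupp.add_apply, pull_on hB hR, ordAt_single, Finsupp.smul_apply,
          div_apply hL' _ ⟨y, hR⟩, smul_eq_mul]
        ring
    rw [ordAt_add, ordAt_smul, ordAt_div hL' h (eqn_ne _ _)] at k
    rw [ordAt_single]
    linarith

/-- the order at a place does not depend on the model -/
theorem ordD_pull (hL : Loc M) (hL' : Loc M') {m : Mod M' M} (hB : Bir M' M m) {Q : Place K}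
    (h : ∃ y, M'.Ct y Q) (D : P277Z.Div K) : M'.ordD Q (M.pull M' D) = M.ordD Q D := by
  obtain ⟨y, h⟩ := h
  rw [Bi.ordD_eq hL' h, Bi.ordD_eq hL (ct_down hB h), ordAt_pull hL' hB h]

theorem pull_apply (hL : Loc M) {m : Mod M' M} (hB : Bir M' M m) {Q : Place K} (h : M'.Pr Q)
    (D : P277Z.Div K) : M.pull M' D Q = M.ordD Q D := by
  obtain ⟨y, h⟩ := h
  rw [pull_on hB h, Bi.ordD_eq hL (ct_pt hB h)]

theorem pull_pull' (hL : Loc M) (hL' : Loc M') {m : Mod M' M} {m' : Mod M'' M'} {m'' : Mod M'' M}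
    (hB : Bir M' M m) (hB' : Bir M'' M' m') (hB'' : Bir M'' M m'') (D : P277Z.Div K) :
    M'.pull M'' (M.pull M' D) = M.pull M'' D :=
  dv_ext (dv_pull _) (dv_pull _) fun Q hQ => by
    obtain ⟨y, hy⟩ := id hQ
    rw [pull_apply hL' hB' hQ, pull_apply hL hB'' hQ, ordD_pull hL hL' hB ⟨_, ct_pt hB' hy⟩]

theorem pull_tr {m : Mod M' M} (hB : Bir M' M m) (D : P277Z.Div K) : M.pull M' (M.tr D) = M.pull M' D :=
  dv_ext (dv_pull _) (dv_pull _) fun Q ⟨y, hy⟩ => by
    have k : M.ordAt (pt m y) Q (M.tr D + (-1 : ℝ) • D) = 0 := ordAt_eq_zero Q fun R hR => by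
      rw [Finsupp.add_apply, tr_apply ⟨_, hR⟩, Finsupp.smul_apply, smul_eq_mul]
      ring
    rw [ordAt_add, ordAt_smul] at k
    rw [pull_on hB hy, pull_on hB hy]
    linarith

/-- the pull back of an exceptional divisor is exceptional -/
theorem pull_exc (hL' : Loc M') {m : Mod M' M} {m' : Mod M'' M'} (hB : Bir M' M m)
    (hB' : Bir M'' M' m') {E : P277Z.Div K} (hE : (E.support : Set (Place K)) ⊆ Exc M' M) :
    ((M'.pull M'' E).support : Set (Place K)) ⊆ Exc M'' M := fun Q hQ =>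
  ⟨dv_pull E Q hQ, fun a => Finsupp.mem_support_iff.1 hQ (by
    rw [pull_pr hL' hB' (hB.pr Q a)]
    exact by_contra fun c => (hE (Finsupp.mem_support_iff.2 c)).2 a)⟩

/-- the difference of a divisor and the pull back of its trace is exceptional -/
theorem sub_pull_exc (hL : Loc M) {m : Mod M' M} (hB : Bir M' M m) {D : P277Z.Div K} (hD : M'.Dv D) :
    ((D - M.pull M' D).support : Set (Place K)) ⊆ Exc M' M := fun Q hQ =>
  ⟨dv_sub hD (dv_pull _) Q hQ, fun a => Finsupp.mem_support_iff.1 hQ (by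
    rw [Finsupp.sub_apply, pull_pr hL hB a, sub_self])⟩

/-- a higher model on which everything exceptional has simple normal crossings -/
theorem exists_snc (hM : M.Proj) (hM' : M'.Proj) (m : Mod M' M) {T : Set (Place K)} (hT : T.Finite)
    (hp : ∀ P ∈ T, M'.Pr P) : ∃ (M'' : Mdl n N K) (_ : Mod M'' M'), M''.Proj ∧
      M''.Snc (T ∪ Exc M'' M) := by
  have b := box.bir n N K M hM M' m hM'
  obtain ⟨M'', ⟨m'⟩, h1, h2⟩ := box.hir n N K M' hM' (T ∪ Exc M' M) 0 Fin.elim0 (hT.union b.fin)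
    fun j => j.elim0
  have b' := box.bir n N K M' hM' M'' m' h1
  refine ⟨M'', m', h1, fun P hP => hP.elim (fun a => b'.pr P (hp P a)) And.left, fun y =>
    (h2 y).2.imp fun t ht => ⟨ht.1, fun P a c => ht.2 P c (Or.inl ?_)⟩⟩
  by_cases e : M'.Pr P
  · exact Or.inl (a.imp_right fun k => ⟨e, k.2⟩)
  · exact Or.inr ⟨⟨y, c⟩, e⟩

section sub

variable {M M' : Mdl (n + 1) N K} {P : Place K}

theorem t_ne (hL : Loc M) (u : SubM M P) : u.t ≠ 0 := fun e => by
  have := u.ht
  rw [div_apply hL _ (pr_sub u.s), e, P297Z.Pl.ord_zero, Int.cast_zero] at this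
  exact zero_ne_one this

/-- the strict transform of a smooth prime divisor -/
theorem exists_lift (hM : M.Proj) (hM' : M'.Proj) (m : Mod M' M) (u : SubM M P)
    (hP : M.Snc {P}) (hP' : M'.Snc {P}) :
    ∃ (S' : Mdl n N u.L) (s' : Sub S' M' P) (_ : Mod S' u.S) (hS' : S'.Proj) (hR' : Rst s')
      (ht : M'.div u.t P = 1), s'.res = u.s.res ∧
      (∀ D, rsn hR' ht (M.pull M' D) = u.S.pull S' (u.r D)) ∧
      (M.pull M' (Finsupp.single P 1) = Finsupp.single P 1 → ∀ E : P277Z.Div K,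
        (E.support : Set (Place K)) ⊆ Exc M' M →
        ((rsn hR' ht E).support : Set (Place u.L)) ⊆ Exc S' u.S) := by
  have hL := box.loc _ N K M hM
  have hL' := box.loc _ N K M' hM'
  have b := box.bir _ N K M hM M' m hM'
  obtain ⟨S', s', m', hS', e1, e2⟩ := u.rst.mod M' m hM' hP'
  have hR' := box.rst _ N K M' hM' u.L S' P s' hP'
  have q1 := hP.1 P rfl
  have ht : M'.div u.t P = 1 := by rw [div_apply hL' _ (b.pr P q1), ← div_apply hL _ q1, u.ht]
  refine ⟨S', s', m', hS', hR', ht, e1, fun D => ?_, fun e3 E hE => ?_⟩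
  · rw [SubM.r, rsn_apply, rsn_apply, ← e2 _ (nr_self u.ht D), nr_apply, nr_apply,
      ← pl_apply b (_ - _), map_sub, map_smul, pl_apply, pl_apply, pull_div hL hL' b (t_ne hL u),
      pull_pr hL b q1]
  · rw [rsn_of_zero hR' ht (by_contra fun c => (hE (Finsupp.mem_support_iff.2 c)).2 q1)]
    exact exc_supp hL hL' (box.loc _ N _ u.S u.proj) (box.loc _ N _ S' hS') b
      (box.bir _ N _ u.S u.proj S' m' hS') u.rst hR' hP e1 e2 e3 hE

end sub

/-- general members of a free system are their own pull backs -/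
theorem exists_cut (hM : M.Proj) (hM' : M'.Proj) (m : Mod M' M) (hx : M'.Snc (Exc M' M))
    {H : P277Z.Div K} (hd : M.Dv H) (hi : IsInt H) (hf : ∀ x, M.Free H x) :
    ∃ (f : K) (Y : Finset (Place K)), f ≠ 0 ∧ M.div f + H = ∑ P ∈ Y, Finsupp.single P 1 ∧
      M'.div f + M.pull M' H = ∑ P ∈ Y, Finsupp.single P 1 ∧ ∀ P ∈ Y, M.Snc {P} ∧ M'.Snc {P} ∧
        M.pull M' (Finsupp.single P 1) = Finsupp.single P 1 := by
  classical
  have hL := box.loc _ N K M hM
  have hL' := box.loc _ N K M' hM'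
  have b := box.bir _ N K M hM M' m hM'
  obtain ⟨f, Y, hf, e1, e2, -, -, e3, -, e5⟩ := bt tb n N K M hM M' m ∅ _ ∅ H hM' finite_empty
    (Dg.snc_empty hL) b.fin hx subset_rfl finite_empty hd hi hf
  have hY : ∀ P ∈ Y, M.Snc {P} := fun P hP => snc_mono e3 (by simpa using hP)
  have e6 : M.pull M' (Cn.rd Y) = Cn.rd Y := by
    rw [Cn.rd, ← e1, ← pl_apply b, map_add, pl_apply, pl_apply, pull_div hL hL' b hf, e2, e1]
  refine ⟨f, Y, hf, e1, e2, fun P hP => ⟨hY P hP, snc_mono e5 (by simp [hP]), ?_⟩⟩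
  ext Q
  by_cases hQ : M.Pr Q
  · exact pull_pr hL b hQ _
  · have a := pull_nonneg b (sub_nonneg.2 (Cn.single_le_rd hP)) Q
    rw [← pl_apply b, map_sub, pl_apply, pl_apply, e6, Finsupp.sub_apply, Cn.rd_apply,
      if_neg fun c => hQ ((hY Q c).1 Q rfl)] at a
    rw [dv_iff.1 (dv_single ((hY P hP).1 P rfl) 1) Q hQ]
    exact le_antisymm (by simpa using a) (pull_nonneg b (Finsupp.single_nonneg.2 zero_le_one) Q)

end Vale.Agent.P287D.I
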