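import Vale.Agent.P287D.I.Pos
import Vale.Agent.P287D.I.Pull

/-!
# P287D, intersection numbers: the projection formula for modifications
-/

set_option linter.all false

open Set
open Vale.Agent.P297 (Place)
open Vale.Agent.P277Z Vale.Agent.P277Z.FI Vale.Agent.P277Z.F5 Vale.Agent.P277Z.F5.Dg

noncomputable section

namespace Vale.Agent.P287D.I

variable {n N : ℕ} {K : Type} [Field K] [Algebra ℂ K]

theorem r_tr {M : Mdl (n + 1) N K} {P : Place K} (u : SubM M P) (D : Div K) :
    u.r (M.tr D) = u.r D := by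
  have k : ∀ R, M.Pr R → (M.tr D - D) R = 0 := fun R hR => by
    rw [Finsupp.sub_apply, tr_apply hR, sub_self]
  rw [← sub_eq_zero, ← map_sub, SubM.r, rsn_of_zero _ _ (k P (pr_sub u.s))]
  refine dv_ext (dv_rs _ _) dv_zero fun Q ⟨y, hy⟩ => ?_
  rw [u.rst.rs y Q _ (k P (pr_sub u.s)) hy]
  refine Finset.sum_eq_zero fun R hR => ?_
  beta_reduce
  rw [eqn_off fun c => Finsupp.mem_support_iff.1 hR (k R ⟨_, c⟩), res_one]
  simp

/-- restriction to a smooth prime divisor, for all arguments -/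
theorem num_res' {M : Mdl (n + 1) N K} (h : Pc M) {P : Place K} (u : SubM M P) (hs : M.Snc {P})
    (a : Fin n → Div K) :
    num M (Fin.cons (Finsupp.single P 1) a) = num u.S fun i => u.r (a i) := by
  have k := num_res h u hs fun i => dv_tr (a i)
  simp only [r_tr] at k
  rw [← k]
  exact num_congr (Fin.cases rfl fun i => (tr_of_dv (dv_tr _)).symm)

namespace Pj

/-- linear forms that agree on polarisations agree on divisors -/
theorem ext_lin {M : Mdl n N K} (h : Pc M) {φ ψ : Div K →ₗ[ℝ] ℝ} (e : ∀ H, Pol M H → φ H = ψ H)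
    {D : Div K} (hD : M.Dv D) : φ D = ψ D := by
  have k : ∀ A, M.Dv A → M.Amp A → φ A = ψ A := fun A h1 h2 =>
    amp_ind h.pos (p := fun A => φ A = ψ A) (fun D E a b => by rw [map_add, map_add, a, b])
      (fun D c _ a => by rw [map_smul, map_smul, a]) e h1 h2
  obtain ⟨A, h1, -, h2⟩ := h.pos.ex
  obtain ⟨ε, h3, h4⟩ := h.pos.opn A D h2
  have := k _ (dv_add h1 (dv_smul hD ε)) h4
  rw [map_add, map_add, map_smul, map_smul, k A h1 h2, add_right_inj] at this
  exact smul_right_injective ℝ h3.ne' this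

theorem fst_cut {M : Mdl (n + 1) N K} (h : Pc M) (a : Fin n → Div K) {f : K} (hf : f ≠ 0)
    {H : Div K} {Y : Finset (Place K)} (e : M.div f + H = ∑ P ∈ Y, Finsupp.single P 1) :
    nc M a H = ∑ P ∈ Y, num M (Fin.cons (Finsupp.single P 1) a) := by
  have k : nc M a (M.div f) = 0 := num_prR h 0 (div_mem_prR hf)
  rw [← zero_add (nc M a H), ← k, ← map_add, e, map_sum]
  rfl

/-- pull backs -/
def PL (n : ℕ) : Prop := ∀ (N : ℕ) (K : Type) [Field K] [Algebra ℂ K] (M M' : Mdl n N K)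
  (_ : Mod M' M), Pc M → M'.Proj → ∀ a : Fin n → Div K,
    num M' (fun i => M.pull M' (a i)) = num M a

/-- exceptional divisors -/
def EX (n : ℕ) : Prop := ∀ (N : ℕ) (K : Type) [Field K] [Algebra ℂ K] (M M' : Mdl (n + 1) N K)
  (_ : Mod M' M), Pc M → M'.Proj → ∀ (E : Div K) (a : Fin n → Div K),
    (E.support : Set (Place K)) ⊆ Exc M' M → num M' (Fin.cons E fun i => M.pull M' (a i)) = 0

theorem pl_snc (ih : PL n) {M M' : Mdl (n + 1) N K} (m : Mod M' M) (h : Pc M) (h' : M'.Proj)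
    (hx : M'.Snc (Exc M' M)) (a : Fin (n + 1) → Div K) :
    num M' (fun i => M.pull M' (a i)) = num M a := by
  have b := h.bir m h'
  have k := ext_lin h (φ := nc M' (fun i => M.pull M' (a i.succ)) ∘ₗ pl b)
    (ψ := nc M fun i => a i.succ) (fun H hH => ?_) (dv_tr (a 0))
  · rw [LinearMap.comp_apply, pl_apply, pull_tr b, nc_apply, nc_apply] at k
    have e1 : (fun i => M.pull M' (a i)) =
        Fin.cons (M.pull M' (a 0)) fun i => M.pull M' (a i.succ) :=
      funext (Fin.cases rfl fun _ => rfl)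
    rw [e1, k]
    refine num_congr (Fin.cases ?_ fun _ => rfl)
    exact tr_of_dv (dv_tr _)
  obtain ⟨f, Y, hf, e1, e2, e3⟩ := exists_cut h.proj h' m hx hH.dv hH.int hH.free
  rw [LinearMap.comp_apply, pl_apply, fst_cut h _ hf e1, fst_cut (h.mod m h') _ hf e2]
  refine Finset.sum_congr rfl fun P hP => ?_
  obtain ⟨p1, p2, -⟩ := e3 P hP
  obtain ⟨u⟩ := h.ex_sub p1
  obtain ⟨S', s', m', hS', hR', ht, -, r1, -⟩ := exists_lift h.proj h' m u p1 p2
  rw [num_res' h u p1, num_res' (h.mod m h') ⟨u.L, S', s', hS', hR', u.t, ht⟩ p2,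
    ← ih N _ u.S S' m' (h.sub u p1) hS']
  exact congrArg _ (funext fun i => r1 _)

theorem pl_all : ∀ n, PL n
  | 0 => fun N K _ _ M M' m h h' a => by rw [num_zero h, num_zero (h.mod m h')]
  | n + 1 => fun N K _ _ M M' m h h' a => by
    have b := h.bir m h'
    obtain ⟨M'', m', h'', hx⟩ := exists_snc h.proj h' m finite_empty fun _ c => c.elim
    have k := h.mod m h'
    have b' := k.bir m' h''
    rw [← pl_snc (pl_all n) m' k h'' (snc_mono hx fun Q c => Or.inr ⟨c.1, fun d => c.2 (b.pr Q d)⟩),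
      ← pl_snc (pl_all n) (Mod.comp m' m) h h'' (snc_mono hx subset_union_right)]
    exact congrArg _ (funext fun i => pull_pull' h.loc k.loc b b' (h.bir (Mod.comp m' m) h'') _)

theorem ex_snc (ih : EX n) {M M' : Mdl (n + 2) N K} (m : Mod M' M) (h : Pc M) (h' : M'.Proj)
    (hx : M'.Snc (Exc M' M)) (E : Div K) (a : Fin (n + 1) → Div K)
    (hE : (E.support : Set (Place K)) ⊆ Exc M' M) :
    num M' (Fin.cons E fun i => M.pull M' (a i)) = 0 := by
  have b := h.bir m h'
  have k := ext_lin h (φ := nc M' (Fin.cons E fun i => M.pull M' (a i.succ)) ∘ₗ pl b)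
    (ψ := 0) (fun H hH => ?_) (dv_tr (a 0))
  · rw [LinearMap.comp_apply, pl_apply, pull_tr b, nc_apply, cons_swap (h.mod m h')] at k
    have e1 : (fun i => M.pull M' (a i)) =
        Fin.cons (M.pull M' (a 0)) fun i => M.pull M' (a i.succ) :=
      funext (Fin.cases rfl fun _ => rfl)
    rw [e1, k, LinearMap.zero_apply]
  obtain ⟨f, Y, hf, -, e2, e3⟩ := exists_cut h.proj h' m hx hH.dv hH.int hH.free
  rw [LinearMap.comp_apply, pl_apply, fst_cut (h.mod m h') _ hf e2, LinearMap.zero_apply]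
  refine Finset.sum_eq_zero fun P hP => ?_
  obtain ⟨p1, p2, p3⟩ := e3 P hP
  obtain ⟨u⟩ := h.ex_sub p1
  obtain ⟨S', s', m', hS', hR', ht, -, r1, r2⟩ := exists_lift h.proj h' m u p1 p2
  rw [num_res' (h.mod m h') ⟨u.L, S', s', hS', hR', u.t, ht⟩ p2,
    ← ih N _ u.S S' m' (h.sub u p1) hS' _ (fun i => u.r (a i.succ)) (r2 p3 E hE)]
  exact congrArg _ (funext (Fin.cases rfl fun i => r1 _))

theorem ex_all : ∀ n, EX n
  | 0 => fun N K _ _ M M' m h h' E a hE => by
    refine (num M').map_coord_zero 0 (Finsupp.ext fun Q => by_contra fun c => ?_)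
    exact Cn.exc_zero tb (cpA 1) h.proj h.cpt (h.bir m h') Q (hE (Finsupp.mem_support_iff.2 c))
  | n + 1 => fun N K _ _ M M' m h h' E a hE => by
    have b := h.bir m h'
    obtain ⟨M'', m', h'', hx⟩ := exists_snc h.proj h' m finite_empty fun _ c => c.elim
    have k := h.mod m h'
    have b' := k.bir m' h''
    rw [← pl_all _ N K M' M'' m' k h'', ← ex_snc (ex_all n) (Mod.comp m' m) h h''
      (snc_mono hx subset_union_right) _ a (pull_exc k.loc b b' hE)]
    exact congrArg _ (funext (Fin.cases rfl fun i =>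
      pull_pull' h.loc k.loc b b' (h.bir (Mod.comp m' m) h'') _))

end Pj

section

variable {M M' M'' : Mdl n N K}

theorem pull_pull (h : Pc M) (m : Mod M' M) (h' : M'.Proj) (m' : Mod M'' M') (h'' : M''.Proj)
    (D : Div K) : M'.pull M'' (M.pull M' D) = M.pull M'' D :=
  pull_pull' h.loc (h.mod m h').loc (h.bir m h') ((h.mod m h').bir m' h'')
    (h.bir (Mod.comp m' m) h'') D

/-- intersection numbers do not change under pull back -/
theorem num_pull (h : Pc M) (m : Mod M' M) (h' : M'.Proj) (a : Fin n → Div K) :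
    num M' (fun i => M.pull M' (a i)) = num M a := Pj.pl_all n N K M M' m h h' a

theorem vol_pull (h : Pc M) (m : Mod M' M) (h' : M'.Proj) (D : Div K) :
    vol M' (M.pull M' D) = vol M D := num_pull h m h' fun _ => D

end

section

variable {M M' : Mdl (n + 1) N K}

/-- exceptional divisors are orthogonal to pull backs -/
theorem num_exc (h : Pc M) (m : Mod M' M) (h' : M'.Proj) {E : Div K}
    (hE : (E.support : Set (Place K)) ⊆ Exc M' M) (a : Fin n → Div K) :
    num M' (Fin.cons E fun i => M.pull M' (a i)) = 0 := Pj.ex_all n N K M M' m h h' E a hE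

/-- **The projection formula.** -/
theorem num_proj (h : Pc M) (m : Mod M' M) (h' : M'.Proj) (D : Div K) (a : Fin n → Div K) :
    num M' (Fin.cons D fun i => M.pull M' (a i)) = num M (Fin.cons D a) := by
  have b := h.bir m h'
  have k := num_exc h m h' (E := M'.tr D - M.pull M' D) (fun Q hQ =>
    ⟨dv_sub (dv_tr D) (dv_pull D) Q hQ, fun c => Finsupp.mem_support_iff.1 hQ (by
      rw [Finsupp.sub_apply, tr_apply (b.pr Q c), pull_pr h.loc b c, sub_self])⟩) a
  rw [← nc_apply, map_sub, sub_eq_zero, nc_apply, nc_apply] at k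
  rw [← num_pull h m h']
  refine Eq.trans (num_congr (Fin.cases ?_ fun _ => rfl)) (k.trans
    (congrArg _ (funext (Fin.cases rfl fun _ => rfl))))
  exact (tr_of_dv (dv_tr _)).symm

/-- the intersection number with a prime divisor, on a smooth model of the prime divisor -/
theorem num_place (h : Pc M) (m : Mod M' M) (h' : M'.Proj) {P : Place K} (u : SubM M' P)
    (hs : M'.Snc {P}) (a : Fin n → Div K) :
    num M (Fin.cons (Finsupp.single P 1) a) = num u.S fun i => u.r (M.pull M' (a i)) := by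
  rw [← num_proj h m h', num_res' (h.mod m h') u hs]

/-- pull backs restricted to an exceptional prime -/
theorem num_r_exc (h : Pc M) (m : Mod M' M) (h' : M'.Proj) {P : Place K} (u : SubM M' P)
    (hs : M'.Snc {P}) (hP : ¬ M.Pr P) (a : Fin n → Div K) :
    num u.S (fun i => u.r (M.pull M' (a i))) = 0 := by
  rw [← num_place h m h' u hs, cons_off hP]

/-- every prime divisor is smooth on a higher model -/
theorem exists_smooth (h : M.Proj) {T : Set (Place K)} (hT : T.Finite) (hp : ∀ P ∈ T, M.Pr P) :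
    ∃ (M' : Mdl (n + 1) N K) (_ : Mod M' M), M'.Proj ∧ M'.Snc (T ∪ Exc M' M) :=
  exists_snc h h (Mod.refl M) hT hp

end

section big

variable {M M' : Mdl n N K} {D : Div K}

theorem Big.pull (h : Pc M) (m : Mod M' M) (h' : M'.Proj) (hD : Big M D) :
    Big M' (M.pull M' D) := by
  have b := h.bir m h'
  obtain ⟨A, -, h2, h3⟩ := hD
  obtain ⟨E, e1, -, e2, e3⟩ := b.amp
  obtain ⟨ε, e4, e5⟩ := e3 A h2
  refine ⟨_, dv_sub (dv_pull A) (dv_smul (fun Q hQ => (e1.subset hQ).1) ε), e5, ?_⟩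
  have k := (Eff.pull h.loc (h.mod m h').loc b h3).add (eff_of_nonneg (smul_nonneg e4.le e2))
  rw [← pl_apply b, map_sub, pl_apply, pl_apply] at k
  rwa [← sub_add]

theorem eff_tr (h : Pc M) (m : Mod M' M) (h' : M'.Proj) (hD : Eff M' D) : Eff M (M.tr D) :=
  let ⟨_, k⟩ := hD
  ⟨_, Rep.tr h.loc (h.mod m h').loc (h.bir m h') k⟩

theorem Big.tr (h : Pc M) (m : Mod M' M) (h' : M'.Proj) (hD : Big M' D) : Big M (M.tr D) := by
  have b := h.bir m h'
  have k := h.mod m h'
  obtain ⟨A', h1, h2, h3⟩ := hD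
  obtain ⟨A, a1, -, a2⟩ := h.pos.ex
  obtain ⟨ε, e1, e2⟩ := k.pos.opn A' (-M.pull M' A) h2
  refine ⟨ε • A, dv_smul a1 ε, h.pos.smul _ _ e1 a2, ?_⟩
  have c := eff_tr h m h' (h3.add (eff_amp k.loc k.pos
    (dv_add h1 (dv_smul (dv_neg (dv_pull A)) ε)) e2))
  rwa [← add_assoc, sub_add_cancel, ← trl_apply, map_add, map_smul, map_neg, trl_apply, trl_apply,
    tr_pull h.loc b a1, smul_neg, ← sub_eq_add_neg] at c

theorem big_pull_iff (h : Pc M) (m : Mod M' M) (h' : M'.Proj) (hD : M.Dv D) :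
    Big M' (M.pull M' D) ↔ Big M D :=
  ⟨fun k => tr_pull h.loc (h.bir m h') hD ▸ k.tr h m h', Big.pull h m h'⟩

theorem eff_pull_iff (h : Pc M) (m : Mod M' M) (h' : M'.Proj) (hD : M.Dv D) :
    Eff M' (M.pull M' D) ↔ Eff M D :=
  ⟨fun k => tr_pull h.loc (h.bir m h') hD ▸ eff_tr h m h' k,
    Eff.pull h.loc (h.mod m h').loc (h.bir m h')⟩

theorem psef_tr (h : Pc M) (m : Mod M' M) (h' : M'.Proj) (hD : Psef M' D) : Psef M (M.tr D) :=
  fun A a1 a2 => by
    obtain ⟨A', h1, h2, h3⟩ := (Big.of_amp a1 a2).pull h m h'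
    have c := eff_tr h m h' ((hD A' h1 h2).add h3)
    rwa [add_add_sub_cancel, ← trl_apply, map_add, trl_apply, trl_apply,
      tr_pull h.loc (h.bir m h') a1] at c

theorem psef_pull_iff (h : Pc M) (m : Mod M' M) (h' : M'.Proj) (hD : M.Dv D) :
    Psef M' (M.pull M' D) ↔ Psef M D :=
  ⟨fun k => tr_pull h.loc (h.bir m h') hD ▸ psef_tr h m h' k,
    (ppA n N K M h.proj M' m h').2.2.1 D⟩

end big

end Vale.Agent.P287D.I
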