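import Vale.Agent.P287D.I.Hi

/-!
# P287D: the inequalities of Khovanskii and Teissier, negative definiteness, irreducible members
-/

set_option linter.all false

open Set Filter Topology
open Vale.Agent.P297 (Place)
open Vale.Agent.P277Z Vale.Agent.P277Z.FI Vale.Agent.P277Z.F5 Vale.Agent.P277Z.F5.Dg

noncomputable section

namespace Vale.Agent.P287D.I

variable {n N : ℕ} {K : Type} [Field K] [Algebra ℂ K]

theorem cons_rot {M : Mdl (n + 3) N K} (h : Pc M) (D E : Div K) (a : Fin (n + 1) → Div K) :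
    num M (Fin.cons D (Fin.cons E a)) =
      num M (Fin.cons (a 0) (Fin.cons D (Fin.cons E fun i => a i.succ))) := by
  rw [num_front h _ 2]
  congr 1
  funext j
  refine Fin.cases rfl (fun j => Fin.cases rfl (fun j => Fin.cases rfl (fun j => ?_) j) j) j
  have e : (2 : Fin (n + 3)).succAbove j.succ.succ = j.succ.succ.succ :=
    Fin.succAbove_of_le_castSucc _ _ (by
      simp only [Fin.le_def, Fin.val_castSucc, Fin.val_succ, Fin.coe_ofNat_eq_mod]
      exact (Nat.mod_le _ _).trans (by omega))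
  simp only [Fin.cons_succ, e]

/-- cutting with a smooth member of the class of the third argument -/
theorem Pc.q2_cut {M : Mdl (n + 3) N K} (h : Pc M) {P : Place K} (u : SubM M P) (hs : M.Snc {P})
    {a : Fin (n + 1) → Div K} (e : Finsupp.single P 1 - a 0 ∈ PrR M) (D E : Div K) :
    q2 M a D E = q2 u.S (fun i => u.r (a i.succ)) (u.r D) (u.r E) := by
  rw [q2_apply, cons_rot h, ← cons_eqv h e, num_res' h u hs, r_cons, r_cons, q2_apply]

theorem lor_pol : ∀ (n : ℕ) {N : ℕ} {K : Type} [Field K] [Algebra ℂ K] {M : Mdl (n + 2) N K},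
    Pc M → ∀ {a : Fin n → Div K}, (∀ i, Pol M (a i)) → Lor (q2 M a)
  | 0, _, _, _, _, _, h, a, _ => Subsingleton.elim ![] a ▸ h.lor
  | n + 1, _, _, _, _, M, h, a, ha => by
    obtain ⟨f, P, f0, e, -, -, hs⟩ := h.cut_irr finite_empty (snc_empty h.loc) finite_empty (ha 0)
    rw [insert_empty_eq] at hs
    obtain ⟨u⟩ := h.ex_sub hs
    have e1 : Finsupp.single P 1 - a 0 ∈ PrR M := by
      rw [← e, add_sub_cancel_right]; exact div_mem_prR f0
    refine ⟨h.q2_comm a, fun x y => ?_⟩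
    simp only [h.q2_cut u hs e1]
    exact (lor_pol n (h.sub u hs) fun i => h.r_pol u hs (ha i.succ)).le _ _

/-- closed conditions pass from polarisations to nef divisors -/
theorem Pc.closed_nef {M : Mdl n N K} (h : Pc M) {V : Type} [NormedAddCommGroup V]
    [NormedSpace ℝ V] (φ : Div K →ₗ[ℝ] V) {C : Set V} (hC : IsClosed C)
    (hs : ∀ c : ℝ, 0 < c → ∀ v, c • v ∈ C → v ∈ C) (hp : ∀ H, Pol M H → φ H ∈ C) {D : Div K}
    (h1 : M.Dv D) (h2 : M.Nef D) : φ D ∈ C := by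
  have k : ∀ A, M.Dv A → M.Amp A → φ A ∈ C := fun A a1 a2 => by
    obtain ⟨ε, e0, e1⟩ := amp_small h.pos a2 A.support.finite_toSet
    refine hC.mem_of_tendsto (lin_ap φ A) ((tendsto_one_div_add_atTop_nhds_zero_nat.eventually
      (ge_mem_nhds e0)).mono fun m hm => ?_)
    have a3 := e1 (ap A m - A) (fun P hP => by
      by_contra c
      refine Finsupp.mem_support_iff.1 hP ?_
      rw [Finsupp.sub_apply, Finsupp.notMem_support_iff.1 c,
        Finsupp.notMem_support_iff.1 fun d => c (ap_supp A m d), sub_zero])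
      fun P => (ap_abs A m P).trans hm
    have h0 : (0 : ℝ) < (m : ℝ) + 1 := by positivity
    have a4 := h.pos.smul _ _ h0 a3
    have e2 : ((m : ℝ) + 1) • ap A m = fl (((m : ℝ) + 1) • A) := smul_inv_smul₀ h0.ne' _
    rw [add_sub_cancel, e2] at a4
    have g := fl_gd (dv_smul a1 ((m : ℝ) + 1))
    obtain ⟨k, k0, hk⟩ := pol_mul h.pos g.1 g.2 a4
    have a5 := hp _ (hk k le_rfl)
    rw [← e2, map_smul, map_smul] at a5
    exact hs _ h0 _ (hs _ (Nat.cast_pos.2 k0) _ a5)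
  obtain ⟨H, hH⟩ := h.pol
  have t : Tendsto (fun ε : ℝ => φ D + ε • φ H) (𝓝[>] 0) (𝓝 (φ D + (0 : ℝ) • φ H)) :=
    ((continuous_const.add (continuous_id.smul continuous_const)).tendsto 0).mono_left
      nhdsWithin_le_nhds
  rw [zero_smul, add_zero] at t
  refine hC.mem_of_tendsto t (eventually_mem_nhdsWithin.mono fun ε hε => ?_)
  rw [← map_smul, ← map_add]
  exact k _ (dv_add h1 (dv_smul hH.dv ε)) (h2 _ (h.pos.smul _ _ hε hH.amp))

variable {M : Mdl (n + 2) N K} {a : Fin n → Div K} {D E G : Div K} {P : Place K}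

/-- **The Hodge index theorem for products of nef divisors.** -/
theorem Pc.lor_nef (h : Pc M) (ha : ∀ i, M.Dv (a i) ∧ M.Nef (a i)) : Lor (q2 M a) := by
  classical
  refine ml_ind (q := fun D => M.Dv D ∧ M.Nef D) (r := Pol M) (p := fun a => Lor (q2 M a))
    (fun a i h1 h2 => ⟨h.q2_comm a, fun x y hx => ?_⟩) (fun H hH => ⟨hH.dv, pol_nef h.pos hH⟩)
    (fun a ha => lor_pol n h ha) ha
  let ψ : Div K → Div K → Div K →ₗ[ℝ] ℝ := fun x y =>
    (((num M).curryLeft x).curryLeft y).toLinearMap a i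
  have e : ∀ x y H, ψ x y H = q2 M (Function.update a i H) x y := fun _ _ _ => rfl
  have k := h.closed_nef ((ψ x x).prod ((ψ y y).prod (ψ x y)))
    (C := {v | v.1 ≤ 0} ∪ {v | v.1 * v.2.1 ≤ v.2.2 ^ 2})
    ((isClosed_le continuous_fst continuous_const).union (isClosed_le (by fun_prop) (by fun_prop)))
    (fun c hc v hv => hv.imp (fun k => nonpos_of_mul_nonpos_right k hc) fun k => by
      simp only [mem_setOf_eq, Prod.smul_fst, Prod.smul_snd, smul_eq_mul] at k ⊢
      exact le_of_mul_le_mul_left (by linarith) (mul_pos hc hc))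
    (fun H hH => (le_or_gt (q2 M (Function.update a i H) x x) 0).imp id fun k =>
      (h2 H hH).le x y k) (h1 i).1 (h1 i).2
  have k' : ψ x x (a i) ≤ 0 ∨ ψ x x (a i) * ψ y y (a i) ≤ ψ x y (a i) ^ 2 := k
  simp only [e, Function.update_eq_self] at k'
  exact k'.resolve_left hx.not_ge

/-- **Khovanskii and Teissier** -/
theorem Pc.kt (h : Pc M) (ha : ∀ i, M.Dv (a i) ∧ M.Nef (a i)) (h1 : M.Dv D) (h2 : M.Nef D)
    (E : Div K) : q2 M a D D * q2 M a E E ≤ q2 M a D E ^ 2 :=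
  (h.lor_nef ha).le' (num_nef h (Fin.cases ⟨h1, h2⟩ (Fin.cases ⟨h1, h2⟩ ha))) E

/-! ### divisors without common components -/

theorem Pc.q2_prime (h : Pc M) (ha : ∀ i, M.Dv (a i) ∧ M.Nef (a i)) (hG : 0 ≤ G) (h0 : G P = 0) :
    0 ≤ q2 M a (Finsupp.single P 1) G := by
  by_cases hP : M.Pr P
  swap
  · exact (cons_off hP 1).ge
  obtain ⟨M', m, h', hs⟩ := exists_smooth h.proj (finite_singleton P) (by rintro _ rfl; exact hP)
  have k := h.mod m h'
  have b := h.bir m h'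
  have hs' := snc_mono hs subset_union_left
  obtain ⟨u⟩ := k.ex_sub hs'
  rw [q2_apply, num_place h m h' u hs']
  have e : (fun i => u.r (M.pull M' ((Fin.cons G a : Fin (n + 1) → Div K) i))) =
      Fin.cons (u.r (M.pull M' G)) fun i => u.r (M.pull M' (a i)) :=
    funext (Fin.cases rfl fun _ => rfl)
  rw [e]
  exact num_eff (k.sub u hs') (r_nonneg u (pull_nonneg b hG) ((pull_pr h.loc b hP G).trans h0))
    fun i => ⟨dv_r u _, k.r_nef u hs' (b.nef _ (ha i).2)⟩

theorem q2_eq_sum (D E : Div K) :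
    q2 M a D E = ∑ P ∈ D.support, D P * q2 M a (Finsupp.single P 1) E := cons_eq_sum D

/-- effective divisors without common components meet non negatively -/
theorem Pc.q2_disj (h : Pc M) (ha : ∀ i, M.Dv (a i) ∧ M.Nef (a i)) (hE : 0 ≤ E) (hG : 0 ≤ G)
    (h0 : ∀ P, E P = 0 ∨ G P = 0) : 0 ≤ q2 M a E G := by
  rw [q2_eq_sum]
  exact Finset.sum_nonneg fun P hP => mul_nonneg (hE P)
    (h.q2_prime ha hG ((h0 P).resolve_left (Finsupp.mem_support_iff.1 hP)))

theorem Pc.eq_zero_of_null (h : Pc M) (ha : ∀ i, M.Dv (a i) ∧ M.Amp (a i)) (hG : 0 ≤ G)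
    (hd : M.Dv G) (e : ∀ w, q2 M a G w = 0) : G = 0 := by
  obtain ⟨H, hH⟩ := h.pol
  exact eff_eq_zero h hG hd (a := Fin.cons H a) (Fin.cases ⟨hH.dv, hH.amp⟩ ha) (e H).le

theorem pos_apply (E : Div K) (P : Place K) : E⁺ P = max (E P) 0 := Finsupp.sup_apply _ _ _

theorem neg_apply' (E : Div K) (P : Place K) : E⁻ P = max (-E P) 0 := Finsupp.sup_apply _ _ _

theorem pos_or_neg (E : Div K) (P : Place K) : E⁺ P = 0 ∨ E⁻ P = 0 := by
  rw [pos_apply, neg_apply']
  exact (le_total (E P) 0).imp max_eq_right fun k => max_eq_right (neg_nonpos.2 k)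

/-- **the negativity lemma** -/
theorem Pc.neg_lemma (h : Pc M) (ha : ∀ i, M.Dv (a i) ∧ M.Amp (a i)) (hD : 0 < q2 M a D D)
    (hE : M.Dv E) (h0 : ∀ P, E P < 0 → q2 M a (Finsupp.single P 1) D = 0 ∧
      q2 M a (Finsupp.single P 1) E ≤ 0) : 0 ≤ E := by
  have hn := fun i => And.intro (ha i).1 (nef_of_amp h.pos (ha i).2)
  have l := h.lor_nef hn
  have s : ∀ P ∈ E⁻.support, E P < 0 := fun P hP => lt_of_not_ge fun c =>
    Finsupp.mem_support_iff.1 hP (by rw [neg_apply', max_eq_right (neg_nonpos.2 c)])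
  have a1 : q2 M a E⁻ D = 0 := by
    rw [q2_eq_sum]
    exact Finset.sum_eq_zero fun P hP => by rw [(h0 P (s P hP)).1, mul_zero]
  have a2 : q2 M a E⁻ E ≤ 0 := by
    rw [q2_eq_sum]
    exact Finset.sum_nonpos fun P hP =>
      mul_nonpos_of_nonneg_of_nonpos (negPart_nonneg E P) (h0 P (s P hP)).2
  have a3 := h.q2_disj hn (negPart_nonneg E) (posPart_nonneg E) fun P => (pos_or_neg E P).symm
  have a4 : q2 M a E⁻ E = q2 M a E⁻ E⁺ - q2 M a E⁻ E⁻ := by rw [← map_sub, posPart_sub_negPart]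
  exact negPart_eq_zero.1 (h.eq_zero_of_null ha (negPart_nonneg E)
    (fun P hP => hE P (Finsupp.mem_support_iff.2 (s P hP).ne))
    (l.null hD ((l.comm _ _).trans a1) (by linarith)))

/-- **negative definiteness** of the prime divisors which are orthogonal to a positive class -/
theorem Pc.neg_def (h : Pc M) (ha : ∀ i, M.Dv (a i) ∧ M.Amp (a i)) (hD : 0 < q2 M a D D)
    (hE : M.Dv E) (h0 : ∀ P, E P ≠ 0 → q2 M a (Finsupp.single P 1) D = 0) (h1 : 0 ≤ q2 M a E E) :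
    E = 0 := by
  have l := h.lor_nef fun i => And.intro (ha i).1 (nef_of_amp h.pos (ha i).2)
  have a1 : q2 M a E D = 0 := by
    rw [q2_eq_sum]
    exact Finset.sum_eq_zero fun P hP => by rw [h0 P (Finsupp.mem_support_iff.1 hP), mul_zero]
  have a2 : ∀ w, q2 M a w E = 0 := fun w =>
    (l.comm _ _).trans (l.null hD ((l.comm _ _).trans a1) h1 w)
  exact le_antisymm (neg_nonneg.1 (h.neg_lemma ha hD (dv_neg hE) fun P hP =>
    ⟨h0 P fun e => by simp [e] at hP, by rw [map_neg, a2, neg_zero]⟩))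
    (h.neg_lemma ha hD hE fun P hP => ⟨h0 P hP.ne, (a2 _).le⟩)

/-- the intersection form is negative definite on exceptional curves -/
theorem Pc.exc_neg {M M' : Mdl 2 N K} (h : Pc M) (m : Mod M' M) (h' : M'.Proj)
    (hE : (E.support : Set (Place K)) ⊆ Exc M' M) (h1 : 0 ≤ i2 M' E E) : E = 0 := by
  obtain ⟨H, hH⟩ := h.pol
  have e : ∀ D, i2 M' D (M.pull M' H) = num M' (Fin.cons D fun _ : Fin 1 => M.pull M' H) :=
    fun D => congrArg (num M') (funext (Fin.cases rfl (Fin.cases rfl fun i => i.elim0)))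
  refine (h.mod m h').neg_def (fun i => i.elim0) (D := M.pull M' H) ?_ (fun P hP => (hE hP).1)
    (fun P hP => ?_) h1
  · rw [← vol_two, vol_pull h m h']
    exact vol_amp h hH.dv hH.amp
  · exact (e _).trans (num_exc h m h' (fun Q hQ => by
      rw [Finset.mem_singleton.1 (Finsupp.support_single_subset hQ)]
      exact hE (Finsupp.mem_support_iff.2 hP)) fun _ => H)

/-! ### irreducible members -/

/-- smooth nef divisors with a positive square are irreducible -/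
theorem Pc.irr_nef (h : Pc M) (ha : ∀ i, M.Dv (a i) ∧ M.Amp (a i)) {Y : Finset (Place K)}
    (hs : M.Snc (Y : Set (Place K))) (hd : Dj M Y) (h1 : M.Nef (Cn.rd Y))
    (h2 : 0 < q2 M a (Cn.rd Y) (Cn.rd Y)) : ∃ Z, Y = {Z} := by
  classical
  rcases Y.eq_empty_or_nonempty with rfl | ⟨Z, hZ⟩
  · simp [Cn.rd] at h2
  have hn := fun i => And.intro (ha i).1 (nef_of_amp h.pos (ha i).2)
  have l := h.lor_nef hn
  have s1 : M.Snc {Z} := snc_mono hs (by simpa using hZ)
  obtain ⟨u⟩ := h.ex_sub s1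
  have e : Cn.rd Y = Cn.rd (Y.erase Z) + Finsupp.single Z 1 := sum_erase hZ
  have d1 : M.Dv (Cn.rd (Y.erase Z)) := Py.dv_sm fun P hP => hs.1 P (Finset.mem_of_mem_erase hP)
  have a1 : q2 M a (Finsupp.single Z 1) (Cn.rd (Y.erase Z)) = 0 := by
    rw [q2_apply, num_res' h u s1, r_cons, r_erase u hZ hd, cons_zero]
  have a2 : ∀ G, 0 ≤ G → 0 ≤ q2 M a G (Cn.rd Y) := fun G hG =>
    num_eff h hG (Fin.cases ⟨Py.dv_sm hs.1, h1⟩ hn)
  have a3 := a2 _ (Cn.rd_nonneg (Y.erase Z))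
  have a4 := a2 _ (Finsupp.single_nonneg.2 zero_le_one : 0 ≤ Finsupp.single Z (1 : ℝ))
  have a5 := (l.comm _ _).trans a1
  rw [e] at h2 a3 a4
  simp only [map_add, LinearMap.add_apply, a1, a5, add_zero, zero_add] at h2 a3 a4
  refine ⟨Z, erase_empty hZ ?_⟩
  rcases a4.eq_or_lt with k | k
  · have := h.eq_zero_of_null ha (Finsupp.single_nonneg.2 zero_le_one) (dv_single (s1.1 Z rfl) 1)
      (l.null (by linarith) a5 a4)
    exact absurd (Finsupp.single_eq_zero.1 this) one_ne_zero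
  · exact h.eq_zero_of_null ha (Cn.rd_nonneg _) d1 (l.null k a1 a3)

/-- **a smooth irreducible member of a free system which is not composed with a pencil** -/
theorem Pc.bt_irr' (h : Pc M) {M' : Mdl (n + 2) N K} (m : Mod M' M) {T T' T₁ : Set (Place K)}
    (hM' : M'.Proj) (hT : T.Finite) (sT : M.Snc T) (hT' : T'.Finite) (sT' : M'.Snc T')
    (hE : Exc M' M ⊆ T') (hT₁ : T₁.Finite) (hD : D ∈ Gd M) (hf : ∀ x, M.Free D x)
    (ha : ∀ i, M.Dv (a i) ∧ M.Amp (a i)) (h2 : 0 < q2 M a D D) :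
    ∃ (f : K) (P : Place K), f ≠ 0 ∧ M.div f + D = Finsupp.single P 1 ∧
      M'.div f + M.pull M' D = Finsupp.single P 1 ∧ P ∉ T ∧ P ∉ T₁ ∧ M.Snc (insert P T) ∧
      P ∉ T' ∧ M'.Snc (insert P T') := by
  obtain ⟨f, Y, h1, k2, h3, h4, h5, h6, h7, h8, h9⟩ := bt_sm h.proj m hM' hT sT hT' sT' hE hT₁
    hD.1 hD.2 hf
  have e : Cn.rd Y - D ∈ PrR M := by
    rw [Cn.rd, ← k2, add_sub_cancel_right]; exact div_mem_prR h1
  obtain ⟨P, rfl⟩ := h.irr_nef ha (snc_mono h6 subset_union_right) h9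
    (nef_congr h.loc h.pos (h.pos.free D hD.2 hf) e) (by rwa [h.q2_eqv a e, h.q2_eqv' a _ e])
  exact ⟨f, P, h1, by simpa using k2, by simpa using h3, by simpa using h4, by simpa using h5,
    by simpa using h6, by simpa using h7, by simpa using h8⟩

theorem Pc.cut_irr' (h : Pc M) {T T₁ : Set (Place K)} (hT : T.Finite) (sT : M.Snc T)
    (hT₁ : T₁.Finite) (hD : D ∈ Gd M) (hf : ∀ x, M.Free D x)
    (ha : ∀ i, M.Dv (a i) ∧ M.Amp (a i)) (h2 : 0 < q2 M a D D) : ∃ (f : K) (P : Place K), f ≠ 0 ∧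
      M.div f + D = Finsupp.single P 1 ∧ P ∉ T ∧ P ∉ T₁ ∧ M.Snc (insert P T) := by
  obtain ⟨f, P, h1, h2, -, h3, h4, h5, -⟩ := h.bt_irr' (Mod.refl M) h.proj hT sT hT sT
    (fun _ h => (h.2 h.1).elim) hT₁ hD hf ha h2
  exact ⟨f, P, h1, h2, h3, h4, h5⟩

/-- nef and big divisors have a positive square -/
theorem Pc.q2_big (h : Pc M) (ha : ∀ i, M.Dv (a i) ∧ M.Amp (a i)) (h1 : M.Dv D) (h2 : M.Nef D)
    (h3 : Big M D) : 0 < q2 M a D D :=
  num_big h (Fin.cases ⟨h1, h2, h3⟩ (Fin.cases ⟨h1, h2, h3⟩ fun i =>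
    ⟨(ha i).1, nef_of_amp h.pos (ha i).2, Big.of_amp (ha i).1 (ha i).2⟩))

end Vale.Agent.P287D.I
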