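import Vale.Agent.P277Z.F5.Fin
import Vale.Agent.P270L.Md.Ctr

/-!
# P287D, block INT: centres lift to modifications; Taylor expansions in the function field
-/

open Set Filter Topology
open Vale.Agent.P272.K (Cm)
open Vale.Agent.P297 (Place)
open Vale.Agent.P297Z.Pl
open Vale.Agent.P277Z Vale.Agent.P277Z.FI Vale.Agent.P277Z.F5

noncomputable section

namespace Vale.Agent.P287D.I

variable {n N : ℕ} {K : Type} [Field K] [Algebra ℂ K] {M M' : Mdl n N K}

/-- a compact model as a model over a point -/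
def flat (M : Mdl n N K) (hc : Cpt M) : Mdl n 0 K where
  W := M.W
  F := M.F
  cpt := M.cpt
  conn := M.conn
  π _ := 0
  hol _ _ i := i.elim0
  fib := (hc.and M.fib).mono fun _ h => ⟨fun _ => h.2.1 h.1, fun _ => rfl⟩
  val := M.val
  val_add := M.val_add
  val_mul := M.val_mul
  val_const := M.val_const
  mer := M.mer
  can := M.can
  surj := M.surj

theorem flat_proj (hM : M.Proj) (hc : Cpt M) : (flat M hc).Proj :=
  let ⟨L, ψ, h, h'⟩ := hM
  ⟨L, ψ, ⟨h.1, h.2, h.3, h.4, h.5⟩, h'⟩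

/-- a valuation ring has a centre on a compact projective model -/
theorem vctr (hM : M.Proj) (hc : Cpt M) (A : ValuationSubring K)
    (h : ∀ c, algebraMap ℂ K c ∈ A) : ∃ x : M.F, ∀ f ∈ M.O x, f ∈ A :=
  (P270L.Md.ctr (flat_proj hM hc) A.valuation fun c => (A.valuation_le_one_iff _).2 (h c)).imp
    fun _ hx f hf => (A.valuation_le_one_iff _).1 (hx f hf)

/-- a valuation ring containing the local ring has a refinement that dominates it -/
theorem vdom (x : M.F) (A : ValuationSubring K) (h : ∀ f ∈ M.O x, f ∈ A) :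
    ∃ B : ValuationSubring K, B ≤ A ∧ (∀ f ∈ M.O x, f ∈ B) ∧
      ∀ f ∈ M.O x, M.val f x = 0 → B.valuation f < 1 := by
  have h1 : ∀ f ∈ M.O x, A.valuation f ≤ 1 := fun f hf => (A.valuation_le_one_iff _).2 (h f hf)
  have h2 : ∀ {a f}, f ∈ M.O x → A.valuation (a - f) < 1 → A.valuation a ≤ 1 := fun {a f} hf k =>
    sub_add_cancel a f ▸ A.valuation.map_add_le k.le (h1 f hf)
  have h3 : ∀ {a b f g}, f ∈ M.O x → g ∈ M.O x → A.valuation (a - f) < 1 →
      A.valuation (b - g) < 1 → A.valuation (a * b - f * g) < 1 := fun {a b f g} hf hg k l => by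
    rw [show a * b - f * g = (a - f) * b + f * (b - g) by ring]
    refine A.valuation.map_add_lt ?_ ?_ <;> rw [map_mul]
    · exact mul_lt_one_of_nonneg_of_lt_one_left zero_le k (h2 hg l)
    · exact mul_lt_one_of_nonneg_of_lt_one_right (h1 f hf) zero_le l
  have h4 : ∀ {a b f g : K}, A.valuation (a - f) < 1 → A.valuation (b - g) < 1 →
      A.valuation (a + b - (f + g)) < 1 := fun {a b f g} k l => by
    rw [add_sub_add_comm]; exact A.valuation.map_add_lt k l
  let R : Subring K :=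
    { carrier := {a | ∃ f ∈ M.O x, A.valuation (a - f) < 1}
      mul_mem' := fun ⟨f, hf, k⟩ ⟨g, hg, l⟩ => ⟨f * g, mul_mem hf hg, h3 hf hg k l⟩
      add_mem' := fun ⟨f, hf, k⟩ ⟨g, hg, l⟩ => ⟨f + g, add_mem hf hg, h4 k l⟩
      one_mem' := ⟨1, one_mem _, by simp⟩
      zero_mem' := ⟨0, zero_mem _, by simp⟩
      neg_mem' := fun {a} ⟨f, hf, k⟩ => ⟨-f, neg_mem hf, by
        rwa [neg_sub_neg, A.valuation.map_sub_swap]⟩ }
  let J : Ideal R :=
    { carrier := {a | ∃ f ∈ M.O x, M.val f x = 0 ∧ A.valuation (a - f) < 1}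
      add_mem' := fun ⟨f, hf, f0, k⟩ ⟨g, hg, g0, l⟩ => ⟨f + g, add_mem hf hg, by
        rw [M.val_add_at hf hg, f0, g0, add_zero], h4 k l⟩
      zero_mem' := ⟨0, zero_mem _, M.val_zero _, by simp⟩
      smul_mem' := fun ⟨_, f, hf, k⟩ _ ⟨g, hg, g0, l⟩ => ⟨f * g, mul_mem hf hg, by
        rw [M.val_mul_at hf hg, g0, mul_zero], h3 hf hg k l⟩ }
  obtain ⟨B, b1, b2⟩ := Ideal.image_subset_nonunits_valuationSubring J fun e => by
    obtain ⟨f, hf, f0, k⟩ : (1 : R) ∈ J := e ▸ Submodule.mem_top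
    have := P270L.Md.ctr_val h1 hf (c := 1) (by rwa [map_one, A.valuation.map_sub_swap])
    exact zero_ne_one (f0.symm.trans this)
  refine ⟨B, ValuationSubring.nonunits_le_nonunits.1 fun a ha => ?_,
    fun f hf => b1 ⟨f, hf, by simp⟩, fun f hf f0 => B.mem_nonunits_iff.1
      (b2 ⟨⟨f, f, hf, by simp⟩, ⟨f, hf, f0, by simp⟩, rfl⟩)⟩
  have k : A.valuation (a - 0) < 1 := by rw [sub_zero]; exact A.mem_nonunits_iff.1 ha
  exact b2 ⟨⟨a, 0, zero_mem _, k⟩, ⟨0, zero_mem _, M.val_zero _, k⟩, rfl⟩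

/-- centres lift to modifications -/
theorem vlift (m : Mod M' M) (hM : M.Proj) (hM' : M'.Proj) (hc : Cpt M) {x : M.F}
    {A : ValuationSubring K} (h : ∀ f ∈ M.O x, f ∈ A) :
    ∃ y : M'.F, pt m y = x ∧ ∀ f ∈ M'.O y, f ∈ A := by
  obtain ⟨B, b1, b2, b3⟩ := vdom x A h
  obtain ⟨y, hy⟩ := vctr hM' ((pp tb n N K M hM M' m hM').1 hc) B
    fun c => b2 _ ((M.O x).algebraMap_mem c)
  refine ⟨y, by_contra fun e => ?_, fun f hf => b1 (hy f hf)⟩
  obtain ⟨f, f1, f2, f3⟩ := (box.loc n N K M hM).sep _ _ e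
  have c := (M.O x).algebraMap_mem (M.val f x)
  refine f3 (P270L.Md.ctr_val (v := B.valuation) (fun g hg => (B.valuation_le_one_iff _).2
    (hy g (((box.bir n N K M hM M' m hM').le y _ rfl).1 hg))) f1 (b3 _ (sub_mem f2 c) ?_))
  rw [M.val_sub_at f2 c, M.val_const, sub_self]

/-- the span of the monomials of degree `< s` -/
def Mon (t : Fin n → K) : ℕ → Submodule ℂ K
  | 0 => ⊥
  | s + 1 => Submodule.span ℂ (range fun σ : Sym (Option (Fin n)) s =>
      (σ.1.map fun o => o.elim 1 t).prod)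

instance (t : Fin n → K) (s : ℕ) : Module.Finite ℂ (Mon t s) := by
  cases s with
  | zero => exact inferInstanceAs (Module.Finite ℂ (⊥ : Submodule ℂ K))
  | succ s => exact Module.Finite.span_of_finite _ (finite_range _)

theorem mon_rank (t : Fin n → K) (s : ℕ) : Module.finrank ℂ (Mon t s) ≤ (s + n - 1).choose n := by
  cases s with
  | zero => exact (finrank_bot ℂ K).trans_le (Nat.zero_le _)
  | succ s =>
    refine (finrank_range_le_card _).trans_eq ?_
    rw [Sym.card_sym_eq_choose, Fintype.card_option, Fintype.card_fin,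
      show n + 1 + s - 1 = s + n by omega, show s + 1 + n - 1 = s + n by omega,
      Nat.choose_symm_add]

theorem one_mem_mon (t : Fin n → K) (s : ℕ) : (1 : K) ∈ Mon t (s + 1) :=
  Submodule.subset_span ⟨Sym.replicate s none, by simp [Sym.coe_replicate]⟩

theorem mul_mem_mon (t : Fin n → K) (i : Fin n) {s : ℕ} {w : K} (h : w ∈ Mon t s) :
    w * t i ∈ Mon t (s + 1) := by
  cases s with
  | zero => rw [(Submodule.mem_bot ℂ).1 h, zero_mul]; exact zero_mem _
  | succ s =>
    refine (Submodule.span_le (p := (Mon t (s + 2)).comap (LinearMap.mulRight ℂ (t i)))).2 ?_ h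
    rintro _ ⟨σ, rfl⟩
    exact Submodule.subset_span ⟨some i ::ₛ σ, by simp [Sym.coe_cons, mul_comm]⟩

theorem mon_le {x : M.F} {t : Fin n → K} (ht : ∀ i, t i ∈ M.O x) {s : ℕ} {w : K}
    (h : w ∈ Mon t s) : w ∈ M.O x := by
  cases s with
  | zero => rw [(Submodule.mem_bot ℂ).1 h]; exact zero_mem _
  | succ s =>
    refine (Submodule.span_le (p := Subalgebra.toSubmodule (M.O x))).2 ?_ h
    rintro _ ⟨σ, rfl⟩
    refine multiset_prod_mem (S := M.O x) _ fun a ha => ?_
    obtain ⟨o, -, rfl⟩ := Multiset.mem_map.1 ha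
    cases o with
    | none => exact one_mem _
    | some i => exact ht i

/-- analytic Taylor expansions, seen on a modification -/
theorem taylor0 (m : Mod M' M) {x : M.F} {t : Fin n → K} (ht : M.Coord x t) (s : ℕ) :
    ∀ a, Hol n a (x : M.W) → ∃ w ∈ Mon t s, (s = 1 → w = algebraMap ℂ K (a x)) ∧
      ∀ y : M'.F, pt m y = x → ∀ f : K, f ≠ 0 → (∀ i, t i / f ∈ M'.O y) → ∃ b, Hol n b (y : M'.W) ∧
      ∀ᶠ z in gen {(y : M'.W)}, a (m.g z) = M'.val w z + M'.val f z ^ s * b z := by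
  induction s with
  | zero => exact fun a ha => ⟨0, zero_mem _, fun e => absurd e zero_ne_one, fun y e f _ _ =>
      ⟨_, m.hol y y.2 a (by subst e; exact ha),
      .of_forall fun z => by rw [M'.val_zero, zero_add, pow_zero, one_mul]⟩⟩
  | succ s ih =>
    intro a ha
    obtain ⟨b, b1, b2⟩ := PtH.had ht ha
    choose w w1 _ hw using fun i => ih _ (b1 i)
    refine ⟨algebraMap ℂ K (a x) + ∑ i, w i * t i, add_mem ?_
      (sum_mem fun i _ => mul_mem_mon t i (w1 i)), fun e => ?_, fun y e f f0 hf => ?_⟩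
    · rw [Algebra.algebraMap_eq_smul_one]
      exact Submodule.smul_mem _ _ (one_mem_mon t s)
    · obtain rfl : s = 0 := by omega
      simp [fun i => (Submodule.mem_bot ℂ).1 (w1 i)]
    subst e
    choose c c1 c2 using fun i => hw i y rfl f f0 hf
    refine ⟨fun z => ∑ i, c i z * M'.val (t i / f) z,
      Lo.hol_sum _ fun i _ => Lo.hol_mul (c1 i) (hf i), ?_⟩
    filter_upwards [gen_of_nhds ((m.cont y y.2).eventually b2), eventually_all.2 c2,
      M'.at_pt (M'.val_add (algebraMap ℂ K (a (pt m y))) (∑ i, w i * t i)) y,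
      M'.at_pt (M'.val_sum Finset.univ fun i => w i * t i) y,
      M'.at_pt (eventually_all.2 fun i => (M'.val_mul (w i) (t i)).and
        ((M'.val_div (t i) f).and (m.val (t i)))) y, M'.at_pt (M'.val_ne f0) y]
      with z a1 a2 a3 a4 a5 a6
    rw [a1, a3, a4, M'.val_const, add_assoc, Finset.mul_sum, ← Finset.sum_add_distrib]
    refine congrArg _ (Finset.sum_congr rfl fun i _ => ?_)
    rw [a2, (a5 i).1, (a5 i).2.1, ← (a5 i).2.2]
    field_simp
    ring

/-- `f` lies in the integral closure of the ideal `(t) ^ s` of the local ring at `x` -/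
def Jet (M : Mdl n N K) (x : M.F) (t : Fin n → K) (s : ℕ) : Submodule ℂ K where
  carrier := {f | ∀ A : ValuationSubring K, (∀ g ∈ M.O x, g ∈ A) → ∀ u : K, u ≠ 0 →
    (∀ i, t i / u ∈ A) → f / u ^ s ∈ A}
  add_mem' := fun hf hg A hA u u0 h => by
    rw [add_div]; exact add_mem (hf A hA u u0 h) (hg A hA u u0 h)
  zero_mem' := fun A _ u _ _ => by rw [zero_div]; exact zero_mem _
  smul_mem' := fun c f hf A hA u u0 h => by
    rw [Algebra.smul_def, mul_div_assoc]
    exact mul_mem (hA _ ((M.O x).algebraMap_mem c)) (hf A hA u u0 h)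

/-- **Taylor expansions** in the function field -/
theorem taylor (hM : M.Proj) (hc : Cpt M) {x : M.F} {t : Fin n → K} (ht : M.Coord x t) (s : ℕ)
    {f : K} (hf : f ∈ M.O x) :
    ∃ w ∈ Mon t s, (s = 1 → w = algebraMap ℂ K (M.val f x)) ∧ f - w ∈ Jet M x t s := by
  classical
  obtain ⟨M', ⟨m⟩, hM', hG⟩ := box.hir n N K M hM ∅ 1
    (fun _ => if n = 0 then {1} else Finset.univ.image t) finite_empty fun _ => by
      split_ifs with h
      · exact ⟨1, Finset.mem_singleton_self _, one_ne_zero⟩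
      · exact ⟨t ⟨0, Nat.pos_of_ne_zero h⟩, Finset.mem_image_of_mem _ (Finset.mem_univ _),
          (box.co1 n N K M (box.loc n N K M hM) x t _ ht).1⟩
  obtain ⟨w, w1, w2, hw⟩ := taylor0 m ht s _ hf
  refine ⟨w, w1, w2, fun A hA u u0 h => ?_⟩
  obtain ⟨y, e, hy⟩ := vlift m hM hM' hc hA
  have key : ∀ g : K, g ≠ 0 → (∀ i, t i / g ∈ M'.O y) → g / u ∈ A → (f - w) / u ^ s ∈ A := by
    intro g g0 g1 g2
    obtain ⟨b, b1, b2⟩ := hw y e g g0 g1
    rw [show (f - w) / u ^ s = (f - w) / g ^ s * (g / u) ^ s by rw [div_pow]; field_simp]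
    refine mul_mem (hy _ (M'.mem_O_of b1 ?_)) (pow_mem g2 s)
    filter_upwards [b2, M'.at_pt ((M'.val_div (f - w) (g ^ s)).and ((M'.val_sub f w).and
      ((M'.val_pow g s).and ((m.val f).and (M'.val_ne g0))))) y] with z a2 ⟨a3, a4, a5, a6, a7⟩
    rw [a3, a4, a5, a6, a2]
    field_simp
    ring
  by_cases h0 : n = 0
  · subst h0
    exact key u u0 (fun i => i.elim0) (by rw [div_self u0]; exact one_mem _)
  obtain ⟨g, g1, g0, g2⟩ := (hG y).1 0
  rw [if_neg h0] at g1 g2
  obtain ⟨i, -, rfl⟩ := Finset.mem_image.1 g1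
  exact key _ g0 (fun j => g2 _ (Finset.mem_image_of_mem _ (Finset.mem_univ j))) (h i)

/-- the order of a jet at a place -/
theorem Jet.ord {x : M.F} {t : Fin n → K} {s : ℕ} {f : K} (hf : f ∈ Jet M x t s) (f0 : f ≠ 0)
    {Q : Place K} (hQ : M.Ct x Q) {c : ℤ} (h : ∀ i, t i ≠ 0 → c ≤ Q.ord (t i)) :
    s * c ≤ Q.ord f := by
  obtain ⟨u, u0, hu⟩ := exists_ord_eq_one Q
  have k := ord_nonneg_of_mem Q (hf Q.ring hQ (u ^ c) (zpow_ne_zero _ u0) fun i => by
    by_cases e : t i = 0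
    · rw [e, zero_div]; exact zero_mem _
    rw [← ord_nonneg_iff Q (div_ne_zero e (zpow_ne_zero _ u0)), ord_div Q e (zpow_ne_zero _ u0),
      ord_zpow, hu]
    linarith [h i e])
  rw [ord_div Q f0 (pow_ne_zero _ (zpow_ne_zero _ u0)), ord_pow, ord_zpow, hu] at k
  linarith

/-- the coordinates generate the maximal ideal up to integral closure -/
theorem jet_one (hM : M.Proj) (hc : Cpt M) {x : M.F} {t : Fin n → K} (ht : M.Coord x t) {f : K}
    (hf : f ∈ M.O x) (h0 : M.val f x = 0) : f ∈ Jet M x t 1 := by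
  obtain ⟨w, -, e, hw⟩ := taylor hM hc ht 1 hf
  rwa [e rfl, h0, map_zero, sub_zero] at hw

end Vale.Agent.P287D.I
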