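import Vale.Agent.P277Z.F5.Fin

/-!
# P287D: general members of free linear systems are smooth
-/

set_option linter.all false

open scoped Manifold ContDiff Topology
open Set Filter MeasureTheory
open Vale.Agent.P272.K (Cm Chart At)
open Vale.Agent.P297 (Place)
open Vale.Agent.P277Z Vale.Agent.P277Z.FI Vale.Agent.P277Z.F5

noncomputable section

namespace Vale.Agent.P287D.I

variable {n N : ℕ} {K : Type} [Field K] [Algebra ℂ K] {M : Mdl n N K}

/-- the members of `Y` are pairwise disjoint -/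
def Dj (M : Mdl n N K) (Y : Set (Place K)) : Prop :=
  ∀ x, ∀ P ∈ Y, ∀ Q ∈ Y, M.On x P → M.On x Q → P = Q

theorem Dj.mono {Y Y' : Set (Place K)} (h : Dj M Y) (e : Y' ⊆ Y) : Dj M Y' :=
  fun x P hP Q hQ => h x P (e hP) Q (e hQ)

theorem loc_sm (hL : Loc M) {ι : Type} [Fintype ι] {u : ι → K} {x : M.F} (hu : ∀ a, u a ∈ M.O x)
    (a₀ : ι) (h1 : u a₀ = 1) : ∃ V ∈ 𝓝 x, ∀ᵐ c : ι → ℂ, ∀ y ∈ V, ∀ P, M.On y P →
      P.ord (∑ a, algebraMap ℂ K (c a) * u a) ≠ 0 → M.Gn y P (∑ a, algebraMap ℂ K (c a) * u a) := by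
  obtain ⟨t, ht⟩ := hL.coord x
  have he := Bert.at_chart (n := n) (x : M.W)
  set e := chartAt (Cm n) (x : M.W)
  obtain ⟨U, hU, -, hc⟩ := Bert.core (Bert.an_pi he fun i => (ht.1 i).1)
    (funext fun i => by rw [e.left_inv he.2, (ht.1 i).2]; rfl) (Bert.jd_ne_iff.1 (ht.2 e he))
    (u := fun a z => M.val (u a) (e.symm z)) (fun a => hu a e he) a₀
    (.of_forall fun z => by rw [h1, Bert.val_one])
  have hV : ∀ᶠ y : M.F in 𝓝 x, ((y : M.W) ∈ e.source ∧ e y ∈ U) ∧ (∀ a, u a ∈ M.O y) :=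
    (continuous_subtype_val.continuousAt.eventually ((e.open_source.eventually_mem he.2).and
      ((e.continuousAt he.2).eventually hU))).and (eventually_all.2 fun a => Bert.mem_near (hu a))
  refine ⟨_, hV, hc.mono fun c hc y ⟨⟨h2, h3⟩, h4⟩ P hP h5 => ?_⟩
  have hg : ∑ a, algebraMap ℂ K (c a) * u a ∈ M.O y :=
    sum_mem fun a _ => mul_mem ((M.O y).algebraMap_mem _) (h4 a)
  by_cases h0 : M.val (∑ a, algebraMap ℂ K (c a) * u a) y = 0
  · obtain ⟨j, v, -, -, k3⟩ := hc _ h3 (by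
      rw [e.left_inv h2, ← (Bert.val_lin c h4).self_of_nhds, h0])
    have e1 : (fun z => M.val (∑ a, algebraMap ℂ K (c a) * u a) (e.symm z)) =ᶠ[𝓝 (e y)]
        fun z => ∑ a, c a * M.val (u a) (e.symm z) :=
      (Bert.tendsto_symm ⟨he.1, h2⟩).eventually (Bert.val_lin c h4)
    refine Bert.gn_of_fderiv hL hP hg (lt_of_le_of_ne (Bert.ord_nonneg hP hg) h5.symm) ⟨he.1, h2⟩
      fun e0 => k3 ?_
    rw [← e1.fderiv_eq, e0]
    rfl
  · exact absurd (Bert.ord_unit hL hP hg h0) h5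

/-- the general member is smooth -/
theorem bert_sm (hL : Loc M) {D : P277Z.Div K} {s : Finset K} (hs : ∀ f ∈ s, f ∈ M.H0 D)
    (hg : ∀ x, ∃ f ∈ s, f ≠ 0 ∧ ∀ P, M.On x P → (P.ord f : ℝ) + D P = 0) :
    ∀ᵐ c : s → ℂ, ∑ a : s, algebraMap ℂ K (c a) * a ≠ 0 →
      Dj M (M.div (∑ a : s, algebraMap ℂ K (c a) * a) + D).support := by
  have key : ∀ x : M.F, ∃ V ∈ 𝓝 x, ∀ᵐ c : s → ℂ, ∀ y ∈ V, ∃ g,
      (∀ P, M.On y P → P.ord g ≠ 0 → M.Gn y P g) ∧ ∃ q : K, q ≠ 0 ∧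
      ∑ a : s, algebraMap ℂ K (c a) * a = g * q ∧ ∀ P, M.On y P → (P.ord q : ℝ) + D P = 0 := by
    intro x
    obtain ⟨q, hq, q0, hq'⟩ := hg x
    obtain ⟨V, hV, hc⟩ := loc_sm hL (u := fun a : s => a / q) (x := x)
      (fun a => hL.mem x _ fun P hP => by
        by_cases a0 : (a : K) = 0
        · simp [a0]
        · have h1 := (hs a a.2).resolve_left a0 P ⟨x, hP⟩
          have h2 := hq' P hP
          rw [P297Z.Pl.ord_div P a0 q0, ← Int.cast_nonneg_iff (R := ℝ)]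
          push_cast
          linarith) ⟨q, hq⟩ (div_self q0)
    have hW : ∀ᶠ y : M.F in 𝓝 x, ∀ P ∈ {P | M.Pr P ∧ P.ord q ≠ 0} ∪ (D.support : Set _),
        M.On y P → M.On x P :=
      (eventually_all_finite ((hL.fin q).union D.support.finite_toSet)).2 fun P _ => hL.near x P
    refine ⟨_, inter_mem hV hW, hc.mono fun c hc y hy => ⟨_, hc y hy.1, q, q0, ?_, fun P hP => ?_⟩⟩
    · rw [Finset.sum_mul]
      exact Finset.sum_congr rfl fun a _ => by rw [mul_assoc, div_mul_cancel₀ _ q0]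
    · by_cases h1 : P ∈ {P | M.Pr P ∧ P.ord q ≠ 0} ∪ (D.support : Set _)
      · exact hq' P (hy.2 P h1 hP)
      · simp only [mem_union, Set.mem_ofPred_eq, Finset.mem_coe, Finsupp.mem_support_iff, not_or,
          not_and, not_not] at h1
        rw [h1.1 ⟨y, hP⟩, h1.2]
        simp
  choose V hV hc using key
  have : CompactSpace M.F := isCompact_iff_compactSpace.1 M.cpt
  obtain ⟨J, hJ⟩ := CompactSpace.elim_nhds_subcover V hV
  filter_upwards [(eventually_all_finset J).2 fun x _ => hc x] with c hc h0 y P hP Q hQ h1 h2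
  obtain ⟨x, hx, hy⟩ := mem_iUnion₂.1 (hJ.ge (mem_univ y))
  obtain ⟨g, k1, q, q0, e, k2⟩ := hc x hx y hy
  have k3 : ∀ R, M.On y R → R ∈ ((M.div (∑ a : s, algebraMap ℂ K (c a) * a) + D).support : Set _) →
      M.Gn y R g := fun R hR h => k1 R hR fun h' => Finsupp.mem_support_iff.1 h (by
    rw [Finsupp.add_apply, div_apply hL _ ⟨y, hR⟩, e,
      P297Z.Pl.ord_mul R (left_ne_zero_of_mul (e ▸ h0)) q0, h', zero_add, k2 R hR])
  exact gn_unique hL (k3 P h1 hP) (k3 Q h2 hQ)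

/-- **BT** with smooth members -/
theorem bt_sm (hM : M.Proj) {M' : Mdl n N K} (m : Mod M' M) {T T' T₁ : Set (Place K)} {D : P277Z.Div K}
    (hM' : M'.Proj) (hT : T.Finite) (sT : M.Snc T) (hT' : T'.Finite) (sT' : M'.Snc T')
    (hE : Exc M' M ⊆ T') (hT₁ : T₁.Finite) (dD : M.Dv D) (iD : IsInt D) (fD : ∀ x, M.Free D x) :
    ∃ (f : K) (Y : Finset (Place K)), f ≠ 0 ∧ M.div f + D = ∑ P ∈ Y, Finsupp.single P 1 ∧
      M'.div f + M.pull M' D = ∑ P ∈ Y, Finsupp.single P 1 ∧ Disjoint (Y : Set (Place K)) T ∧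
      Disjoint (Y : Set (Place K)) T₁ ∧ M.Snc (T ∪ Y) ∧ Disjoint (Y : Set (Place K)) T' ∧
      M'.Snc (T' ∪ Y) ∧ Dj M Y := by
  classical
  have h := tb
  have lM := h.box.loc _ N K M hM
  have l' := h.box.loc _ N K M' hM'
  have b := h.box.bir _ N K M hM M' m hM'
  obtain ⟨s, s1, s2⟩ := LrH.free_sys lM fD
  have pe : ∀ f : K, f ≠ 0 → M'.div f + M.pull M' D = M.pull M' (M.div f + D) := fun f hf => by
    rw [← pull_div lM l' b hf, ← pl_apply b (_ + _), map_add]; rfl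
  have a0 := bert_sm lM s1 s2
  have a1 := h.bert n N K M hM T D s hT sT dD iD s1 s2
  have a2 := h.bert n N K M' hM' T' _ s hT' sT' (dv_pull D) (pull_int b iD)
    (fun f hf => by simpa using (b.sec D 0 f (by simp) le_rfl).2 (s1 f hf)) fun y => by
      obtain ⟨f, f1, f2, f3⟩ := s2 (pt m y)
      refine ⟨f, f1, f2, fun Q hQ => ?_⟩
      rw [← div_apply l' f ⟨y, hQ⟩, ← Finsupp.add_apply, pe f f2, pull_on b hQ]
      exact ordAt_eq_zero Q fun P hP => by
        rw [Finsupp.add_apply, div_apply lM f ⟨_, hP⟩, f3 P hP]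
  let φ : (s → ℂ) →ₗ[ℂ] K := Fintype.linearCombination ℂ fun a : s => (a : K)
  have φe : ∀ c, φ c = ∑ a : s, algebraMap ℂ K (c a) * a := fun c => by
    simp only [φ, Fintype.linearCombination_apply, Algebra.smul_def]
  have a3 : ∀ P, M.Pr P → ∀ᵐ c : s → ℂ, φ c ∉ M.H0 (D - Finsupp.single P 1) := fun P ⟨x, hx⟩ => by
    obtain ⟨f, f1, f2, f3⟩ := s2 x
    refine measure_eq_zero_iff_ae_notMem.1 (Measure.addHaar_submodule volume
      ((((M.H0 (D - Finsupp.single P 1)).restrictScalars ℂ).comap φ).restrictScalars ℝ) fun e => ?_)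
    have h1 : φ (Pi.single ⟨f, f1⟩ 1) ∈ M.H0 (D - Finsupp.single P 1) :=
      (Submodule.eq_top_iff'.1 e) _
    rw [Fintype.linearCombination_apply_single, one_smul] at h1
    have h2 := h1.resolve_left f2 P ⟨x, hx⟩
    rw [Finsupp.sub_apply, Finsupp.single_eq_same] at h2
    linarith [f3 P hx]
  obtain ⟨c, ⟨⟨f, e1, f0, k1, k2, k3⟩, k0⟩, ⟨f', e2, -, -, k4, k5⟩, k6⟩ := ((a1.and a0).and (a2.and
    ((eventually_all_finite (hT₁.subset (sep_subset T₁ M.Pr))).2 fun P hP => a3 P hP.2))).exists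
  obtain rfl : f = f' := e1.trans e2.symm
  rw [← e1] at k0
  have hf : f ∈ M.H0 D := e1 ▸ sum_mem fun a _ =>
    Algebra.smul_def (c a) (a : K) ▸ ((M.H0 D).restrictScalars ℂ).smul_mem _ (s1 a a.2)
  have dE : M.Dv (M.div f + D) := dv_add (dv_div f) dD
  have nE := div_add_nonneg lM dD hf f0
  have iE := IsInt.add (int_div lM f) iD
  have oE : ∀ P, (M.div f + D) P < 1 → (M.div f + D) P = 0 := fun P hP => by
    have h1 := nE P
    obtain ⟨k, hk⟩ := iE P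
    rw [Finsupp.zero_apply] at h1
    rw [hk] at h1 hP ⊢
    have h2 : 0 ≤ k := by exact_mod_cast h1
    have h3 : k < 1 := by exact_mod_cast hP
    exact_mod_cast (by omega : k = 0)
  have eE : M'.div f + M.pull M' D = M.div f + D := Finsupp.ext fun Q => by
    by_cases hQ : Q ∈ Exc M' M
    · rw [k4 Q (hE hQ), dv_iff.1 dE Q hQ.2]
    · rw [pe f f0, LrH.pull_off lM b dE hQ]
  have eY : M.div f + D = ∑ P ∈ (M.div f + D).support, Finsupp.single P 1 := by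
    refine (eq_sum_single subset_rfl).trans (Finset.sum_congr rfl fun P hP => ?_)
    rw [le_antisymm (k1 P) (not_lt.1 fun e => Finsupp.mem_support_iff.1 hP (oE P e)), one_smul]
  rw [eE] at k4 k5
  refine ⟨f, _, f0, eY, eE.trans eY, disjoint_left.2 fun P h1 h2 =>
    Finsupp.mem_support_iff.1 h1 (k2 P h2), disjoint_left.2 fun P h1 h2 => ?_, k3,
    disjoint_left.2 fun P h1 h2 => Finsupp.mem_support_iff.1 h1 (k4 P h2), k5, k0 f0⟩
  refine k6 P ⟨h2, dE P h1⟩ (φe c ▸ e1 ▸ mem_H0_div lM fun Q => ?_)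
  rw [← add_sub_assoc, Finsupp.sub_apply, Finsupp.zero_apply, sub_nonneg]
  by_cases e : Q = P
  · rw [e, Finsupp.single_eq_same]
    exact not_lt.1 fun e => Finsupp.mem_support_iff.1 h1 (oE P e)
  · rw [Finsupp.single_eq_of_ne e]; exact nE Q

/-- smooth members on one model -/
theorem cut_sm (hM : M.Proj) {T T₁ : Set (Place K)} {D : P277Z.Div K} (hT : T.Finite) (sT : M.Snc T)
    (hT₁ : T₁.Finite) (dD : M.Dv D) (iD : IsInt D) (fD : ∀ x, M.Free D x) :
    ∃ (f : K) (Y : Finset (Place K)), f ≠ 0 ∧ M.div f + D = ∑ P ∈ Y, Finsupp.single P 1 ∧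
      Disjoint (Y : Set (Place K)) T ∧ Disjoint (Y : Set (Place K)) T₁ ∧ M.Snc (T ∪ Y) ∧
      Dj M Y := by
  obtain ⟨f, Y, h1, h2, -, h3, h4, h5, -, -, h6⟩ := bt_sm hM (Mod.refl M) hM hT sT hT sT
    (fun _ h => (h.2 h.1).elim) hT₁ dD iD fD
  exact ⟨f, Y, h1, h2, h3, h4, h5, h6⟩

/-- a divisor which does not meet `P` restricts to zero -/
theorem r_off {M : Mdl (n + 1) N K} {P : Place K} (u : SubM M P) {D : P277Z.Div K} (h0 : D P = 0)
    (h : ∀ x, M.On x P → ∀ Q, M.On x Q → D Q = 0) : u.r D = 0 := by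
  rw [Mu.r_eq u h0]
  refine dv_ext (dv_rs _ _) dv_zero fun Q ⟨y, hy⟩ => ?_
  rw [u.rst.rs y Q D h0 hy, Finsupp.zero_apply]
  refine Finset.sum_eq_zero fun R hR => ?_
  beta_reduce
  rw [eqn_off fun e => Finsupp.mem_support_iff.1 hR (h _ ((u.s.on _).2 ⟨y, y.2, rfl⟩) R e),
    res_one, P297Z.Pl.ord_one, Int.cast_zero, mul_zero]

end Vale.Agent.P287D.I
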