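import Vale.Agent.P287D.I.Df
import Vale.Agent.P287D.I.Jet

/-!
# P287D, block INT: sections and members with high multiplicity at given points
-/

open Set Filter Topology
open Vale.Agent.P297 (Place)
open Vale.Agent.P297Z.Pl
open Vale.Agent.P277Z Vale.Agent.P277Z.FI Vale.Agent.P277Z.F5

noncomputable section

namespace Vale.Agent.P287D.I

variable {n N : ℕ} {K : Type} [Field K] [Algebra ℂ K] {M : Mdl n N K}

/-- `G` has multiplicity at least `s` at `x`: at a place where the maximal ideal has order at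
least `c`, the order of `G` is at least `s c` -/
def Mu (M : Mdl n N K) (x : M.F) (G : Div K) (s : ℝ) : Prop :=
  ∀ Q, M.Ct x Q → ∀ c : ℕ, (∀ f ∈ M.O x, f ≠ 0 → M.val f x = 0 → (c : ℤ) ≤ Q.ord f) →
    s * c ≤ M.ordD Q G

namespace Mu

variable {x : M.F} {G G' : Div K} {s s' : ℝ}

theorem zero (hL : Loc M) (h : 0 ≤ G) : Mu M x G 0 := fun Q hQ c _ => by
  rw [zero_mul, Bi.ordD_eq hL hQ]; exact ordAt_nonneg hQ h

theorem add (h : Mu M x G s) (h' : Mu M x G' s') : Mu M x (G + G') (s + s') := fun Q hQ c hc => by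
  rw [Bi.ordD_add, add_mul]; exact add_le_add (h Q hQ c hc) (h' Q hQ c hc)

theorem smul (h : Mu M x G s) {a : ℝ} (ha : 0 ≤ a) : Mu M x (a • G) (a * s) := fun Q hQ c hc => by
  rw [Bi.ordD_smul, mul_assoc]; exact mul_le_mul_of_nonneg_left (h Q hQ c hc) ha

theorem mono (h : Mu M x G s) (e : s' ≤ s) : Mu M x G s' := fun Q hQ c hc =>
  (mul_le_mul_of_nonneg_right e c.cast_nonneg).trans (h Q hQ c hc)

/-- it is enough to look at coordinates -/
theorem coord (hM : Pc M) (h : Mu M x G s) {t : Fin n → K} (ht : M.Coord x t) {Q : Place K}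
    (hQ : M.Ct x Q) {c : ℕ} (hc : ∀ i, (c : ℤ) ≤ Q.ord (t i)) : s * c ≤ M.ordD Q G :=
  h Q hQ c fun f hf f0 e => by
    simpa using Jet.ord (jet_one hM.proj hM.cpt ht hf e) f0 hQ fun i _ => hc i

end Mu

theorem exists_ker {V W ι : Type} [AddCommGroup V] [Module ℂ V] [AddCommGroup W] [Module ℂ W]
    [Fintype ι] (φ : ι → V →ₗ[ℂ] W) (J S : ι → Submodule ℂ W) [∀ i, Module.Finite ℂ (S i)]
    (h : ∀ i v, ∃ w ∈ S i, φ i v - w ∈ J i)
    (hl : ∑ i, Module.finrank ℂ (S i) < Module.finrank ℂ V) : ∃ v, v ≠ 0 ∧ ∀ i, φ i v ∈ J i := by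
  let Φ := LinearMap.pi fun i => ((J i).mkQ ∘ₗ φ i).codRestrict ((S i).map (J i).mkQ) fun v =>
    let ⟨w, w1, hw⟩ := h i v
    ⟨w, w1, ((Submodule.Quotient.eq _).2 hw).symm⟩
  obtain ⟨g, g1, g0⟩ := Submodule.exists_mem_ne_zero_of_ne_bot (p := LinearMap.ker Φ) fun a =>
    hl.not_ge ((LinearMap.finrank_le_finrank_of_injective (LinearMap.ker_eq_bot.1 a)).trans
      (by
        rw [Module.finrank_pi_fintype]
        exact Finset.sum_le_sum fun i _ => Submodule.finrank_map_le _ _))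
  exact ⟨g, g0, fun i =>
    (Submodule.Quotient.mk_eq_zero _).1 (congrArg Subtype.val (congrFun g1 i))⟩

/-- **sections with prescribed multiplicities** -/
theorem mu_sec (hM : Pc M) {ι : Type} [Fintype ι] (x : ι → M.F) (s : ι → ℕ) {L : Div K}
    (hl : ∑ i, (s i + n - 1).choose n < h0 M L) :
    ∃ f ∈ M.H0 L, f ≠ 0 ∧ ∀ i, Mu M (x i) (M.div f + L) (s i) := by
  have hL := hM.loc
  choose t ht using fun i => hL.coord (x i)
  obtain ⟨F, hF⟩ : ∃ F : Div K, ∀ Q, F Q = ⌊L Q⌋ :=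
    ⟨L.mapRange (fun r => (⌊r⌋ : ℝ)) (by simp), fun _ => rfl⟩
  have iF : IsInt F := fun Q => ⟨_, hF Q⟩
  have u0 := fun i => Lift.lg_eqD (x := x i) hL iF
  have u2 := fun i => Lift.ord_eqD (M := M) (x := x i) iF
  obtain ⟨u, hu⟩ : ∃ u : ι → K, ∀ i, Lift.eqD M (x i) F = u i := ⟨_, fun _ => rfl⟩
  simp only [hu] at u0 u2
  obtain ⟨g, g0, g1⟩ := exists_ker (fun i => LinearMap.mulRight ℂ (u i) ∘ₗ
    ((M.H0 L).restrictScalars ℂ).subtype) (fun i => Jet M (x i) (t i) (s i))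
    (fun i => Mon (t i) (s i)) (fun i g => by
      have a1 : g.1 * u i ∈ M.O (x i) := by
        by_cases g0 : g.1 = 0
        · rw [g0, zero_mul]; exact zero_mem _
        refine hL.mem _ _ fun P hP => ?_
        have a2 := (mem_H0.1 g.2).resolve_left g0 P ⟨_, hP⟩
        have a3 := (u0 i).2 P hP
        rw [hF, Int.cast_inj] at a3
        rw [ord_mul P g0 (u0 i).1, a3, ← Int.floor_intCast_add]
        exact Int.floor_nonneg.2 a2
      obtain ⟨w, w1, -, hw⟩ := taylor hM.proj hM.cpt (ht i) (s i) a1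
      exact ⟨w, w1, hw⟩) ((Finset.sum_le_sum fun i _ => mon_rank _ _).trans_lt hl)
  have g2 : g.1 ≠ 0 := fun a => g0 (Subtype.ext a)
  refine ⟨g, g.2, g2, fun i Q hQ c hc => ?_⟩
  have g3 : g.1 * u i ∈ Jet M (x i) (t i) (s i) := g1 i
  have g4 := Jet.ord g3 (mul_ne_zero g2 (u0 i).1) hQ fun j e => hc _ ((ht i).1 j).1 e ((ht i).1 j).2
  have g5 := ordAt_nonneg hQ (D := L - F) fun Q => by
    rw [Finsupp.sub_apply, hF]
    exact Int.fract_nonneg _
  have g7 := ordAt_add (x i) Q (L - F) F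
  rw [sub_add_cancel, ← u2] at g7
  rw [ord_mul Q g2 (u0 i).1] at g4
  rw [Bi.ordD_eq hL hQ, ordAt_add, ordAt_div hL hQ g2, g7]
  have g6 := Int.cast_le (R := ℝ).2 g4
  push_cast at g6
  linarith

/-- the count is asymptotic to the sum of the powers -/
theorem count_ev {ι : Type} [Fintype ι] (n : ℕ) (s : ι → ℝ) (hs : ∀ i, 0 ≤ s i) {a : ℕ → ℕ} {v : ℝ}
    (h : Tendsto (fun m : ℕ => (a m : ℝ) * n.factorial / m ^ n) atTop (𝓝 v))
    (hv : ∑ i, s i ^ n < v) : ∀ᶠ m : ℕ in atTop, ∑ i, (⌈m * s i⌉₊ + n - 1).choose n < a m := by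
  have k : Tendsto (fun m : ℕ => ∑ i, (s i + n / m) ^ n) atTop (𝓝 (∑ i, (s i + 0) ^ n)) :=
    tendsto_finsetSum _ fun i _ =>
      (tendsto_const_nhds.add (tendsto_const_div_atTop_nhds_zero_nat _)).pow n
  simp only [add_zero] at k
  filter_upwards [k.eventually_lt h hv, eventually_gt_atTop 0] with m hm m0
  have m1 : (0 : ℝ) < m := Nat.cast_pos.2 m0
  have f0 : (0 : ℝ) < n.factorial := Nat.cast_pos.2 n.factorial_pos
  rw [← Nat.cast_lt (α := ℝ), Nat.cast_sum]
  rw [lt_div_iff₀ (pow_pos m1 n), Finset.sum_mul] at hm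
  refine lt_of_mul_lt_mul_right (lt_of_le_of_lt ?_ hm) f0.le
  rw [Finset.sum_mul]
  refine Finset.sum_le_sum fun i _ => ?_
  rw [← le_div_iff₀ f0, ← mul_pow]
  refine (Nat.choose_le_pow_div _ _).trans (div_le_div_of_nonneg_right ?_ f0.le)
  rcases n.eq_zero_or_pos with rfl | n0
  · simp
  rw [add_mul, div_mul_cancel₀ _ m1.ne']
  refine pow_le_pow_left₀ (Nat.cast_nonneg _) ?_ n
  have := Nat.ceil_lt_add_one (mul_nonneg m1.le (hs i))
  rw [Nat.cast_sub (by omega)]
  push_cast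
  linarith

/-- volumes are continuous in finite dimensional families -/
theorem cont_vol {ι : Type} [Fintype ι] (D : ι → Div K) :
    Continuous fun a : ι → ℝ => vol M (∑ i, a i • D i) := by
  classical
  simp only [vol, MultilinearMap.map_sum, MultilinearMap.map_smul_univ]
  fun_prop

/-- a nef and big divisor dominates a rational ample divisor with almost the same volume -/
theorem amp_approx (hM : Pc M) {D : Div K} (hd : M.Dv D) (hn : M.Nef D) (hb : Big M D) {v : ℝ}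
    (hv : v < vol M D) : ∃ (k : ℕ) (A : Div K), 0 < k ∧ M.Dv A ∧ IsInt A ∧ M.Amp A ∧
      Eff M ((k : ℝ) • D - A) ∧ k ^ n * v < vol M A := by
  classical
  obtain ⟨A, a1, a2, a3⟩ := hb
  have c1 := (cont_vol (M := M) ![D, A - D]).comp
    (f := fun e : ℝ => ![1, e]) (by fun_prop) |>.tendsto 0
  simp only [Function.comp_def, Fin.sum_univ_two, Matrix.cons_val_zero, Matrix.cons_val_one,
    one_smul, zero_smul, add_zero] at c1
  obtain ⟨e, ⟨e1, e2⟩, e0⟩ := ((((c1.eventually (lt_mem_nhds hv)).and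
    (gt_mem_nhds one_pos)).filter_mono nhdsWithin_le_nhds).and
    (self_mem_nhdsWithin (s := Ioi (0 : ℝ)))).exists
  have b1 : M.Amp (D + e • (A - D)) := by
    have := nef_smul hM.pos hn (sub_pos.2 e2).le _ (hM.pos.smul _ _ e0 a2)
    rwa [show (1 - e) • D + e • A = D + e • (A - D) by module] at this
  have b2 : M.Dv (D + e • (A - D)) := dv_add hd (dv_smul (dv_sub a1 hd) e)
  have b3 : Eff M (D - (D + e • (A - D))) := by
    rw [show D - (D + e • (A - D)) = e • (D - A) by module]; exact a3.smul (le_of_lt e0)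
  generalize D + e • (A - D) = B at e1 b1 b2 b3
  let δ : B.support → Div K := fun P => Finsupp.single P 1
  have hB : ∑ P : B.support, B P • δ P = B := by
    rw [Finset.sum_coe_sort B.support fun P => B P • Finsupp.single P (1 : ℝ)]
    simpa [Finsupp.sum] using B.sum_single
  obtain ⟨ε, ε0, hε⟩ := Bi.amp_open hM.pos Finset.univ δ b1
  have c2 : Tendsto (fun (k : ℕ) (P : B.support) => (⌊B P * k⌋ : ℝ) / k) atTop (𝓝 fun P => B P) :=
    tendsto_pi_nhds.2 fun P => by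
      refine tendsto_of_tendsto_of_tendsto_of_le_of_le' (g := fun k : ℕ => B P - 1 / k)
        (by simpa using tendsto_const_nhds.sub (tendsto_one_div_atTop_nhds_zero_nat (𝕜 := ℝ)))
        tendsto_const_nhds ?_ ?_ <;> filter_upwards [eventually_gt_atTop 0] with k hk <;>
        have k0 : (0 : ℝ) < k := Nat.cast_pos.2 hk
      · rw [le_div_iff₀ k0, sub_mul, one_div, inv_mul_cancel₀ k0.ne']
        exact (Int.sub_one_lt_floor _).le
      · exact (div_le_iff₀ k0).2 (Int.floor_le _)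
  have c3 := ((cont_vol (M := M) δ).tendsto _).comp c2
  rw [hB] at c3
  obtain ⟨k, ⟨k1, k2⟩, hk⟩ := (((c3.eventually (lt_mem_nhds e1)).and
    (c2.eventually (Metric.closedBall_mem_nhds _ ε0))).and (eventually_gt_atTop 0)).exists
  have k0 : (0 : ℝ) < k := Nat.cast_pos.2 hk
  have e3 : ∑ P : B.support, (⌊B P * k⌋ : ℝ) • δ P =
      (k : ℝ) • ∑ P : B.support, ((⌊B P * k⌋ : ℝ) / k) • δ P := by
    rw [Finset.smul_sum]
    exact Finset.sum_congr rfl fun P _ => by rw [smul_smul, mul_div_cancel₀ _ k0.ne']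
  refine ⟨k, ∑ P : B.support, (⌊B P * k⌋ : ℝ) • δ P, hk,
    dv_sum _ fun P _ => dv_smul (dv_single (b2 _ P.2) 1) _,
    IsInt.sum _ fun P _ => IsInt.zsmul (IsInt.single _) _, ?_, ?_, ?_⟩
  · rw [e3]
    refine hM.pos.smul _ _ k0 ?_
    have := hε (fun P => (⌊B P * k⌋ : ℝ) / k - B P) fun P _ =>
      (dist_le_pi_dist (fun P : B.support => (⌊B P * k⌋ : ℝ) / k) (fun P => B P) P).trans k2
    simp only [sub_smul, Finset.sum_sub_distrib, hB] at this
    rwa [add_sub_cancel] at this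
  · have := (b3.smul k0.le).add (eff_of_nonneg (M := M)
      (G := ∑ P : B.support, (B P * k - ⌊B P * k⌋ : ℝ) • δ P) (Finset.sum_nonneg fun P _ =>
        smul_nonneg (sub_nonneg.2 (Int.floor_le _)) (Finsupp.single_nonneg.2 zero_le_one)))
    simp only [sub_smul, Finset.sum_sub_distrib, mul_comm _ (k : ℝ), mul_smul, ← Finset.smul_sum,
      hB] at this
    simp only [mul_comm _ (k : ℝ)]
    rwa [smul_sub, sub_add_sub_cancel] at this
  · rw [e3, vol, MultilinearMap.map_smul_univ (num M) (fun _ => (k : ℝ)), Finset.prod_const,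
      Finset.card_univ, Fintype.card_fin, smul_eq_mul]
    exact mul_lt_mul_of_pos_left k1 (pow_pos k0 n)

/-- asymptotic Riemann-Roch for ample divisors -/
def RRA (M : Mdl n N K) : Prop := ∀ A, M.Dv A → IsInt A → M.Amp A →
  Tendsto (fun m : ℕ => (h0 M ((m : ℝ) • A) : ℝ) * n.factorial / m ^ n) atTop (𝓝 (vol M A))

/-- **tigers** -/
theorem mu_rep' (hM : Pc M) (hR : RRA M) {ι : Type} [Fintype ι] (x : ι → M.F) (s : ι → ℝ)
    (hs : ∀ i, 0 ≤ s i) {D : Div K} (hd : M.Dv D) (hn : M.Nef D) (hb : Big M D)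
    (hv : ∑ i, s i ^ n < vol M D) : ∃ G, Rep M D G ∧ ∀ i, Mu M (x i) G (s i) := by
  obtain ⟨k, A, hk, a1, a2, a3, ⟨E, hE⟩, a5⟩ := amp_approx hM hd hn hb hv
  have k0 : (0 : ℝ) < k := Nat.cast_pos.2 hk
  obtain ⟨m, hm, m0⟩ := ((count_ev n (fun i => k * s i) (fun i => mul_nonneg k0.le (hs i))
    (hR A a1 a2 a3) (by simpa only [mul_pow, ← Finset.mul_sum] using a5)).and
    (eventually_gt_atTop 0)).exists
  have m1 : (0 : ℝ) < m := Nat.cast_pos.2 m0
  obtain ⟨f, f1, f0, hf⟩ := mu_sec hM x _ hm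
  have r := (((rep_sec hM.loc (dv_smul a1 _) f1 f0).smul (inv_pos.2 m1).le).add hE).smul
    (inv_pos.2 k0).le
  rw [inv_smul_smul₀ m1.ne', add_sub_cancel, inv_smul_smul₀ k0.ne'] at r
  refine ⟨_, r, fun i => ((((hf i).smul (inv_pos.2 m1).le).add (Mu.zero hM.loc hE.1)).smul
    (inv_pos.2 k0).le).mono ?_⟩
  rw [add_zero, le_inv_mul_iff₀ k0, le_inv_mul_iff₀ m1]
  exact Nat.le_ceil _

end Vale.Agent.P287D.I
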