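import Vale.Agent.P287D.I.Df

/-!
# P287D: intersection numbers, the basic calculus
-/

set_option linter.all false

open Set Filter Topology
open Vale.Agent.P297 (Place)
open Vale.Agent.P277Z Vale.Agent.P277Z.FI Vale.Agent.P277Z.F5 Vale.Agent.P277Z.F5.Dg

noncomputable section

namespace Vale.Agent.P287D.I

variable {n N : ℕ} {K : Type} [Field K] [Algebra ℂ K]

/-- multilinear forms that agree on the primes of the model agree on the divisors of the model -/
theorem ext_k {M : Mdl n N K} {k : ℕ} {f g : MultilinearMap ℝ (fun _ : Fin k => Div K) ℝ}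
    (h : ∀ p : Fin k → Place K, (∀ i, M.Pr (p i)) →
      f (fun i => Finsupp.single (p i) 1) = g fun i => Finsupp.single (p i) 1)
    {a : Fin k → Div K} (ha : ∀ i, M.Dv (a i)) : f a = g a := by
  have : f.compLinearMap (fun _ => trl M) = g.compLinearMap fun _ => trl M := ml_ext fun p => by
    simp only [MultilinearMap.compLinearMap_apply, trl_apply]
    by_cases k : ∀ i, M.Pr (p i)
    · simp only [tr_single (k _)]; exact h p k
    · obtain ⟨i, hi⟩ := not_forall.1 k
      rw [f.map_coord_zero i (tr_single_off hi 1), g.map_coord_zero i (tr_single_off hi 1)]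
  have k := DFunLike.congr_fun this a
  simpa only [MultilinearMap.compLinearMap_apply, trl_apply, tr_of_dv (ha _)] using k

/-- induction over the integral divisors -/
theorem gd_ind {M : Mdl n N K} {p : Div K → Prop} (h0 : p 0) (add : ∀ D E, D ∈ Gd M → E ∈ Gd M →
    p D → p E → p (D + E)) (neg : ∀ D, D ∈ Gd M → p D → p (-D))
    (one : ∀ P, M.Pr P → p (Finsupp.single P 1)) {D : Div K} (hD : D ∈ Gd M) : p D := by
  have k : D ∈ AddSubgroup.closure {E : Div K | ∃ P, M.Pr P ∧ E = Finsupp.single P 1} := by
    choose e he using hD.2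
    rw [← Finsupp.sum_single D, Finsupp.sum]
    refine sum_mem fun P hP => ?_
    have : Finsupp.single P (D P) = e P • Finsupp.single P (1 : ℝ) := by
      rw [Finsupp.smul_single, he, zsmul_one]
    rw [this]
    exact zsmul_mem (AddSubgroup.subset_closure (by exact ⟨P, hD.1 P hP, rfl⟩)) _
  have le : AddSubgroup.closure {E : Div K | ∃ P, M.Pr P ∧ E = Finsupp.single P 1} ≤ Gd M :=
    (AddSubgroup.closure_le _).2 (by rintro _ ⟨P, hP, rfl⟩; exact gd_single hP)
  clear hD
  induction k using AddSubgroup.closure_induction with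
  | mem _ h => obtain ⟨P, hP, rfl⟩ := h; exact one P hP
  | zero => exact h0
  | add D E a b c d => exact add D E (le a) (le b) c d
  | neg D a b => exact neg D (le a) b

section cons

variable {M : Mdl (n + 1) N K} {a b : Fin n → Div K} {D E : Div K}

/-- the intersection number as a linear form in the first argument -/
def nc (M : Mdl (n + 1) N K) (a : Fin n → Div K) : Div K →ₗ[ℝ] ℝ where
  toFun D := num M (Fin.cons D a)
  map_add' D E := (num M).cons_add a D E
  map_smul' c D := (num M).cons_smul a c D

theorem nc_apply (D : Div K) : nc M a D = num M (Fin.cons D a) := rfl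

theorem cons_add (D E : Div K) :
    num M (Fin.cons (D + E) a) = num M (Fin.cons D a) + num M (Fin.cons E a) := (nc M a).map_add D E

theorem cons_sub (D E : Div K) :
    num M (Fin.cons (D - E) a) = num M (Fin.cons D a) - num M (Fin.cons E a) := (nc M a).map_sub D E

theorem cons_neg (D : Div K) : num M (Fin.cons (-D) a) = -num M (Fin.cons D a) := (nc M a).map_neg D

theorem cons_smul (c : ℝ) (D : Div K) : num M (Fin.cons (c • D) a) = c * num M (Fin.cons D a) :=
  (nc M a).map_smul c D

theorem cons_zero : num M (Fin.cons 0 a) = 0 := (nc M a).map_zero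

theorem cons_sum {ι : Type*} (s : Finset ι) (D : ι → Div K) :
    num M (Fin.cons (∑ i ∈ s, D i) a) = ∑ i ∈ s, num M (Fin.cons (D i) a) := map_sum (nc M a) D s

theorem cons_tr (D : Div K) : num M (Fin.cons (M.tr D) a) = num M (Fin.cons D a) :=
  num_congr (Fin.cases (tr_of_dv (dv_tr D)) fun _ => rfl)

theorem cons_off {P : Place K} (h : ¬ M.Pr P) (c : ℝ) :
    num M (Fin.cons (Finsupp.single P c) a) = 0 := by
  rw [← cons_tr, tr_single_off h, cons_zero]

theorem cons_eq_sum (D : Div K) : num M (Fin.cons D a) =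
    ∑ P ∈ D.support, D P * num M (Fin.cons (Finsupp.single P 1) a) := by
  conv_lhs => rw [← Finsupp.sum_single D, Finsupp.sum, cons_sum]
  refine Finset.sum_congr rfl fun P _ => ?_
  rw [← cons_smul, Finsupp.smul_single, smul_eq_mul, mul_one]

/-- moving the place `i` to the front -/
theorem num_front (h : Pc M) (a : Fin (n + 1) → Div K) (i : Fin (n + 1)) :
    num M a = num M (Fin.cons (a i) fun j => a (i.succAbove j)) := by
  rw [← num_perm h (Fin.cycleRange i).symm a]
  congr 1
  funext j
  refine Fin.cases ?_ (fun j => ?_) j <;> simp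

theorem cons_swap {M : Mdl (n + 2) N K} (h : Pc M) (D E : Div K) (a : Fin n → Div K) :
    num M (Fin.cons D (Fin.cons E a)) = num M (Fin.cons E (Fin.cons D a)) := by
  rw [num_front h _ 1]
  congr 1
  funext j
  refine Fin.cases rfl (fun j => Fin.cases rfl (fun j => ?_) j) j
  simp [Fin.succAbove]

end cons

variable {M : Mdl n N K} {a b : Fin n → Div K}

theorem I_update {M : Mdl (n + 1) N K} (h : Pc M) {a : Fin (n + 1) → Div K} (ha : ∀ i, a i ∈ Gd M)
    (i : Fin (n + 1)) : I M a = I M (Fin.cons (a i) fun j => a (i.succAbove j)) := by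
  rw [← h.ok.perm (Fin.cycleRange i).symm ha]
  congr 1
  funext j
  refine Fin.cases ?_ (fun j => ?_) j <;> simp

theorem num_int (h : Pc M) (ha : ∀ i, a i ∈ Gd M) : num M a = I M a := by
  classical
  suffices k : ∀ s : Finset (Fin n), ∀ a : Fin n → Div K, (∀ i, a i ∈ Gd M) →
      (∀ i ∉ s, ∃ P, M.Pr P ∧ a i = Finsupp.single P 1) → num M a = I M a from
    k Finset.univ a ha (by simp)
  intro s
  induction s using Finset.induction_on with
  | empty =>
    intro a _ h1
    choose p h2 h3 using fun i => h1 i (by simp)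
    rw [funext h3, num_single h2]
  | insert i s _ ih =>
    intro a h1 h2
    obtain ⟨n, rfl⟩ : ∃ k, n = k + 1 := ⟨n - 1, by have := i.2; omega⟩
    have h3 : ∀ j, a (i.succAbove j) ∈ Gd M := fun j => h1 _
    rw [num_front h a i, I_update h h1 i]
    refine gd_ind (p := fun D => num M (Fin.cons D fun j => a (i.succAbove j)) =
      I M (Fin.cons D fun j => a (i.succAbove j))) ?_ ?_ ?_ ?_ (h1 i)
    · rw [cons_zero]; exact_mod_cast (h.ok.hom h3).map_zero.symm
    · intro D E d e k1 k2
      rw [cons_add, k1, k2]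
      exact_mod_cast ((h.ok.hom h3).map_add ⟨D, d⟩ ⟨E, e⟩).symm
    · intro D d k
      rw [cons_neg, k]
      exact_mod_cast ((h.ok.hom h3).map_neg ⟨D, d⟩).symm
    · intro P hP
      have g : ∀ j, Function.update a i (Finsupp.single P 1) j ∈ Gd M := fun j => by
        by_cases e : j = i
        · rw [e, Function.update_self]; exact gd_single hP
        · rw [Function.update_of_ne e]; exact h1 j
      have k := ih (Function.update a i (Finsupp.single P 1)) g fun j hj => by
        by_cases e : j = i
        · exact ⟨P, hP, by rw [e, Function.update_self]⟩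
        · rw [Function.update_of_ne e]; exact h2 j (by simp [e, hj])
      rw [num_front h _ i, I_update h g i] at k
      simpa only [Function.update_self, Function.update_of_ne (Fin.succAbove_ne i _)] using k

theorem num_isInt (h : Pc M) (ha : ∀ i, IsInt (a i)) : ∃ z : ℤ, num M a = z := by
  refine ⟨_, (num_tr a).symm.trans (num_int h fun i => ⟨dv_tr _, fun P => ?_⟩)⟩
  by_cases hP : M.Pr P
  · rw [tr_apply hP]; exact ha i P
  · exact ⟨0, by rw [tr_off hP, Int.cast_zero]⟩

theorem cons_deg {M : Mdl (n + 1) N K} (h : Pc M) {a : Fin n → Div K} (ha : ∀ i, a i ∈ Gd M)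
    (D : Div K) : num M (Fin.cons D a) = dg M a D := by
  refine DFunLike.congr_fun (Finsupp.lhom_ext' (φ := nc M a) (ψ := dg M a) fun P =>
    LinearMap.ext_ring ?_) D
  show num M (Fin.cons (Finsupp.single P 1) a) = dg M a (Finsupp.single P 1)
  by_cases hP : M.Pr P
  · rw [num_int h (gd_cons (gd_single hP) ha), dg_single hP]
  · rw [cons_off hP, dg, Finsupp.linearCombination_single, if_neg hP, smul_zero]

theorem deg_eq_num {M : Mdl (n + 1) N K} (h : Pc M) {H : Div K} (hH : H ∈ Gd M) (D : Div K) :
    deg M H D = num M (Fin.cons D fun _ => H) := (cons_deg h (fun _ => hH) D).symm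

theorem cons_prR {M : Mdl (n + 1) N K} (h : Pc M) {D : Div K} (hD : D ∈ PrR M)
    (a : Fin n → Div K) : num M (Fin.cons D a) = 0 := by
  have e : num M (Fin.cons D a) = num M (Fin.cons D fun i => M.tr (a i)) :=
    num_congr (Fin.cases rfl fun i => (tr_of_dv (dv_tr _)).symm)
  rw [e]
  refine ext_k (M := M) (f := (num M).curryLeft D) (g := 0) (fun p hp => ?_) fun i => dv_tr _
  exact (cons_deg h (fun i => gd_single (hp i)) D).trans
    (h.ok.dg_pr (fun i => gd_single (hp i)) hD)

theorem num_prR (h : Pc M) (i : Fin n) (hi : a i ∈ PrR M) : num M a = 0 := by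
  obtain ⟨n, rfl⟩ : ∃ k, n = k + 1 := ⟨n - 1, by have := i.2; omega⟩
  rw [num_front h a i, cons_prR h hi]

theorem num_eqv (h : Pc M) (e : ∀ i, b i - a i ∈ PrR M) : num M b = num M a := by
  classical
  have k : b = a + fun i => b i - a i := by funext i; simp
  rw [k, (num M).map_add_univ, Finset.sum_eq_single Finset.univ, Finset.piecewise_univ]
  · intro s _ hs
    obtain ⟨i, hi⟩ : ∃ i, i ∉ s := by
      by_contra c
      exact hs (Finset.eq_univ_of_forall fun i => by_contra fun d => c ⟨i, d⟩)
    exact num_prR h i (by rw [Finset.piecewise_eq_of_notMem _ _ _ hi]; exact e i)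
  · simp

theorem cons_eqv {M : Mdl (n + 1) N K} (h : Pc M) {D E : Div K} (e : E - D ∈ PrR M)
    (a : Fin n → Div K) : num M (Fin.cons E a) = num M (Fin.cons D a) :=
  sub_eq_zero.1 ((cons_sub E D).symm.trans (cons_prR h e a))

theorem vol_eqv (h : Pc M) {D E : Div K} (e : E - D ∈ PrR M) : vol M E = vol M D :=
  num_eqv h fun _ => e

theorem vol_smul (c : ℝ) (D : Div K) : vol M (c • D) = c ^ n * vol M D := by
  simpa [vol] using (num M).map_smul_univ (fun _ => c) fun _ => D

theorem vol_succ {M : Mdl (n + 1) N K} (D : Div K) : vol M D = num M (Fin.cons D fun _ => D) := by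
  rw [vol]
  congr 1
  funext i
  exact Fin.cases rfl (fun _ => rfl) i

theorem num_zero {M : Mdl 0 N K} (h : Pc M) (a : Fin 0 → Div K) : num M a = 1 := by
  obtain ⟨A, hA1, hA2, hA⟩ := h.pos.ex
  obtain ⟨m, k1⟩ := (h.ok.ev (a := a) (fun i => i.elim0) ⟨hA1, hA2⟩ hA (zero_mem _)).exists
  rw [num_int h fun i => i.elim0, ← k1, df]
  simp [hz, ((cpA 0 N K M h.proj).2 h.cpt).2.2.1 rfl]

section res

variable {M : Mdl (n + 1) N K} {P : Place K} {a : Fin n → Div K}

/-- **restriction to a smooth prime divisor** -/
theorem num_res (h : Pc M) (u : SubM M P) (hs : M.Snc {P}) (ha : ∀ i, M.Dv (a i)) :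
    num M (Fin.cons (Finsupp.single P 1) a) = num u.S fun i => u.r (a i) := by
  refine ext_k (M := M) (f := (num M).curryLeft (Finsupp.single P 1))
    (g := (num u.S).compLinearMap fun _ => u.r) (fun p hp => ?_) ha
  have g := fun i => gd_single (hp i)
  exact (num_int h (gd_cons (gd_single (hs.1 P rfl)) g)).trans ((congrArg _
    (res tb polyA (exsA n) h.proj h.cpt hs u g)).trans
    (num_int (h.sub u hs) fun i => gd_r h.loc u (g i).2).symm)

/-- cutting with a smooth member -/
theorem num_cut (h : Pc M) {D : Div K} {Y : Finset (Place K)} (u : ∀ P : Y, SubM M P)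
    (hY : ∀ P ∈ Y, M.Snc {P}) (e : ∑ P ∈ Y, Finsupp.single P (1 : ℝ) - D ∈ PrR M)
    (ha : ∀ i, M.Dv (a i)) :
    num M (Fin.cons D a) = ∑ P : Y, num (u P).S fun i => (u P).r (a i) := by
  rw [← cons_eqv h e, cons_sum, ← Finset.sum_coe_sort Y]
  exact Finset.sum_congr rfl fun P _ => num_res h (u P) (hY P.1 P.2) ha

end res

/-- the degree on a curve -/
theorem num_one {M : Mdl 1 N K} (h : Pc M) {P : Place K} (hP : M.Pr P) (a : Fin 0 → Div K) :
    num M (Fin.cons (Finsupp.single P 1) a) = 1 := by
  have hs := (((cpA 1 N K M h.proj).2 h.cpt).2.2.2.2 rfl) {P} (by rintro _ rfl; exact hP)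
  obtain ⟨u⟩ := h.ex_sub hs
  rw [num_res h u hs fun i => i.elim0, num_zero (h.sub u hs)]

/-- every divisor is a combination of polarisations -/
theorem span_pol (h : Pc M) {D : Div K} (hD : M.Dv D) :
    D ∈ Submodule.span ℝ {H | Pol M H} := by
  have k : ∀ A, M.Dv A → M.Amp A → A ∈ Submodule.span ℝ {H | Pol M H} := fun A h1 h2 =>
    amp_ind h.pos (p := fun A => A ∈ Submodule.span ℝ {H | Pol M H}) (fun _ _ => add_mem)
      (fun _ c _ => Submodule.smul_mem _ c) (fun _ hH => Submodule.subset_span hH) h1 h2
  obtain ⟨H, hH⟩ := h.pol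
  obtain ⟨m, -, hm⟩ := amp_large h.pos hH.amp D
  simpa using sub_mem (k _ (dv_add hD (dv_smul hH.dv m)) (hm m le_rfl))
    (Submodule.smul_mem _ m (k H hH.dv hH.amp))

/-- induction over the arguments of multilinear forms -/
theorem ml_ind {k : ℕ} {q : Div K → Prop} {r : Div K → Prop} {p : (Fin k → Div K) → Prop}
    (step : ∀ (a : Fin k → Div K) i, (∀ j, q (a j)) →
      (∀ H, r H → p (Function.update a i H)) → p a)
    (rq : ∀ H, r H → q H) (base : ∀ a, (∀ i, r (a i)) → p a) {a : Fin k → Div K}
    (ha : ∀ i, q (a i)) : p a := by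
  classical
  suffices k : ∀ s : Finset (Fin k), ∀ a : Fin k → Div K, (∀ i, q (a i)) →
      (∀ i ∉ s, r (a i)) → p a from k Finset.univ a ha (by simp)
  intro s
  induction s using Finset.induction_on with
  | empty => exact fun a _ h => base a fun i => h i (by simp)
  | insert i s _ ih =>
    intro a h1 h2
    refine step a i h1 fun H hH => ih _ (fun j => ?_) fun j hj => ?_
    · by_cases e : j = i
      · rw [e, Function.update_self]; exact rq H hH
      · rw [Function.update_of_ne e]; exact h1 j
    · by_cases e : j = i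
      · rw [e, Function.update_self]; exact hH
      · rw [Function.update_of_ne e]; exact h2 j (by simp [e, hj])

/-- multilinear forms that agree on the polarisations agree on all divisors -/
theorem ext_pol (h : Pc M) {k : ℕ} {f g : MultilinearMap ℝ (fun _ : Fin k => Div K) ℝ}
    (e : ∀ a, (∀ i, Pol M (a i)) → f a = g a) {a : Fin k → Div K} (ha : ∀ i, M.Dv (a i)) :
    f a = g a := by
  classical
  refine ml_ind (q := M.Dv) (r := Pol M) (p := fun a => f a = g a) (fun a i h1 h2 => ?_)
    (fun _ => Pol.dv) e ha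
  have := (Submodule.span_le (p := LinearMap.eqLocus (f.toLinearMap a i) (g.toLinearMap a i))).2
    (fun H hH => h2 H hH) (span_pol h (h1 i))
  simpa using this

end Vale.Agent.P287D.I
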