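import Vale.Agent.P287D.I.Pos
import Vale.Agent.P287D.Ba.Cn
import Vale.Agent.P287D.Ba.Bar
import Vale.Agent.P287D.Cv.Rr

/-!
# P287D: curves as models
-/

set_option linter.all false

open Set
open Vale.Agent.P297 (Place)
open Vale.Agent.P277Z Vale.Agent.P277Z.FI Vale.Agent.P277Z.F5 Vale.Agent.P277Z.F5.Dg
open Vale.Agent.P287D.Ba (bar KM)

noncomputable section

namespace Vale.Agent.P287D.I

variable {K : Type} [Field K] [Algebra ℂ K] {M : Mdl 1 0 K} {D E L κ : Div K}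

/-- the genus -/
abbrev gn (K : Type) [Field K] [Algebra ℂ K] : ℕ := pg K 1

variable (hM : M.Proj)

include hM

theorem pc1 : Pc M := ⟨hM, Bm.cpt M⟩

theorem pr1 (P : Pl K) : M.Pr P.toPlace :=
  let ⟨x, hx⟩ := Bm.ct hM P
  ⟨x, Bm.on_of_ai hM hx (z := Fin.elim0) (fun i => i.elim0) algebraicIndependent_empty_type⟩

theorem bar1 (D : Div K) (P : Pl K) : bar M D P = D P.toPlace := Ba.bar_pr hM (pr1 hM P) D

theorem cons1 (D : Div K) (a : Fin 0 → Div K) : num M (Fin.cons D a) = I1 (bar M D) := by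
  induction D using Finsupp.induction_linear with
  | zero => rw [cons_zero, map_zero, Cv.I1_zero]
  | add a b ha hb =>
    rw [cons_add, map_add, Cv.I1_add (Bm.ff hM) (Ba.bar_car hM a) (Ba.bar_car hM b), ha, hb]
  | single Q c =>
    by_cases h : M.Pr Q
    · obtain ⟨P, rfl⟩ := Bm.pl_of_pr hM h
      have e : bar M (Finsupp.single P.toPlace 1) = P.δ := funext fun R => by
        rw [bar1 hM]
        by_cases k : R = P
        · rw [k, Finsupp.single_eq_same, P.δ_self]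
        · rw [Finsupp.single_eq_of_ne fun e => k (Ba.pl_inj e), Pl.δ_ne k]
      rw [← mul_one c, ← smul_eq_mul, ← Finsupp.smul_single, cons_smul, map_smul, Cv.I1_smul,
        num_one (pc1 hM) h, e, Cv.I1_δ]
    · rw [cons_off h, ← Ba.bar_tr hM, tr_single_off h, map_zero, Cv.I1_zero]

/-- the degree -/
theorem vol1 (D : Div K) : vol M D = I1 (bar M D) := by rw [vol_succ, cons1 hM]

theorem vol1_add (D E : Div K) : vol M (D + E) = vol M D + vol M E := by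
  rw [vol1 hM, vol1 hM, vol1 hM, map_add,
    Cv.I1_add (Bm.ff hM) (Ba.bar_car hM D) (Ba.bar_car hM E)]

theorem vol1_smul (c : ℝ) (D : Div K) : vol M (c • D) = c * vol M D := by
  rw [vol1 hM, vol1 hM, map_smul, Cv.I1_smul]

theorem vol1_sub (D E : Div K) : vol M (D - E) = vol M D - vol M E := by
  rw [vol1 hM, vol1 hM, vol1 hM, map_sub,
    Cv.I1_sub (Bm.ff hM) (Ba.bar_car hM D) (Ba.bar_car hM E)]

theorem H0_1 (D : Div K) : (M.H0 D).restrictScalars ℂ = H0 (bar M D) := by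
  ext f
  rw [mem_H0]
  refine or_congr_right ⟨fun h P => ?_, fun h Q hQ => ?_⟩
  · rw [Pi.add_apply, bar1 hM]
    exact h _ (pr1 hM P)
  · obtain ⟨P, rfl⟩ := Bm.pl_of_pr hM hQ
    have := h P
    rwa [Pi.add_apply, bar1 hM] at this

theorem h0_1 (D : Div K) : F5.h0 M D = P287D.h0 (bar M D) := by rw [F5.h0, H0_1 hM, P287D.h0]

theorem bar_KM1 : bar M (KM M) = cn K 1 :=
  funext fun P => by rw [bar1 hM, Ba.KM_pr hM (pr1 hM P)]

theorem bar_can1 (h : IsCan M κ) : ∃ f : K, f ≠ 0 ∧ bar M κ = cn K 1 + dv f := by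
  obtain ⟨f, f0, rfl⟩ := Ba.isCan_KM hM h
  exact ⟨f, f0, by rw [map_add, bar_KM1 hM, Ba.bar_div hM]⟩

theorem h0_le_deg (D : Div K) : (F5.h0 M D : ℝ) ≤ max (vol M D + 1) 0 := by
  rw [h0_1 hM, vol1 hM]
  exact Cv.h0_le (Bm.ff hM) (Ba.bar_car hM D)

theorem h0_neg_deg (h : vol M D < 0) : F5.h0 M D = 0 := by
  rw [h0_1 hM]
  exact Cv.h0_eq_zero (Bm.ff hM) (Ba.bar_car hM D) (vol1 hM D ▸ h)

theorem h0_can (h : IsCan M κ) : F5.h0 M κ = gn K := by
  obtain ⟨f, f0, e⟩ := bar_can1 hM h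
  rw [h0_1 hM, e, P287D.h0_add_dv _ f0]
  rfl

theorem deg_can (h : IsCan M κ) : vol M κ = 2 * gn K - 2 := by
  obtain ⟨f, f0, e⟩ := bar_can1 hM h
  rw [vol1 hM, e, Cv.I1_add (Bm.ff hM) (Cv.cn_car (Bm.ff hM))
    (Cv.smp_car (Cv.prn_smp (Cv.dv_prn f))), Cv.I1_dv (Bm.ff hM), add_zero, Cv.I1_cn (Bm.ff hM)]

/-- **Riemann and Roch** -/
theorem rr1 (h : IsCan M κ) (hL : IsInt L) :
    (F5.h0 M L : ℝ) - F5.h0 M (κ - L) = vol M L + 1 - gn K := by
  obtain ⟨f, f0, e⟩ := bar_can1 hM h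
  rw [h0_1 hM, h0_1 hM, map_sub, e, add_sub_right_comm, P287D.h0_add_dv _ f0, vol1 hM]
  exact Cv.rr (Bm.ff hM) (Ba.bar_carZ hM hL)

theorem riemann1 (hL : IsInt L) : vol M L + 1 - gn K ≤ F5.h0 M L := by
  rw [h0_1 hM, vol1 hM]
  exact Cv.riemann (Bm.ff hM) (Ba.bar_carZ hM hL)

theorem rr1_large (hL : IsInt L) (k : 2 * gn K - 2 < vol M L) :
    (F5.h0 M L : ℝ) = vol M L + 1 - gn K := by
  rw [h0_1 hM, vol1 hM]
  exact Cv.rr_large (Bm.ff hM) (Ba.bar_carZ hM hL) (vol1 hM L ▸ k)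

theorem h0_adj1 (h : IsCan M κ) (hL : IsInt L) (k : 0 < vol M L) :
    (F5.h0 M (κ + L) : ℝ) = vol M L + gn K - 1 := by
  obtain ⟨f, f0, e⟩ := bar_can1 hM h
  rw [h0_1 hM, map_add, e, add_right_comm, P287D.h0_add_dv _ f0, vol1 hM]
  exact Cv.h0_adj (Bm.ff hM) (Ba.bar_carZ hM hL) (vol1 hM L ▸ k)

theorem nef_of_smp1 (h : Smp (bar M D)) : M.Nef D := by
  have k : ∀ β : BD K, Smp β → ∃ E, M.Dv E ∧ bar M E = β ∧ M.Nef E := fun β hβ => by
    refine Cv.smp_ind (p := fun β => ∃ E, M.Dv E ∧ bar M E = β ∧ M.Nef E)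
      ⟨0, FI.dv_zero, map_zero _, nef_zero⟩ (fun s c hc => ?_) ?_ hβ
    · obtain ⟨u, hu, e⟩ := exists_nz s
      refine ⟨c • Ba.sys M u, FI.dv_smul (Ba.dv_sys u) c, ?_, nef_smul (pc1 hM).pos
        ((pc1 hM).pos.free _ (Ba.int_sys hM u) fun x => ?_) hc⟩
      · rw [map_smul, ← e]
        congr 1
        funext P
        rw [bar1 hM, Ba.sys_pl hM u (pr1 hM P)]
      · have h1 := ((cpA 1 0 K M hM).2 (Bm.cpt M)).2.2.2.2 rfl
        by_cases h2 : ∃ Q, M.On x Q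
        · obtain ⟨Q, hQ⟩ := h2
          obtain ⟨P, rfl⟩ := Bm.pl_of_pr hM ⟨x, hQ⟩
          obtain ⟨f, hf, f0, e⟩ := P.exists_mz hu
          refine ⟨f, Ba.mem_sys hM hf, f0, fun R hR => ?_⟩
          obtain ⟨t, -, ht⟩ := (h1 {P.toPlace, R} (by
            rintro _ (rfl | rfl)
            exacts [⟨x, hQ⟩, ⟨x, hR⟩])).2 x
          obtain ⟨i, hi⟩ := ht _ (Or.inl rfl) hQ
          obtain ⟨j, hj⟩ := ht _ (Or.inr rfl) hR
          obtain rfl : R = P.toPlace := by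
            by_contra k
            have k1 := (pc1 hM).loc.other x _ R _ hi hR k
            rw [Subsingleton.elim i j, hj.ord] at k1
            exact one_ne_zero k1
          rw [Ba.sys_pl hM u (pr1 hM P), mx_apply, e, Int.cast_neg, add_neg_cancel]
        · obtain ⟨f, hf, f0⟩ := hu
          exact ⟨f, Ba.mem_sys hM hf, f0, fun R hR => absurd ⟨R, hR⟩ h2⟩
    · rintro _ _ ⟨a, h1, rfl, h2⟩ ⟨b, h3, rfl, h4⟩
      exact ⟨a + b, FI.dv_add h1 h3, map_add _ _ _, nef_add h2 h4⟩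
  obtain ⟨E, h1, h2, h3⟩ := k _ h
  have e : E = M.tr D := Ba.dv_ext_pl hM h1 (dv_tr D) fun P hP => by
    rw [← bar1 hM, h2, bar1 hM, tr_apply hP]
  intro A hA
  have := h3 _ (((pc1 hM).pos.tr A).2 hA)
  rw [e, ← trl_apply, ← trl_apply, ← map_add] at this
  exact ((pc1 hM).pos.tr _).1 this

theorem amp_iff1 : M.Amp D ↔ 0 < vol M D := by
  refine ⟨fun h => ?_, fun h => ?_⟩
  · have := vol_amp (pc1 hM) (dv_tr D) (((pc1 hM).pos.tr D).2 h)
    rwa [vol1 hM, Ba.bar_tr hM, ← vol1 hM] at this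
  · obtain ⟨A, h1, -, h2⟩ := (pc1 hM).pos.ex
    have h3 := vol_amp (pc1 hM) h1 h2
    have h4 := nef_of_smp1 hM (D := D - (vol M D / (vol M A + 1)) • A)
      (Cv.smp_of_pos (Bm.ff hM) (Ba.bar_car hM _) (by
        rw [← vol1 hM, vol1_sub hM, vol1_smul hM, sub_pos, div_mul_eq_mul_div,
          div_lt_iff₀ (by positivity)]
        nlinarith))
    simpa using h4 _ ((pc1 hM).pos.smul A (vol M D / (vol M A + 1)) (by positivity) h2)

theorem nef_iff1 : M.Nef D ↔ 0 ≤ vol M D := by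
  refine ⟨fun h => ?_, fun h A hA => ?_⟩
  · have := vol_nef (pc1 hM) (dv_tr D) fun A hA => by
      have k := ((pc1 hM).pos.tr _).2 (h _ hA)
      rw [amp_iff1 hM, vol1 hM, Ba.bar_tr hM, map_add, ← Ba.bar_tr hM D, ← map_add,
        ← vol1 hM] at k
      exact (amp_iff1 hM).2 k
    rwa [vol1 hM, Ba.bar_tr hM, ← vol1 hM] at this
  · rw [amp_iff1 hM] at hA ⊢
    rw [vol1_add hM]
    linarith

end Vale.Agent.P287D.I
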