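import Vale.Agent.P277Z.F5.Fin
import Mathlib.LinearAlgebra.PiTensorProduct.Basis
import Mathlib.LinearAlgebra.Multilinear.Basis

/-!
# P287D: intersection numbers on compact projective models. Definitions and the basic calculus.
-/

set_option linter.all false

open Set Filter Topology
open Vale.Agent.P297 (Place)
open Vale.Agent.P277Z Vale.Agent.P277Z.FI Vale.Agent.P277Z.F5 Vale.Agent.P277Z.F5.Dg

noncomputable section

namespace Vale.Agent.P287D.I

export Vale.Agent.P277Z (Div)

theorem arA (n : ℕ) : AR n := ar tb n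
theorem cpA (n : ℕ) : CP n := cp tb n (arA n)
theorem exsA (n : ℕ) : EXS n := exs tb cpA n
theorem btA (n : ℕ) : BT n := bt tb n
theorem polyA (n : ℕ) : POLY n := poly tb cpA exsA btA n
theorem constA (n : ℕ) : CONST n := const tb cpA exsA btA n
theorem degA (n : ℕ) : DEG n := deg_of tb polyA exsA cpA n
theorem drsA (n : ℕ) : DRS n := drs_of tb polyA exsA n
theorem dnnA (n : ℕ) : DNN n := dnn_of tb polyA exsA cpA btA n
theorem muA : Mu.Hy := ⟨tb, cpA, constA, degA, dnnA, drsA⟩
theorem dhA (n : ℕ) : DH n := Mu.dh muA n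
theorem ntfA (n : ℕ) : NTF n := Mu.ntf muA n
theorem d1A (n : ℕ) : D1 n := d1_of tb arA polyA exsA cpA btA dhA ntfA n
theorem dposA (n : ℕ) : DPOS n := dpos_of tb arA polyA exsA cpA btA dhA ntfA constA n
theorem lrA (n : ℕ) : LR n := lr tb n
theorem ppA (n : ℕ) : PP n := pp tb n

variable {n N : ℕ} {K : Type} [Field K] [Algebra ℂ K]

/-- compact projective models -/
structure Pc (M : Mdl n N K) : Prop where
  proj : M.Proj
  cpt : Cpt M

namespace Pc

variable {M M' : Mdl n N K}

theorem loc (h : Pc M) : Loc M := locA n N K M h.proj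
theorem pos (h : Pc M) : Pos M := posA n N K M h.proj
theorem coh (h : Pc M) : Coh M := box.coh n N K M h.proj
theorem ok (h : Pc M) : Ok M := ok_of tb polyA h.proj h.cpt
theorem bir (h : Pc M) (m : Mod M' M) (h' : M'.Proj) : Bir M' M m := birA n N K M h.proj M' m h'
theorem mod (h : Pc M) (m : Mod M' M) (h' : M'.Proj) : Pc M' := ⟨h', cpt_mod m h.cpt⟩
theorem fin (h : Pc M) (D : Div K) : Module.Finite ℂ ((M.H0 D).restrictScalars ℂ) :=
  ((cpA n N K M h.proj).2 h.cpt).1 D
theorem div_zero (h : Pc M) {f : K} (hf : f ≠ 0) (h0 : 0 ≤ M.div f) : M.div f = 0 :=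
  ((cpA n N K M h.proj).2 h.cpt).2.1 f hf h0
theorem can (h : Pc M) : ∃ κ, IsCan M κ := exists_can h.loc
theorem pol (h : Pc M) : ∃ H, Pol M H := exists_pol h.pos

section sub

variable {M : Mdl (n + 1) N K} {P : Place K}

theorem exs (h : Pc M) (u : SubM M P) (hs : M.Snc {P}) : Cpt u.S ∧
    (∀ L, M.Dv L → IsInt L →
      h0 M (L + Finsupp.single P 1) ≤ h0 M L + h0 u.S (u.r (L + Finsupp.single P 1))) ∧
    (∀ A, M.Amp A → u.S.Amp (u.r A)) ∧ (∀ D, M.Nef D → u.S.Nef (u.r D)) ∧
    (∀ D, IsInt D → (∀ x, M.Free D x) → ∀ y, u.S.Free (u.r D) y) ∧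
    (∀ D ∈ PrR M, u.r D ∈ PrR u.S) ∧
    ∀ κ T B, P ∉ T → Lg M κ (insert P T) → Bd1 T B →
      (∃ T', Lg u.S (u.r (κ + Finsupp.single P 1)) T' ∧ Bd1 T' (u.r B)) ∧
      ∀ L, M.Dv L → IsInt L → M.Amp (L - κ - B) →
        h0 M (L + Finsupp.single P 1) = h0 M L + h0 u.S (u.r (L + Finsupp.single P 1)) :=
  exsA n N K M h.proj h.cpt _ _ _ u.s u.rst _ u.ht u.proj hs

theorem sub (h : Pc M) (u : SubM M P) (hs : M.Snc {P}) : Pc u.S := ⟨u.proj, (h.exs u hs).1⟩

theorem ex_sub (h : Pc M) (hs : M.Snc {P}) : Nonempty (SubM M P) := exists_sub tb h.proj hs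

theorem r_amp (h : Pc M) (u : SubM M P) (hs : M.Snc {P}) {A : Div K} (hA : M.Amp A) :
    u.S.Amp (u.r A) := (h.exs u hs).2.2.1 A hA

theorem r_nef (h : Pc M) (u : SubM M P) (hs : M.Snc {P}) {A : Div K} (hA : M.Nef A) :
    u.S.Nef (u.r A) := (h.exs u hs).2.2.2.1 A hA

theorem r_prR (h : Pc M) (u : SubM M P) (hs : M.Snc {P}) {D : Div K} (hD : D ∈ PrR M) :
    u.r D ∈ PrR u.S := (h.exs u hs).2.2.2.2.2.1 D hD

theorem r_pol (h : Pc M) (u : SubM M P) (hs : M.Snc {P}) {H : Div K} (hH : Pol M H) :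
    Pol u.S (u.r H) :=
  ⟨dv_rs _ _, (gd_r h.loc u hH.int).2, h.r_amp u hs hH.amp,
    (h.exs u hs).2.2.2.2.1 H hH.int hH.free⟩

end sub

/-- a smooth member of a free system, off finitely many places, transversal to `T` -/
theorem cut (h : Pc M) {D : Div K} (h1 : M.Dv D) (h2 : IsInt D) (h3 : ∀ x, M.Free D x)
    {T T₁ : Set (Place K)} (hT : T.Finite) (hs : M.Snc T) (hT₁ : T₁.Finite) :
    ∃ (f : K) (Y : Finset (Place K)), f ≠ 0 ∧ M.div f + D = ∑ P ∈ Y, Finsupp.single P 1 ∧
      Disjoint (Y : Set (Place K)) T ∧ Disjoint (Y : Set (Place K)) T₁ ∧ M.Snc (T ∪ Y) := by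
  obtain ⟨f, Y, a, b, -, c, d, e, -⟩ := btA n N K M h.proj M (Mod.refl M) T ∅ T₁ D h.proj hT hs
    finite_empty (snc_empty h.loc) (fun _ h => h.2 h.1) hT₁ h1 h2 h3
  exact ⟨f, Y, a, b, c, d, e⟩

end Pc

theorem dv_r {M : Mdl (n + 1) N K} {P : Place K} (u : SubM M P) (D : Div K) : u.S.Dv (u.r D) :=
  dv_rs _ _

theorem r_nonneg {M : Mdl (n + 1) N K} {P : Place K} (u : SubM M P) {D : Div K} (hD : 0 ≤ D)
    (h0 : D P = 0) : 0 ≤ u.r D := Dz.r_nonneg tb u hD h0

/-- big divisors -/
def Big (M : Mdl n N K) (D : Div K) : Prop := ∃ A, M.Dv A ∧ M.Amp A ∧ Eff M (D - A)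

/-- the multilinear form with given values on a basis -/
def ml {ι : Type} (c : (Fin n → ι) → ℝ) : MultilinearMap ℝ (fun _ : Fin n => ι →₀ ℝ) ℝ :=
  ((_root_.Basis.piTensorProduct fun _ : Fin n =>
    (Finsupp.basisSingleOne : Module.Basis ι ℝ (ι →₀ ℝ))).constr ℝ c).compMultilinearMap
    (PiTensorProduct.tprod ℝ)

theorem ml_single {ι : Type} (c : (Fin n → ι) → ℝ) (p : Fin n → ι) :
    ml c (fun i => Finsupp.single (p i) 1) = c p := by
  have := (_root_.Basis.piTensorProduct fun _ : Fin n =>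
    (Finsupp.basisSingleOne : Module.Basis ι ℝ (ι →₀ ℝ))).constr_basis ℝ c p
  rw [_root_.Basis.piTensorProduct_apply] at this
  simpa [ml] using this

theorem ml_ext {ι : Type} {f g : MultilinearMap ℝ (fun _ : Fin n => ι →₀ ℝ) ℝ}
    (h : ∀ p : Fin n → ι, f (fun i => Finsupp.single (p i) 1) = g fun i => Finsupp.single (p i) 1) :
    f = g :=
  Module.Basis.ext_multilinear (fun _ => Finsupp.basisSingleOne) fun p => by simpa using h p

open Classical in
/-- **The intersection number** of the traces of `n` divisors. -/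
def num (M : Mdl n N K) : MultilinearMap ℝ (fun _ : Fin n => Div K) ℝ :=
  ml fun p => if ∀ i, M.Pr (p i) then (I M fun i => Finsupp.single (p i) 1 : ℤ) else 0

/-- the top self-intersection -/
def vol (M : Mdl n N K) (D : Div K) : ℝ := num M fun _ => D

variable {M : Mdl n N K} {a b : Fin n → Div K}

theorem num_single {p : Fin n → Place K} (h : ∀ i, M.Pr (p i)) :
    num M (fun i => Finsupp.single (p i) 1) = I M fun i => Finsupp.single (p i) 1 := by
  rw [num, ml_single, if_pos h]

theorem tr_single {P : Place K} (h : M.Pr P) (c : ℝ) :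
    M.tr (Finsupp.single P c) = Finsupp.single P c := tr_of_dv (dv_single h c)

theorem tr_single_off {P : Place K} (h : ¬ M.Pr P) (c : ℝ) : M.tr (Finsupp.single P c) = 0 := by
  ext Q
  by_cases hQ : M.Pr Q
  · rw [tr_apply hQ, Finsupp.single_eq_of_ne fun e : Q = P => h (e ▸ hQ)]; rfl
  · exact tr_off hQ _

/-- multilinear forms that agree on the primes of the model agree on the traces -/
theorem ext_tr {f g : MultilinearMap ℝ (fun _ : Fin n => Div K) ℝ}
    (h : ∀ p : Fin n → Place K, (∀ i, M.Pr (p i)) →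
      f (fun i => Finsupp.single (p i) 1) = g fun i => Finsupp.single (p i) 1) (a : Fin n → Div K) :
    f (fun i => M.tr (a i)) = g fun i => M.tr (a i) := by
  have : f.compLinearMap (fun _ => trl M) = g.compLinearMap fun _ => trl M := ml_ext fun p => by
    simp only [MultilinearMap.compLinearMap_apply, trl_apply]
    by_cases k : ∀ i, M.Pr (p i)
    · simp only [tr_single (k _)]; exact h p k
    · obtain ⟨i, hi⟩ := not_forall.1 k
      rw [f.map_coord_zero i (tr_single_off hi 1), g.map_coord_zero i (tr_single_off hi 1)]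
  exact DFunLike.congr_fun this a

theorem ext_dv' {f g : MultilinearMap ℝ (fun _ : Fin n => Div K) ℝ}
    (h : ∀ p : Fin n → Place K, (∀ i, M.Pr (p i)) →
      f (fun i => Finsupp.single (p i) 1) = g fun i => Finsupp.single (p i) 1)
    (ha : ∀ i, M.Dv (a i)) : f a = g a := by
  simpa only [tr_of_dv (ha _)] using ext_tr h a

theorem num_tr (a : Fin n → Div K) : num M (fun i => M.tr (a i)) = num M a := by
  have : (num M).compLinearMap (fun _ => trl M) = num M := ml_ext fun p => by
    simp only [MultilinearMap.compLinearMap_apply, trl_apply]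
    by_cases k : ∀ i, M.Pr (p i)
    · simp only [tr_single (k _)]
    · obtain ⟨i, hi⟩ := not_forall.1 k
      rw [(num M).map_coord_zero i (tr_single_off hi 1), num, ml_single, if_neg k]
  exact DFunLike.congr_fun this a

theorem num_congr (h : ∀ i, M.tr (a i) = M.tr (b i)) : num M a = num M b := by
  rw [← num_tr a, ← num_tr b]; simp only [h]

theorem num_perm (h : Pc M) (σ : Equiv.Perm (Fin n)) (a : Fin n → Div K) :
    num M (fun i => a (σ i)) = num M a := by
  have k := ext_tr (M := M) (f := (num M).domDomCongr σ) (g := num M) (fun p hp => ?_) a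
  · rw [MultilinearMap.domDomCongr_apply, num_tr a] at k
    rw [← k, num_tr fun i => a (σ i)]
  · rw [MultilinearMap.domDomCongr_apply, num_single hp,
      num_single (p := fun i => p (σ i)) fun i => hp _,
      h.ok.perm σ (a := fun i => Finsupp.single (p i) 1) fun i => gd_single (hp i)]

end Vale.Agent.P287D.I
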