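import Vale.Agent.P287D.I.Df
import Vale.Agent.P287D.I.Sm

/-!
# P287D: smooth ample divisors are irreducible in dimension at least two
-/

set_option linter.all false

open Set Filter Topology
open Vale.Agent.P297 (Place)
open Vale.Agent.P277Z Vale.Agent.P277Z.FI Vale.Agent.P277Z.F5 Vale.Agent.P277Z.F5.Dg

noncomputable section

namespace Vale.Agent.P287D.I

variable {n N : ℕ} {K : Type} [Field K] [Algebra ℂ K]

theorem Pc.h0_zero_le {M : Mdl n N K} (h : Pc M) : h0 M 0 ≤ 1 := by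
  refine finrank_le_one ⟨1, one_mem_H0 le_rfl⟩ fun ⟨f, hf⟩ => ?_
  have h1 : f ∈ M.O₀ := by
    by_cases f0 : f = 0
    · rw [f0]; exact zero_mem _
    · exact CpH.mem_O₀ h.loc (by simpa using div_add_nonneg h.loc dv_zero hf f0)
  obtain ⟨c, hc⟩ := CpH.const h.coh h.cpt ⟨f, h1⟩
  refine ⟨c, Subtype.ext ?_⟩
  change c • (1 : K) = f
  rw [← Algebra.algebraMap_eq_smul_one]
  exact congrArg Subtype.val hc

theorem Pc.not_amp {M : Mdl (n + 1) N K} (h : Pc M) {G : Div K} (h1 : M.Dv G) (h2 : 0 ≤ G) :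
    ¬ M.Amp (-G) := (((cpA _ N K M h.proj).2 h.cpt).2.2.2.1 n.succ_pos).2 G h1 h2

/-- anti-ample divisors are not effective -/
theorem Pc.not_eff {M : Mdl (n + 1) N K} (h : Pc M) {A : Div K} (h1 : M.Dv A) (h2 : M.Amp A) :
    ¬ Eff M (-A) := fun ⟨G, hG⟩ => h.not_amp (hG.dv (dv_neg h1)) hG.1
  (amp_congr h.loc h.pos h2 (by
    have := neg_mem hG.2
    rwa [show -(G - -A) = -G - A by abel] at this))

theorem Pc.h0_neg {M : Mdl (n + 1) N K} (h : Pc M) {A : Div K} (h1 : M.Dv A) (h2 : M.Amp A) :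
    h0 M (-A) = 0 := by_contra fun e => h.not_eff h1 h2 (eff_of_h0 h.loc (dv_neg h1) e)

theorem h0_bot {M : Mdl n N K} {D : Div K} (h : M.H0 D = ⊥) : h0 M D = 0 := by
  rw [h0, h, Submodule.restrictScalars_bot]; exact finrank_bot ℂ K

theorem Pc.H0_eq {M : Mdl n N K} (h : Pc M) {D E : Div K} (h1 : D ≤ E) (h2 : h0 M E ≤ h0 M D) :
    M.H0 D = M.H0 E := by
  haveI := h.fin E
  exact Submodule.restrictScalars_injective ℂ _ _ (Submodule.eq_of_le_of_finrank_le
    (S₁ := (M.H0 D).restrictScalars ℂ) (S₂ := (M.H0 E).restrictScalars ℂ) (H0_mono h1) h2)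

theorem Pc.h0_lt {M : Mdl n N K} (h : Pc M) {D E : Div K} (h1 : D ≤ E) {P : Place K} {x : M.F}
    (hx : M.On x P) (h2 : D P < E P) (h3 : M.Free E x) : h0 M D < h0 M E := by
  refine lt_of_not_ge fun e => ?_
  obtain ⟨f, f1, f2, f3⟩ := h3
  rw [← h.H0_eq h1 e] at f1
  linarith [f1.resolve_left f2 P ⟨x, hx⟩, f3 P hx]

variable {M : Mdl (n + 2) N K} {Z : Place K}

/-- divisors which do not meet a smooth divisor with ample normal bundle do not move -/
theorem Pc.h0_le_one (h : Pc M) (u : SubM M Z) (hs : M.Snc {Z})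
    (hA : u.S.Amp (u.r (Finsupp.single Z 1))) {L : Div K} (h1 : M.Dv L) (h2 : IsInt L)
    (h3 : u.r L = 0) : h0 M L ≤ 1 := by
  have hz := gd_single (hs.1 Z rfl)
  have hS := h.sub u hs
  have hj : ∀ j : ℕ, L - (j : ℝ) • Finsupp.single Z 1 ∈ Gd M := fun j =>
    sub_mem (show L ∈ Gd M from ⟨h1, h2⟩) ⟨dv_smul hz.1 _, IsInt.nsmul hz.2 j⟩
  have st : ∀ j : ℕ, h0 M (L - (j : ℝ) • Finsupp.single Z 1) ≤
      h0 M (L - ((j + 1 : ℕ) : ℝ) • Finsupp.single Z 1) +
        h0 u.S (-((j : ℝ) • u.r (Finsupp.single Z 1))) := fun j => by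
    have k := (h.exs u hs).2.1 _ (hj (j + 1)).1 (hj (j + 1)).2
    have e : L - ((j + 1 : ℕ) : ℝ) • Finsupp.single Z 1 + Finsupp.single Z 1 =
        L - (j : ℝ) • Finsupp.single Z (1 : ℝ) := by
      push_cast; module
    rwa [e, map_sub, h3, map_smul, zero_sub] at k
  have eq : ∀ j : ℕ, M.H0 (L - ((j + 1 : ℕ) : ℝ) • Finsupp.single Z 1) =
      M.H0 (L - ((0 + 1 : ℕ) : ℝ) • Finsupp.single Z 1) := fun j => by
    induction j with
    | zero => rfl
    | succ j ih =>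
      refine (h.H0_eq (sub_le_sub_left (smul_le_smul_of_nonneg_right (by push_cast; linarith)
        (Finsupp.single_nonneg.2 zero_le_one)) _) ?_).trans ih
      have k := st (j + 1)
      rwa [hS.h0_neg (dv_smul (dv_r u _) _) (hS.pos.smul _ _ (by positivity) hA), add_zero] at k
  have b : M.H0 (L - ((0 + 1 : ℕ) : ℝ) • Finsupp.single Z 1) = ⊥ := by
    refine (Submodule.eq_bot_iff _).2 fun f hf => by_contra fun f0 => ?_
    obtain ⟨j, hj⟩ := exists_nat_gt ((Z.ord f : ℝ) + L Z)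
    rw [← eq j] at hf
    have k := hf.resolve_left f0 Z (hs.1 Z rfl)
    simp only [Finsupp.sub_apply, Finsupp.smul_apply, Finsupp.single_eq_same, smul_eq_mul] at k
    push_cast at k
    linarith
  have k := st 0
  rw [h0_bot b, Nat.cast_zero, zero_smul, zero_smul, sub_zero, neg_zero, zero_add] at k
  exact k.trans hS.h0_zero_le

/-- a polarisation is not the sum of two disjoint effective divisors -/
theorem Pc.not_split (h : Pc M) (u : SubM M Z) (hs : M.Snc {Z}) {Y : Div K} (h1 : M.Dv Y)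
    (h2 : IsInt Y) (h3 : u.r Y = 0) (h4 : 0 ≤ Y) (hp : Pol M (Y + Finsupp.single Z 1)) : Y = 0 := by
  by_contra h5
  obtain ⟨P, hP⟩ := Finsupp.support_nonempty_iff.2 h5
  obtain ⟨x, hx⟩ := h1 P hP
  have h6 : 0 < Y P := lt_of_le_of_ne (h4 P) (Finsupp.mem_support_iff.1 hP).symm
  have hz := gd_single (hs.1 Z rfl)
  have hA : u.S.Amp (u.r (Finsupp.single Z 1)) := by
    have := h.r_amp u hs hp.amp
    rwa [map_add, h3, zero_add] at this
  let L : ℕ → ℕ → Div K := fun a b => (a : ℝ) • Y + (b : ℝ) • Finsupp.single Z 1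
  let β : ℕ → ℕ := fun b => h0 u.S (((b + 1 : ℕ) : ℝ) • u.r (Finsupp.single Z 1))
  have hL : ∀ a b, L a b ∈ Gd M := fun a b =>
    add_mem ⟨dv_smul h1 _, IsInt.nsmul h2 a⟩ ⟨dv_smul hz.1 _, IsInt.nsmul hz.2 b⟩
  have e1 : ∀ a b, L a b + Finsupp.single Z 1 = L a (b + 1) := fun a b => by
    simp only [L]; push_cast; module
  have e2 : ∀ a b, u.r (L a b) = (b : ℝ) • u.r (Finsupp.single Z 1) := fun a b => by
    simp only [L]; rw [map_add, map_smul, map_smul, h3, smul_zero, zero_add]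
  have e3 : ∀ a, L a a = (a : ℝ) • (Y + Finsupp.single Z 1) := fun a => (smul_add _ _ _).symm
  have up : ∀ a b, h0 M (L a b) ≤ 1 + ∑ k ∈ Finset.range b, β k := fun a b => by
    induction b with
    | zero => simpa using h.h0_le_one u hs hA (hL a 0).1 (hL a 0).2 (by rw [e2]; simp)
    | succ b ih =>
      have k := (h.exs u hs).2.1 _ (hL a b).1 (hL a b).2
      rw [e1, e2] at k
      rw [Finset.sum_range_succ]
      change _ ≤ _ + β b at k
      omega
  obtain ⟨κ, hκ⟩ := h.can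
  obtain ⟨k₀, hk⟩ := eventually_atTop.1 (Dg.amp_ev h.pos hp.amp (-κ))
  have lo : ∀ k, k₀ ≤ k → h0 M (L k k) + β k < h0 M (L (k + 1) (k + 1)) := fun k e => by
    have k1 := ((h.exs u hs).2.2.2.2.2.2 κ ∅ 0 (notMem_empty _)
      ⟨hκ, finite_empty.insert _, by simpa using hs⟩ (bd1_zero _)).2 _ (hL k k).1 (hL k k).2
      (by rw [e3, sub_zero, sub_eq_add_neg]; exact hk k e)
    rw [e1, e2] at k1
    refine k1.ge.trans_lt (h.h0_lt (P := P) ?_ hx ?_ (e3 _ ▸ free_nsmul (hp.free x) _))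
    · exact add_le_add_left (smul_le_smul_of_nonneg_right (by push_cast; linarith) h4) _
    · simp only [L, Finsupp.add_apply, Finsupp.smul_apply, smul_eq_mul]
      push_cast
      linarith
  have key : ∀ j, j + ∑ k ∈ Finset.range (k₀ + j), β k ≤
      h0 M (L (k₀ + j) (k₀ + j)) + ∑ k ∈ Finset.range k₀, β k := fun j => by
    induction j with
    | zero => simp
    | succ j ih =>
      have := lo (k₀ + j) (by omega)
      rw [← add_assoc, Finset.sum_range_succ]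
      omega
  have k1 := key (2 + ∑ k ∈ Finset.range k₀, β k)
  have k2 := up (k₀ + (2 + ∑ k ∈ Finset.range k₀, β k)) (k₀ + (2 + ∑ k ∈ Finset.range k₀, β k))
  omega

theorem sum_erase {Y : Finset (Place K)} [DecidableEq (Place K)] (hZ : Z ∈ Y) :
    ∑ P ∈ Y, Finsupp.single P (1 : ℝ) = Cn.rd (Y.erase Z) + Finsupp.single Z 1 :=
  (Finset.sum_erase_add _ _ hZ).symm

theorem r_erase {M : Mdl (n + 1) N K} (u : SubM M Z) {Y : Finset (Place K)} [DecidableEq (Place K)]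
    (hZ : Z ∈ Y) (hd : Dj M Y) : u.r (Cn.rd (Y.erase Z)) = 0 :=
  r_off u (by rw [Cn.rd_apply, if_neg (Finset.notMem_erase _ _)]) fun x hx Q hQ => by
    rw [Cn.rd_apply, if_neg fun e => Finset.ne_of_mem_erase e
      (hd x Q (Finset.mem_of_mem_erase e) Z hZ hQ hx)]

theorem erase_empty {Y : Finset (Place K)} [DecidableEq (Place K)] (hZ : Z ∈ Y)
    (h : Cn.rd (Y.erase Z) = 0) : Y = {Z} :=
  Finset.eq_singleton_iff_unique_mem.2 ⟨hZ, fun P hP => by_contra fun e => by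
    have k := DFunLike.congr_fun h P
    rw [Cn.rd_apply, if_pos (Finset.mem_erase.2 ⟨e, hP⟩)] at k
    exact one_ne_zero k⟩

/-- smooth ample divisors are irreducible -/
theorem Pc.irr_pol (h : Pc M) {Y : Finset (Place K)} (hs : M.Snc (Y : Set (Place K))) (hd : Dj M Y)
    (hp : Pol M (∑ P ∈ Y, Finsupp.single P 1)) : ∃ Z, Y = {Z} := by
  classical
  rcases Y.eq_empty_or_nonempty with rfl | ⟨Z, hZ⟩
  · exact absurd (by simpa using hp.amp) (h.not_amp dv_zero le_rfl)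
  have h1 : M.Snc {Z} := snc_mono hs (by simpa using hZ)
  obtain ⟨u⟩ := h.ex_sub h1
  exact ⟨Z, erase_empty hZ (h.not_split u h1
    (Py.dv_sm fun P hP => hs.1 P (Finset.mem_of_mem_erase hP)) (Py.int_sm _) (r_erase u hZ hd)
    (Cn.rd_nonneg _) (sum_erase hZ ▸ hp))⟩

theorem free_div {M : Mdl n N K} (hL : Loc M) {D : Div K} {x : M.F} (h : M.Free D x) {f : K}
    (hf : f ≠ 0) : M.Free (M.div f + D) x := by
  obtain ⟨g, g1, g2, g3⟩ := h
  refine ⟨g * f⁻¹, ?_, mul_ne_zero g2 (inv_ne_zero hf), fun P hP => ?_⟩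
  · simpa [div_inv hL, add_comm] using mul_mem_sub hL g1 (inv_ne_zero hf)
  · rw [P297Z.Pl.ord_mul P g2 (inv_ne_zero hf), P297Z.Pl.ord_inv, Finsupp.add_apply,
      div_apply hL f ⟨x, hP⟩]
    push_cast
    linarith [g3 P hP]

theorem Pc.pol_div {M : Mdl n N K} (h : Pc M) {H : Div K} (hH : Pol M H) {f : K} (hf : f ≠ 0) :
    Pol M (M.div f + H) :=
  ⟨dv_add (dv_div f) hH.dv, IsInt.add (int_div h.loc f) hH.int,
    add_comm H _ ▸ h.pos.div H f hf hH.amp, fun x => free_div h.loc (hH.free x) hf⟩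

/-- **a smooth irreducible member of a polarisation**, also on a modification -/
theorem Pc.bt_irr (h : Pc M) {M' : Mdl (n + 2) N K} (m : Mod M' M) {T T' T₁ : Set (Place K)}
    {H : Div K} (hM' : M'.Proj) (hT : T.Finite) (sT : M.Snc T) (hT' : T'.Finite) (sT' : M'.Snc T')
    (hE : Exc M' M ⊆ T') (hT₁ : T₁.Finite) (hH : Pol M H) :
    ∃ (f : K) (P : Place K), f ≠ 0 ∧ M.div f + H = Finsupp.single P 1 ∧
      M'.div f + M.pull M' H = Finsupp.single P 1 ∧ P ∉ T ∧ P ∉ T₁ ∧ M.Snc (insert P T) ∧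
      P ∉ T' ∧ M'.Snc (insert P T') := by
  obtain ⟨f, Y, h1, h2, h3, h4, h5, h6, h7, h8, h9⟩ := bt_sm h.proj m hM' hT sT hT' sT' hE hT₁
    hH.dv hH.int hH.free
  obtain ⟨P, rfl⟩ := h.irr_pol (snc_mono h6 subset_union_right) h9 (h2 ▸ h.pol_div hH h1)
  exact ⟨f, P, h1, by simpa using h2, by simpa using h3, by simpa using h4, by simpa using h5,
    by simpa using h6, by simpa using h7, by simpa using h8⟩

/-- **a smooth irreducible member of a polarisation** -/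
theorem Pc.cut_irr (h : Pc M) {T T₁ : Set (Place K)} {H : Div K} (hT : T.Finite) (sT : M.Snc T)
    (hT₁ : T₁.Finite) (hH : Pol M H) : ∃ (f : K) (P : Place K), f ≠ 0 ∧
      M.div f + H = Finsupp.single P 1 ∧ P ∉ T ∧ P ∉ T₁ ∧ M.Snc (insert P T) := by
  obtain ⟨f, P, h1, h2, -, h3, h4, h5, -⟩ := h.bt_irr (Mod.refl M) h.proj hT sT hT sT
    (fun _ h => (h.2 h.1).elim) hT₁ hH
  exact ⟨f, P, h1, h2, h3, h4, h5⟩

end Vale.Agent.P287D.I
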