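import Vale.Agent.P287D.I.Rr
import Vale.Agent.P287D.I.Prj
import Vale.Agent.P287D.I.Irr

/-!
# P287D: the Hodge index theorem on surfaces
-/

set_option linter.all false

open Set Filter Topology
open Vale.Agent.P297 (Place)
open Vale.Agent.P277Z Vale.Agent.P277Z.FI Vale.Agent.P277Z.F5 Vale.Agent.P277Z.F5.Dg

noncomputable section

namespace Vale.Agent.P287D.I

variable {n N : ℕ} {K : Type} [Field K] [Algebra ℂ K]

/-- the intersection number as a bilinear form in the first two arguments -/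
def q2 (M : Mdl (n + 2) N K) (a : Fin n → Div K) : Div K →ₗ[ℝ] Div K →ₗ[ℝ] ℝ :=
  LinearMap.mk₂ ℝ (fun D E => num M (Fin.cons D (Fin.cons E a))) (fun _ _ _ => cons_add _ _)
    (fun _ _ _ => cons_smul _ _) (fun D E E' => ((num M).curryLeft D).cons_add a E E')
    fun c D E => ((num M).curryLeft D).cons_smul a c E

theorem q2_apply (M : Mdl (n + 2) N K) (a : Fin n → Div K) (D E : Div K) :
    q2 M a D E = num M (Fin.cons D (Fin.cons E a)) := rfl

/-- the intersection form of a surface -/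
abbrev i2 (M : Mdl 2 N K) : Div K →ₗ[ℝ] Div K →ₗ[ℝ] ℝ := q2 M ![]

theorem i2_apply (M : Mdl 2 N K) (D E : Div K) : i2 M D E = num M ![D, E] := rfl

/-- the degree on a curve -/
abbrev i1 (M : Mdl 1 N K) : Div K →ₗ[ℝ] ℝ := nc M ![]

theorem i1_apply (M : Mdl 1 N K) (D : Div K) : i1 M D = num M ![D] := rfl

theorem Pc.q2_comm {M : Mdl (n + 2) N K} (h : Pc M) (a : Fin n → Div K) (D E : Div K) :
    q2 M a D E = q2 M a E D := cons_swap h D E a

theorem Pc.q2_eqv {M : Mdl (n + 2) N K} (h : Pc M) (a : Fin n → Div K) {D D' : Div K}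
    (e : D' - D ∈ PrR M) (E : Div K) : q2 M a D' E = q2 M a D E := cons_eqv h e _

theorem Pc.q2_eqv' {M : Mdl (n + 2) N K} (h : Pc M) (a : Fin n → Div K) (D : Div K) {E E' : Div K}
    (e : E' - E ∈ PrR M) : q2 M a D E' = q2 M a D E := by
  rw [h.q2_comm, h.q2_eqv a e, h.q2_comm]

theorem vol_two (M : Mdl 2 N K) (D : Div K) : vol M D = i2 M D D := by
  rw [vol, i2_apply]
  congr 1
  funext i
  fin_cases i <;> rfl

theorem deg_two {M : Mdl 2 N K} (h : Pc M) {H : Div K} (hH : H ∈ Gd M) (D : Div K) :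
    deg M H D = i2 M D H := by
  rw [deg_eq_num h hH, i2_apply]
  congr 1
  funext i
  fin_cases i <;> rfl

theorem Pc.i2_res {M : Mdl 2 N K} (h : Pc M) {P : Place K} (u : SubM M P) (hs : M.Snc {P})
    {D : Div K} (hD : M.Dv D) : i2 M (Finsupp.single P 1) D = i1 u.S (u.r D) := by
  rw [q2_apply, num_res h u hs (dv_cons hD fun i => i.elim0), r_cons, nc_apply]
  congr 2
  exact Subsingleton.elim _ _

section one

variable {M : Mdl 2 N K} {D E : Div K}

theorem Pc.i2_psef (h : Pc M) (hD : Psef M D) (h1 : M.Dv E) (h2 : M.Nef E) : 0 ≤ i2 M D E :=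
  num_psef h hD (Fin.cases ⟨h1, h2⟩ fun i => i.elim0)

theorem Pc.i2_eff (h : Pc M) (hD : Eff M D) (h1 : M.Dv E) (h2 : M.Nef E) : 0 ≤ i2 M D E :=
  num_Eff h hD (Fin.cases ⟨h1, h2⟩ fun i => i.elim0)

theorem Pc.i2_amp (h : Pc M) (h1 : M.Dv D) (h2 : M.Amp D) (h3 : M.Dv E) (h4 : M.Amp E) :
    0 < i2 M D E := num_amp h (Fin.cases ⟨h1, h2⟩ (Fin.cases ⟨h3, h4⟩ fun i => i.elim0))

end one

/-! ### curves -/

section curve

variable {M : Mdl 1 N K}

theorem Pc.i1_single (h : Pc M) {P : Place K} (hP : M.Pr P) : i1 M (Finsupp.single P 1) = 1 :=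
  num_one h hP _

theorem Pc.snc_one (h : Pc M) {T : Set (Place K)} (hT : ∀ P ∈ T, M.Pr P) : M.Snc T :=
  ((cpA 1 N K M h.proj).2 h.cpt).2.2.2.2 rfl T hT

theorem Pc.h0_step (h : Pc M) {P : Place K} (hP : M.Pr P) {L : Div K} (hL : L ∈ Gd M) :
    h0 M (L + Finsupp.single P 1) ≤ h0 M L + 1 := by
  have hs : M.Snc {P} := h.snc_one (by rintro _ rfl; exact hP)
  obtain ⟨u⟩ := h.ex_sub hs
  have k := (h.exs u hs).2.1 L hL.1 hL.2
  rwa [((cpA 0 N _ u.S u.proj).2 (h.sub u hs).cpt).2.2.1 rfl] at k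

theorem Pc.h0_le_nat (h : Pc M) (k : ℕ) {L : Div K} (hL : L ∈ Gd M) (h1 : i1 M L < k) :
    h0 M L ≤ k := by
  obtain ⟨P, hP⟩ := (((cpA 1 N K M h.proj).2 h.cpt).2.2.2.1 one_pos).1
  induction k generalizing L with
  | zero =>
    refine le_of_eq (by_contra fun e => ?_)
    have k : 0 ≤ i1 M L := num_Eff h (eff_of_h0 h.loc hL.1 e) fun i => i.elim0
    rw [Nat.cast_zero] at h1
    linarith
  | succ k ih =>
    have h2 := sub_mem hL (gd_single hP)
    have h3 := h.h0_step hP h2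
    rw [sub_add_cancel] at h3
    refine h3.trans (Nat.succ_le_succ (ih h2 ?_))
    rw [map_sub, h.i1_single hP]
    push_cast at h1
    linarith

/-- the bound for the number of sections on a curve -/
theorem Pc.h0_le_deg (h : Pc M) {L : Div K} (hL : L ∈ Gd M) (h1 : -1 ≤ i1 M L) :
    (h0 M L : ℝ) ≤ i1 M L + 1 := by
  obtain ⟨z, hz⟩ := num_isInt h (a := ![L]) (Fin.cases hL.2 fun i => i.elim0)
  rw [i1_apply, hz] at h1 ⊢
  obtain ⟨k, hk⟩ := Int.eq_ofNat_of_zero_le (a := z + 1) (by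
    have : (-1 : ℤ) ≤ z := by exact_mod_cast h1
    omega)
  have e : (z : ℝ) + 1 = k := by exact_mod_cast hk
  rw [e]
  exact_mod_cast h.h0_le_nat k hL (by rw [i1_apply, hz]; linarith)

end curve

/-! ### surfaces -/

theorem ev_quad {x : ℕ → ℤ} {c : ℤ} (h : ∀ᶠ m in atTop, x (m + 2) - 2 * x (m + 1) + x m = c) :
    ∃ b e : ℝ, ∀ᶠ m : ℕ in atTop, (x m : ℝ) = c / 2 * m ^ 2 + b * m + e := by
  obtain ⟨d, hd⟩ := Mu.ev_const (f := fun m => x (m + 1) - x m - c * m)
    (h.mono fun m hm => by push_cast; linarith)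
  obtain ⟨e, he⟩ := Mu.ev_const (f := fun m => 2 * x m - c * m * (m - 1) - 2 * d * m)
    (hd.mono fun m hm => by push_cast; linarith)
  refine ⟨d - c / 2, e / 2, he.mono fun m hm => ?_⟩
  have k : 2 * (x m : ℝ) - c * m * (m - 1) - 2 * d * m = e := by exact_mod_cast hm
  linarith

theorem ev_pos {a : ℝ} (h : 0 < a) (b c : ℝ) : ∀ᶠ m : ℕ in atTop, 0 < a * m ^ 2 + b * m + c := by
  filter_upwards [tendsto_natCast_atTop_atTop.eventually_ge_atTop ((|b| + |c| + 1) / a),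
    tendsto_natCast_atTop_atTop.eventually_ge_atTop (1 : ℝ)] with m h1 h2
  rw [div_le_iff₀ h] at h1
  nlinarith [neg_abs_le b, neg_abs_le c, abs_nonneg b, abs_nonneg c,
    mul_le_mul_of_nonneg_left h1 (zero_le_one.trans h2),
    mul_le_mul_of_nonneg_left h2 (abs_nonneg c),
    mul_le_mul_of_nonneg_left (neg_abs_le b) (zero_le_one.trans h2)]

variable {M : Mdl 2 N K} {A D E H : Div K}

/-- the number of sections of the multiples of an ample divisor -/
theorem Pc.h0_quad (h : Pc M) (hA : A ∈ Gd M) (h1 : M.Amp A) (hE : E ∈ Gd M) :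
    ∃ b e : ℝ, ∀ᶠ m : ℕ in atTop,
      (h0 M ((m : ℝ) • A + E) : ℝ) = i2 M A A / 2 * m ^ 2 + b * m + e := by
  have ha : ∀ i, (![A, A] : Fin 2 → Div K) i ∈ Gd M := gd_cons hA (gd_cons hA fun i => i.elim0)
  rw [i2_apply, num_int h ha]
  refine ev_quad (x := fun m => hz M ((m : ℝ) • A + E)) ((h.ok.ev ha hA h1 hE).mono fun m hm => ?_)
  have e0 : ∀ L, df (![] : Fin 0 → Div K) (hz M) L = hz M L := fun L => by
    simp [df, Finset.sum_of_isEmpty, Finset.eq_empty_of_isEmpty]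
  have e1 : (m : ℝ) • A + E + A = ((m + 1 : ℕ) : ℝ) • A + E := by push_cast; module
  have e2 : ((m + 1 : ℕ) : ℝ) • A + E + A = ((m + 2 : ℕ) : ℝ) • A + E := by push_cast; module
  rw [← hm, show (![A, A] : Fin 2 → Div K) = Fin.cons A (Fin.cons A ![]) from rfl, df_cons, df_cons,
    df_cons, e0, e0, e0, e1, e2]
  ring

/-- removing a smooth curve -/
theorem Pc.h0_rem (h : Pc M) {P : Place K} (hs : M.Snc {P}) {L : Div K} (hL : L ∈ Gd M)
    (h1 : -1 ≤ i2 M (Finsupp.single P 1) L) :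
    (h0 M L : ℝ) ≤ h0 M (L - Finsupp.single P 1) + i2 M (Finsupp.single P 1) L + 1 := by
  obtain ⟨u⟩ := h.ex_sub hs
  have h2 := sub_mem hL (gd_single (hs.1 P rfl))
  have k := (h.exs u hs).2.1 _ h2.1 h2.2
  rw [sub_add_cancel] at k
  rw [h.i2_res u hs hL.1] at h1 ⊢
  have k1 := (h.sub u hs).h0_le_deg (gd_r h.loc u hL.2) h1
  have k2 : (h0 M L : ℝ) ≤ h0 M (L - Finsupp.single P 1) + h0 u.S (u.r L) := by exact_mod_cast k
  linarith

theorem Pc.big_int (h : Pc M) (hD : D ∈ Gd M) (hH : Pol M H) (h1 : 0 < i2 M D D)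
    (h2 : 0 ≤ i2 M D H) : Big M D := by
  obtain ⟨k, k1, k2⟩ := ((Dg.amp_ev h.pos hH.amp D).and (eventually_gt_atTop 0)).exists
  have hk := hH.nsmul h.pos k2
  obtain ⟨f, P, f0, e, -, -, hs⟩ := h.cut_irr finite_empty (snc_empty h.loc) finite_empty hk
  rw [insert_empty_eq] at hs
  have hY := gd_single (hs.1 P rfl)
  have hp : Pol M (Finsupp.single P 1) := e ▸ h.pol_div hk f0
  have e1 : Finsupp.single P 1 - (k : ℝ) • H ∈ PrR M := by
    rw [← e, add_sub_cancel_right]; exact div_mem_prR f0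
  have a1 : 0 ≤ i2 M (Finsupp.single P 1) D := by
    rw [h.q2_eqv _ e1, map_smul, LinearMap.smul_apply, h.q2_comm]
    exact mul_nonneg (Nat.cast_nonneg k) h2
  have a2 := h.i2_amp hp.dv hp.amp hp.dv hp.amp
  have a3 : M.Amp (D + Finsupp.single P 1) := amp_congr h.loc h.pos k1 (by
    rwa [show D + Finsupp.single P 1 - ((k : ℝ) • H + D) = Finsupp.single P 1 - (k : ℝ) • H by abel])
  have st := fun L (hL : L ∈ Gd M) => h.h0_rem hs hL
  have cm := h.q2_comm ![] D (Finsupp.single P 1)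
  generalize Finsupp.single P (1 : ℝ) = Y at hY hp a1 a2 a3 st cm
  have hA := add_mem hD hY
  have hg : ∀ m j : ℕ, (m : ℝ) • (D + Y) + 0 - (j : ℝ) • Y ∈ Gd M := fun m j =>
    sub_mem (add_mem ⟨dv_smul hA.1 _, IsInt.nsmul hA.2 m⟩ (zero_mem _))
      ⟨dv_smul hY.1 _, IsInt.nsmul hY.2 j⟩
  have key : ∀ m j : ℕ, j ≤ m + 1 → (h0 M ((m : ℝ) • (D + Y) + 0) : ℝ) ≤
      h0 M ((m : ℝ) • (D + Y) + 0 - (j : ℝ) • Y) + j * (m * (i2 M Y D + i2 M Y Y) + 1) -
        i2 M Y Y * (j * (j - 1) / 2) := fun m j hj => by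
    induction j with
    | zero => simp
    | succ j ih =>
      have b1 : i2 M Y ((m : ℝ) • (D + Y) + 0 - (j : ℝ) • Y) =
          m * (i2 M Y D + i2 M Y Y) - j * i2 M Y Y := by
        simp only [map_sub, map_add, map_smul, map_zero, smul_eq_mul, add_zero]
      have b2 : (j : ℝ) ≤ m := by exact_mod_cast (by omega : j ≤ m)
      have b3 := st _ (hg m j) (by
        rw [b1]
        nlinarith [mul_nonneg (Nat.cast_nonneg (α := ℝ) m) a1, mul_nonneg (sub_nonneg.2 b2) a2.le])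
      have b4 : (m : ℝ) • (D + Y) + 0 - (j : ℝ) • Y - Y =
          (m : ℝ) • (D + Y) + 0 - ((j + 1 : ℕ) : ℝ) • Y := by push_cast; module
      rw [b1, b4] at b3
      have b5 := ih (by omega)
      push_cast at b3 ⊢
      linarith
  obtain ⟨b, c, hq⟩ := h.h0_quad hA a3 (zero_mem _)
  obtain ⟨m, m1, m2, m3⟩ := (hq.and ((ev_pos (half_pos h1)
    (b - (i2 M Y D + i2 M Y Y) - 1 + i2 M Y Y / 2) (c - 1)).and (eventually_gt_atTop 0))).exists
  have m4 := key m (m + 1) le_rfl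
  have m5 : i2 M (D + Y) (D + Y) = i2 M D D + 2 * i2 M Y D + i2 M Y Y := by
    simp only [map_add, LinearMap.add_apply]
    linarith
  have m6 : h0 M ((m : ℝ) • (D + Y) + 0 - ((m + 1 : ℕ) : ℝ) • Y) ≠ 0 := fun e0 => by
    rw [e0, m1, m5] at m4
    push_cast at m4
    linarith
  refine Big.of_smul h.pos (Nat.cast_pos.2 m3) ⟨Y, hp.dv, hp.amp, ?_⟩
  have m7 := eff_of_h0 h.loc (hg m (m + 1)).1 m6
  rwa [show (m : ℝ) • (D + Y) + 0 - ((m + 1 : ℕ) : ℝ) • Y = (m : ℝ) • D - Y by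
    push_cast; module] at m7

/-- rational approximation from below -/
def ap (D : Div K) (m : ℕ) : Div K := ((m : ℝ) + 1)⁻¹ • fl (((m : ℝ) + 1) • D)

theorem ap_supp (D : Div K) (m : ℕ) : (ap D m).support ⊆ D.support :=
  Finsupp.support_smul.trans (Finsupp.support_mapRange.trans Finsupp.support_smul)

theorem ap_le (D : Div K) (m : ℕ) : ap D m ≤ D := by
  have := smul_le_smul_of_nonneg_left (fl_le (((m : ℝ) + 1) • D))
    (inv_nonneg.2 (by positivity : (0 : ℝ) ≤ (m : ℝ) + 1))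
  rwa [inv_smul_smul₀ (by positivity)] at this

theorem ap_abs (D : Div K) (m : ℕ) (P : Place K) : |ap D m P - D P| ≤ 1 / ((m : ℝ) + 1) := by
  have h0 : (0 : ℝ) < (m : ℝ) + 1 := by positivity
  have h1 : ap D m P = ((m : ℝ) + 1)⁻¹ * ⌊((m : ℝ) + 1) * D P⌋ := rfl
  have h2 := ap_le D m P
  have h3 := Int.lt_floor_add_one (((m : ℝ) + 1) * D P)
  rw [abs_sub_comm, abs_of_nonneg (sub_nonneg.2 h2), h1, le_div_iff₀ h0, sub_mul, mul_comm _⁻¹,
    inv_mul_cancel_right₀ h0.ne']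
  linarith

theorem ap_tendsto (D : Div K) (P : Place K) : Tendsto (fun m => ap D m P) atTop (𝓝 (D P)) :=
  tendsto_iff_norm_sub_tendsto_zero.2 (squeeze_zero (fun _ => norm_nonneg _) (fun m => ap_abs D m P)
    tendsto_one_div_add_atTop_nhds_zero_nat)

theorem lin_ap {V : Type} [NormedAddCommGroup V] [NormedSpace ℝ V] (φ : Div K →ₗ[ℝ] V) (D : Div K) :
    Tendsto (fun m => φ (ap D m)) atTop (𝓝 (φ D)) := by
  have e : ∀ E : Div K, E.support ⊆ D.support →
      φ E = ∑ P ∈ D.support, E P • φ (Finsupp.single P 1) := fun E hE => by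
    conv_lhs => rw [eq_sum_single (Finset.coe_subset.2 hE), map_sum]
    simp only [map_smul]
  rw [e D subset_rfl]
  simp only [e _ (ap_supp D _)]
  exact tendsto_finset_sum _ fun P _ => (ap_tendsto D P).smul_const _

theorem bil_ap (φ : Div K →ₗ[ℝ] Div K →ₗ[ℝ] ℝ) (D : Div K) :
    Tendsto (fun m => φ (ap D m) (ap D m)) atTop (𝓝 (φ D D)) := by
  have e : ∀ E : Div K, E.support ⊆ D.support →
      φ E E = ∑ P ∈ D.support, E P • φ.flip (Finsupp.single P 1) E := fun E hE => by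
    conv_lhs => rw [show φ E E = φ E (∑ P ∈ D.support, E P • Finsupp.single P 1) from
      congrArg _ (eq_sum_single (Finset.coe_subset.2 hE)), map_sum]
    simp only [map_smul, LinearMap.flip_apply]
  rw [e D subset_rfl]
  simp only [e _ (ap_supp D _)]
  exact tendsto_finset_sum _ fun P _ => (ap_tendsto D P).smul (lin_ap _ D)

theorem Pc.big_pol (h : Pc M) (hD : M.Dv D) (hH : Pol M H) (h1 : 0 < i2 M D D)
    (h2 : 0 < i2 M D H) : Big M D := by
  obtain ⟨m, m1, m2⟩ := (((bil_ap (i2 M) D).eventually (lt_mem_nhds h1)).and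
    ((lin_ap ((i2 M).flip H) D).eventually (lt_mem_nhds h2))).exists
  have h0 : (0 : ℝ) < ((m : ℝ) + 1)⁻¹ := by positivity
  simp only [ap, map_smul, LinearMap.smul_apply, smul_eq_mul, LinearMap.flip_apply] at m1 m2
  exact (Big.smul h.pos (h.big_int (fl_gd (dv_smul hD _)) hH
    (pos_of_mul_pos_right (pos_of_mul_pos_right m1 h0.le) h0.le)
    (pos_of_mul_pos_right m2 h0.le).le) h0).mono (ap_le D m)

theorem q2_tr {M : Mdl (n + 2) N K} (a : Fin n → Div K) (D E : Div K) :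
    q2 M a (M.tr D) E = q2 M a D E := cons_tr D

theorem q2_tr' {M : Mdl (n + 2) N K} (a : Fin n → Div K) (D E : Div K) :
    q2 M a D (M.tr E) = q2 M a D E :=
  num_congr (Fin.cases rfl (Fin.cases (tr_of_dv (dv_tr E)) fun _ => rfl))

theorem Pc.q2_zero {M : Mdl (n + 2) N K} (h : Pc M) {a : Fin n → Div K} {D : Div K}
    (e : ∀ H, Pol M H → q2 M a D H = 0) (E : Div K) : q2 M a D E = 0 :=
  (q2_tr' a D E).symm.trans (Pj.ext_lin h (ψ := 0) e (dv_tr E))

theorem Pc.psef_of_big {M : Mdl n N K} (h : Pc M) {D H : Div K} (hH : M.Dv H)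
    (e : ∀ ε : ℝ, 0 < ε → Big M (D + ε • H)) : Psef M D := fun A h1 h2 => by
  obtain ⟨ε, k1, k2⟩ := (((F5.amp_ev h.pos h2 (-H)).filter_mono nhdsWithin_le_nhds).and
    (self_mem_nhdsWithin (s := Ioi 0))).exists
  have k := ((e ε k2).add_eff ((Big.of_amp (dv_add h1 (dv_smul (dv_neg hH) ε)) k1).eff h.loc
    h.pos)).eff h.loc h.pos
  rwa [show D + ε • H + (A + ε • -H) = D + A by module] at k

/-- the closure of the positive cone is pseudo-effective -/
theorem Pc.psef_pol (h : Pc M) (hD : M.Dv D) (hH : Pol M H) (h1 : 0 ≤ i2 M D D)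
    (h2 : 0 ≤ i2 M D H) : Psef M D := h.psef_of_big hH.dv fun ε hε => by
  have a := h.i2_amp hH.dv hH.amp hH.dv hH.amp
  have c := h.q2_comm ![] H D
  refine h.big_pol (dv_add hD (dv_smul hH.dv ε)) hH ?_ ?_
  · simp only [map_add, map_smul, LinearMap.add_apply, LinearMap.smul_apply, smul_eq_mul]
    nlinarith [mul_nonneg hε.le h2, mul_pos hε (mul_pos hε a)]
  · simp only [map_add, map_smul, LinearMap.add_apply, LinearMap.smul_apply, smul_eq_mul]
    linarith [mul_pos hε a]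

theorem Pc.null_pol (h : Pc M) (hH : Pol M H) (h1 : 0 ≤ i2 M D D) (h2 : i2 M D H = 0) (E : Div K) :
    i2 M D E = 0 := by
  rw [← q2_tr, ← q2_tr'] at h1
  rw [← q2_tr] at h2 ⊢
  have a := h.psef_pol (dv_tr D) hH h1 h2.ge
  have b := h.psef_pol (dv_neg (dv_tr D)) hH (by simpa using h1) (by simp [h2])
  refine h.q2_zero (fun A hA => le_antisymm ?_ (h.i2_psef a hA.dv (pol_nef h.pos hA))) E
  simpa using h.i2_psef b hA.dv (pol_nef h.pos hA)

theorem Pc.hodge_pol (h : Pc M) (hH : Pol M H) (h2 : i2 M D H = 0) : i2 M D D ≤ 0 :=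
  le_of_not_gt fun e => e.ne' (h.null_pol hH e.le h2 D)

/-! ### forms with one positive direction -/

/-- the reverse inequality of Cauchy and Schwarz -/
structure Lor {V : Type} [AddCommGroup V] [Module ℝ V] (φ : V →ₗ[ℝ] V →ₗ[ℝ] ℝ) : Prop where
  comm : ∀ x y, φ x y = φ y x
  le : ∀ x y, 0 < φ x x → φ x x * φ y y ≤ φ x y ^ 2

namespace Lor

variable {V : Type} [AddCommGroup V] [Module ℝ V] {φ : V →ₗ[ℝ] V →ₗ[ℝ] ℝ} {x y z : V}

theorem of (comm : ∀ x y, φ x y = φ y x) (h : ∀ v, φ v z = 0 → φ v v ≤ 0) : Lor φ := by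
  refine ⟨comm, fun x y hx => ?_⟩
  have h1 : φ x z ≠ 0 := fun e => hx.not_ge (h x e)
  have h2 := h ((φ y z / φ x z) • x - y) (by
    simp only [map_sub, map_smul, LinearMap.sub_apply, LinearMap.smul_apply, smul_eq_mul]
    rw [div_mul_cancel₀ _ h1, sub_self])
  simp only [map_sub, map_smul, LinearMap.sub_apply, LinearMap.smul_apply, smul_eq_mul] at h2
  rw [comm y x] at h2
  nlinarith [mul_le_mul_of_nonneg_left h2 hx.le, sq_nonneg (φ y z / φ x z * φ x x - φ x y)]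

theorem le' (h : Lor φ) (hx : 0 ≤ φ x x) (y : V) : φ x x * φ y y ≤ φ x y ^ 2 := by
  rcases hx.eq_or_lt with e | e
  · rw [← e, zero_mul]; positivity
  · exact h.le x y e

/-- the orthogonal of a positive vector is negative semidefinite -/
theorem nonpos (h : Lor φ) (hx : 0 < φ x x) (e : φ x y = 0) : φ y y ≤ 0 := by
  have := h.le x y hx
  rw [e] at this
  nlinarith

/-- and the isotropic vectors in it are in the kernel -/
theorem null (h : Lor φ) (hx : 0 < φ x x) (e : φ x y = 0) (e' : 0 ≤ φ y y) (w : V) : φ y w = 0 := by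
  have e0 := le_antisymm (h.nonpos hx e) e'
  by_contra c
  have k := h.le x (w + ((φ x w ^ 2 / φ x x - φ w w + 1) / (2 * φ y w)) • y) hx
  simp only [map_add, map_smul, LinearMap.add_apply, LinearMap.smul_apply, smul_eq_mul] at k
  rw [e, e0, h.comm w y] at k
  have k1 : φ w w + (φ x w ^ 2 / φ x x - φ w w + 1) / (2 * φ y w) * φ y w +
      (φ x w ^ 2 / φ x x - φ w w + 1) / (2 * φ y w) * (φ y w + (φ x w ^ 2 / φ x x - φ w w + 1) /
      (2 * φ y w) * 0) = φ x w ^ 2 / φ x x + 1 := by field_simp; ring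
  rw [k1, mul_add, mul_div_cancel₀ _ hx.ne'] at k
  nlinarith

/-- the case of equality -/
theorem eq (h : Lor φ) (hx : 0 < φ x x) (e : φ x y ^ 2 ≤ φ x x * φ y y) (w : V) :
    φ (φ x x • y - φ x y • x) w = 0 := by
  refine h.null hx ?_ ?_ w
  · simp only [map_sub, map_smul, smul_eq_mul]; ring
  · simp only [map_sub, map_smul, LinearMap.sub_apply, LinearMap.smul_apply, smul_eq_mul]
    rw [h.comm y x]
    nlinarith

/-- the orthogonal of a non negative vector which is not in the kernel -/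
theorem nonpos' (h : Lor φ) (hx : 0 ≤ φ x x) (hz : φ x z ≠ 0) (e : φ x y = 0) : φ y y ≤ 0 :=
  le_of_not_gt fun c => hz (h.null c ((h.comm y x).trans e) hx z)

/-- two orthogonal non negative vectors are proportional -/
theorem prop (h : Lor φ) (hz : 0 < φ z z) (hx : 0 ≤ φ x x) (hy : 0 ≤ φ y y) (e : φ x y = 0)
    (w : V) : φ (φ x z • y - φ y z • x) w = 0 := by
  refine h.null hz ?_ ?_ w
  · simp only [map_sub, map_smul, smul_eq_mul]
    rw [h.comm z y, h.comm z x]; ring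
  · simp only [map_sub, map_smul, LinearMap.sub_apply, LinearMap.smul_apply, smul_eq_mul]
    rw [h.comm y x, e]
    nlinarith [mul_nonneg (sq_nonneg (φ x z)) hy, mul_nonneg (sq_nonneg (φ y z)) hx]

end Lor

/-- **The Hodge index theorem.** -/
theorem Pc.lor (h : Pc M) : Lor (i2 M) := by
  obtain ⟨H, hH⟩ := h.pol
  exact Lor.of (h.q2_comm _) fun _ => h.hodge_pol hH

theorem Pc.hodge (h : Pc M) (h1 : 0 < i2 M D D) (E : Div K) :
    i2 M D D * i2 M E E ≤ i2 M D E ^ 2 := h.lor.le D E h1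

/-- numerically trivial divisors on surfaces -/
theorem Pc.nt_of_num (h : Pc M) (hD : M.Dv D) (e : ∀ E, i2 M D E = 0) :
    D ∈ Submodule.span ℝ (NT M) := by
  obtain ⟨H, hH⟩ := h.pol
  exact d1A 1 N K M h.proj h.cpt H D hH hD (h.psef_pol hD hH (e D).ge (e H).ge)
    ((deg_two h ⟨hH.dv, hH.int⟩ D).trans (e H))

theorem Pc.nef_of_num (h : Pc M) (hD : M.Dv D) (e : ∀ E, i2 M D E = 0) : M.Nef D ∧ M.Nef (-D) :=
  (nef_of_span h.pos (h.nt_of_num hD e)).2

/-- **the case of equality** -/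
theorem Pc.hodge_eq (h : Pc M) (hD : M.Dv D) (hE : M.Dv E) (h1 : 0 < i2 M D D)
    (e : i2 M D E ^ 2 ≤ i2 M D D * i2 M E E) :
    i2 M D D • E - i2 M D E • D ∈ Submodule.span ℝ (NT M) :=
  h.nt_of_num (dv_sub (dv_smul hE _) (dv_smul hD _)) (h.lor.eq h1 e)

theorem Pc.big_or (h : Pc M) (hD : M.Dv D) (h1 : 0 < i2 M D D) : Big M D ∨ Big M (-D) := by
  obtain ⟨H, hH⟩ := h.pol
  rcases lt_trichotomy 0 (i2 M D H) with e | e | e
  · exact .inl (h.big_pol hD hH h1 e)
  · exact absurd (h.hodge_pol hH e.symm) h1.not_ge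
  · exact .inr (h.big_pol (dv_neg hD) hH (by simpa using h1) (by simpa using e))

theorem Pc.psef_or (h : Pc M) (hD : M.Dv D) (h1 : 0 ≤ i2 M D D) : Psef M D ∨ Psef M (-D) := by
  obtain ⟨H, hH⟩ := h.pol
  rcases le_total 0 (i2 M D H) with e | e
  · exact .inl (h.psef_pol hD hH h1 e)
  · exact .inr (h.psef_pol (dv_neg hD) hH (by simpa using h1) (by simpa using e))

/-- **the positive cone is big** -/
theorem Pc.big_of_sq (h : Pc M) (hD : M.Dv D) (h1 : 0 < i2 M D D) (h2 : M.Dv H) (h3 : M.Nef H)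
    (h4 : 0 < i2 M D H) : Big M D := (h.big_or hD h1).resolve_right fun e => by
  have := h.i2_psef (e.psef h.loc h.pos) h2 h3
  rw [map_neg, LinearMap.neg_apply] at this
  linarith

theorem Pc.psef_of_sq (h : Pc M) (hD : M.Dv D) (h1 : 0 ≤ i2 M D D) (h2 : M.Dv H) (h3 : M.Nef H)
    (h4 : 0 < i2 M D H) : Psef M D := (h.psef_or hD h1).resolve_right fun e => by
  have := h.i2_psef e h2 h3
  rw [map_neg, LinearMap.neg_apply] at this
  linarith

end Vale.Agent.P287D.I
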