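import Mathlib

/-!
# P287D: sequences with a constant iterated difference; continuity of multilinear maps
-/

set_option linter.all false

open Filter Topology Asymptotics

namespace Vale.Agent.P287D.I

theorem choose_lim {k n : ℕ} (h : k ≤ n) : Tendsto (fun m : ℕ => (m.choose k : ℝ) / (m : ℝ) ^ n)
    atTop (𝓝 (if k = n then (n.factorial : ℝ)⁻¹ else 0)) := by
  have h1 := ((isEquivalent_choose k).div (IsEquivalent.refl (u := fun m : ℕ => (m : ℝ) ^ n)))
  refine h1.symm.tendsto_nhds ?_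
  split_ifs with e
  · subst e
    refine tendsto_const_nhds.congr' ?_
    filter_upwards [eventually_gt_atTop 0] with m hm
    have : (m : ℝ) ^ k ≠ 0 := by positivity
    simp only [Pi.div_apply]
    field_simp
  · have h2 := ((tendsto_pow_div_pow_atTop_zero (𝕜 := ℝ) (lt_of_le_of_ne h e)).comp
      tendsto_natCast_atTop_atTop).div_const (k.factorial : ℝ)
    rw [zero_div] at h2
    refine h2.congr fun m => ?_
    simp only [Pi.div_apply, Function.comp]
    ring

/-- a sequence with constant `n`-th difference -/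
theorem seq_lim (n : ℕ) (u : ℕ → ℤ) (c : ℤ) (h : ∀ j, (fwdDiff 1)^[n] u j = c) :
    Tendsto (fun m : ℕ => (u m : ℝ) * n.factorial / (m : ℝ) ^ n) atTop (𝓝 c) := by
  have h0 : ∀ k, n < k → (fwdDiff 1)^[k] u 0 = 0 := fun k hk => by
    obtain ⟨i, rfl⟩ := Nat.exists_eq_add_of_lt hk
    rw [add_assoc, add_comm n, Function.iterate_add_apply, funext h, Function.iterate_succ_apply,
      fwdDiff_const, Function.iterate_fixed (fwdDiff_const 1 0)]
  have h1 := (tendsto_finset_sum (Finset.range (n + 1)) fun k hk =>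
    (choose_lim (Nat.lt_succ_iff.1 (Finset.mem_range.1 hk))).mul_const
      (((fwdDiff 1)^[k] u 0 : ℤ) : ℝ)).mul_const (n.factorial : ℝ)
  have h2 : (n.factorial : ℝ) ≠ 0 := by positivity
  simp only [ite_mul, zero_mul, Finset.sum_ite_eq', Finset.self_mem_range_succ, if_true, h] at h1
  rw [mul_right_comm, inv_mul_cancel₀ h2, one_mul] at h1
  refine h1.congr' ?_
  filter_upwards [eventually_ge_atTop n] with m hm
  have h3 := shift_eq_sum_fwdDiff_iter 1 u m 0
  rw [zero_add, smul_eq_mul, mul_one, ← Finset.sum_subset (Finset.range_mono (Nat.succ_le_succ hm))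
    fun k _ hk => by rw [h0 k (by simpa using hk), smul_zero]] at h3
  rw [h3, mul_div_right_comm, Int.cast_sum, Finset.sum_div]
  refine congrArg (· * _) (Finset.sum_congr rfl fun k _ => ?_)
  simp only [nsmul_eq_mul, Int.cast_mul, Int.cast_natCast]
  ring

/-- multilinear maps are continuous in the coefficients -/
theorem ml_cont {V X ι : Type*} [AddCommGroup V] [Module ℝ V] [TopologicalSpace X] [Fintype ι]
    {n : ℕ} (f : MultilinearMap ℝ (fun _ : Fin n => V) ℝ) (D : ι → V) {c : Fin n → X → ι → ℝ}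
    (hc : ∀ j, Continuous (c j)) : Continuous fun x => f fun j => ∑ i, c j x i • D i := by
  classical
  simp only [f.map_sum, f.map_smul_univ, smul_eq_mul]
  fun_prop

/-- points with a common denominator in open sets -/
theorem int_pt {ι : Type*} [Fintype ι] {U : Set (ι → ℝ)} (hU : IsOpen U) {x : ι → ℝ} (hx : x ∈ U) :
    ∃ (k : ℕ) (z : ι → ℤ), 0 < k ∧ (fun i => (k : ℝ)⁻¹ * z i) ∈ U := by
  obtain ⟨ε, h0, h1⟩ := Metric.isOpen_iff.1 hU x hx
  obtain ⟨k, hk⟩ := exists_nat_one_div_lt h0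
  refine ⟨k + 1, fun i => ⌊((k : ℝ) + 1) * x i⌋, k.succ_pos, h1 ?_⟩
  rw [Metric.mem_ball, dist_pi_lt_iff h0]
  intro i
  have h2 : (0 : ℝ) < k + 1 := by positivity
  have h3 := Int.floor_le (((k : ℝ) + 1) * x i)
  have h4 := Int.lt_floor_add_one (((k : ℝ) + 1) * x i)
  refine lt_of_le_of_lt ?_ hk
  have e : ((k + 1 : ℕ) : ℝ)⁻¹ * (⌊((k : ℝ) + 1) * x i⌋ : ℤ) - x i =
      ((⌊((k : ℝ) + 1) * x i⌋ : ℤ) - ((k : ℝ) + 1) * x i) / (k + 1) := by
    push_cast
    field_simp
  rw [Real.dist_eq, e, abs_div, abs_of_pos h2]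
  exact div_le_div_of_nonneg_right (abs_le.2 ⟨by linarith, by linarith⟩) h2.le

end Vale.Agent.P287D.I
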