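import Vale.Agent.P287D.I.Pos
import Vale.Agent.P287D.I.Sq

/-!
# P287D: asymptotic Riemann-Roch, the lemma of Kodaira, the inequality of Siu
-/

set_option linter.all false

open Set Filter Topology
open Vale.Agent.P297 (Place)
open Vale.Agent.P277Z Vale.Agent.P277Z.FI Vale.Agent.P277Z.F5 Vale.Agent.P277Z.F5.Dg

noncomputable section

namespace Vale.Agent.P287D.I

variable {n N : ℕ} {K : Type} [Field K] [Algebra ℂ K]

section any

variable {M : Mdl n N K} {A B D E G H L : Div K}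

theorem gd_nsmul (h : D ∈ Gd M) (k : ℕ) : (k : ℝ) • D ∈ Gd M := ⟨dv_smul h.1 _, IsInt.nsmul h.2 k⟩

theorem h0_le (h : Pc M) (e : ∀ P, M.Pr P → D P ≤ E P) : h0 M D ≤ h0 M E :=
  haveI := h.fin E
  Submodule.finrank_mono fun _ hf => hf.imp_right fun k P hP => (k P hP).trans (by linarith [e P hP])

theorem h0_le_free (h : Pc M) (hd : M.Dv H) (hf : ∀ x, M.Free H x) (D : Div K) :
    h0 M D ≤ h0 M (D + H) := by
  haveI := h.fin (D + H)
  obtain ⟨x, hx⟩ := M.conn.nonempty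
  obtain ⟨f, h1, h2, -⟩ := hf ⟨x, hx⟩
  exact h0_le_add h.loc hd fun e => h2 (by simpa [e] using h1)

/-- round down -/
def fl (D : Div K) : Div K := D.mapRange (fun c => (⌊c⌋ : ℝ)) (by simp)

theorem fl_int (D : Div K) : IsInt (fl D) := fun _ => ⟨_, rfl⟩

theorem fl_le (D : Div K) : fl D ≤ D := fun _ => Int.floor_le _

theorem fl_gd (h : M.Dv D) : fl D ∈ Gd M :=
  ⟨fun P hP => h P (Finsupp.support_mapRange hP), fl_int D⟩

theorem H0_fl (hH : IsInt H) (D : Div K) : M.H0 (fl D + H) = M.H0 (D + H) :=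
  le_antisymm (H0_mono (add_le_add (fl_le D) le_rfl)) fun f hf => hf.imp_right fun k P hP => by
    obtain ⟨z, hz⟩ := hH P
    have h1 := k P hP
    rw [Finsupp.add_apply, hz] at h1 ⊢
    have h2 : -(P.ord f + z) ≤ ⌊D P⌋ := Int.le_floor.2 (by push_cast; linarith)
    have h3 := Int.cast_le (R := ℝ).2 h2
    change 0 ≤ _ + ((⌊D P⌋ : ℝ) + _)
    push_cast at h3
    linarith

theorem h0_fl (hH : IsInt H) (D : Div K) : h0 M (fl D + H) = h0 M (D + H) := by
  rw [h0, h0, H0_fl hH]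

theorem exists_ge (M : Mdl n N K) (D : Div K) : ∃ G ∈ Gd M, ∀ P, M.Pr P → D P ≤ G P :=
  ⟨_, neg_mem (fl_gd (dv_neg (dv_tr D))), fun P hP => by
    have := fl_le (-M.tr D) P
    rw [Finsupp.neg_apply, tr_apply hP] at this
    rw [Finsupp.neg_apply]
    linarith⟩

theorem exists_free (h : Pc M) (D : Div K) : ∃ H, Pol M H ∧ M.Amp (D + H) := by
  obtain ⟨A, hA⟩ := exists_pol h.pos
  obtain ⟨k, h1, h2⟩ := ((Dg.amp_ev h.pos hA.amp D).and (eventually_gt_atTop 0)).exists
  exact ⟨_, hA.nsmul h.pos h2, add_comm _ D ▸ h1⟩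

theorem df_seq {G : Type} [AddCommGroup G] (D L : G) (F : G → ℤ) (n j : ℕ) :
    (fwdDiff 1)^[n] (fun j : ℕ => F (j • D + L)) j = df (fun _ : Fin n => D) F (j • D + L) := by
  induction n generalizing j with
  | zero => simp [df, Subsingleton.elim (default : Finset (Fin 0)) ∅]
  | succ n ih =>
    have e : (fun _ : Fin (n + 1) => D) = Fin.cons D fun _ => D := by
      funext i
      exact Fin.cases rfl (fun _ => rfl) i
    rw [Function.iterate_succ_apply', fwdDiff, ih, ih, e, df_cons, succ_nsmul, add_right_comm]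

theorem rr_adj (h : Pc M) {κ : Div K} (hκ : IsCan M κ) (hD : D ∈ Gd M) (hn : M.Nef D)
    (hL : L ∈ Gd M) (ha : M.Amp (L - κ)) :
    Tendsto (fun m : ℕ => (h0 M ((m : ℝ) • D + L) : ℝ) * n.factorial / (m : ℝ) ^ n) atTop
      (𝓝 (vol M D)) := by
  have key := seq_lim n (fun j : ℕ => hz M (j • D + L)) (Dg.I M fun _ => D) fun j => by
    have g : j • D + L ∈ Gd M := add_mem (nsmul_mem hD j) hL
    rw [df_seq]
    refine h.ok.isI (fun _ => hD) κ 0 _ ∅ ⟨hκ, finite_empty, snc_empty h.loc⟩ (bd1_zero _) g.1 g.2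
      fun J => ?_
    have := amp_add_nef ha (nef_smul h.pos hn (Nat.cast_nonneg (j + J.card)))
    rw [Nat.cast_smul_eq_nsmul, add_nsmul] at this
    refine Eq.mp (congrArg M.Amp ?_) this
    rw [Finset.sum_const]
    abel
  rw [vol, num_int h fun _ => hD]
  simpa only [hz, Int.cast_natCast, Nat.cast_smul_eq_nsmul] using key

/-- **the number of sections is `O(mⁿ)`** -/
theorem h0_bd (h : Pc M) (D E : Div K) :
    ∃ C : ℝ, 0 < C ∧ ∀ᶠ m : ℕ in atTop, (h0 M ((m : ℝ) • D + E) : ℝ) ≤ C * (m : ℝ) ^ n := by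
  obtain ⟨D', d1, d2⟩ := exists_ge M D
  obtain ⟨E', e1, e2⟩ := exists_ge M E
  obtain ⟨κ, hκ⟩ := exists_can h.loc
  obtain ⟨A, a1, a2⟩ := exists_free h D'
  obtain ⟨B, b1, b2⟩ := exists_free h (E' - κ)
  have key := rr_adj h hκ (add_mem d1 ⟨a1.dv, a1.int⟩) (nef_of_amp h.pos a2)
    (add_mem e1 ⟨b1.dv, b1.int⟩) (by rwa [add_sub_right_comm])
  refine ⟨|vol M (D' + A)| + 1, by positivity, ?_⟩
  filter_upwards [key.eventually (gt_mem_nhds ((le_abs_self _).trans_lt (lt_add_one _))),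
    eventually_gt_atTop 0] with m h1 h2
  have h3 : h0 M ((m : ℝ) • D + E) ≤ h0 M ((m : ℝ) • (D' + A) + (E' + B)) := by
    refine (h0_le h (E := (m : ℝ) • D' + E') fun P hP => ?_).trans ?_
    · simp only [Finsupp.add_apply, Finsupp.smul_apply, smul_eq_mul]
      exact add_le_add (mul_le_mul_of_nonneg_left (d2 P hP) m.cast_nonneg) (e2 P hP)
    · rw [smul_add, add_add_add_comm]
      exact h0_le_free h (dv_add (dv_smul a1.dv _) b1.dv)
        (fun x => free_add (free_nsmul (a1.free x) m) (b1.free x)) _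
  rw [div_lt_iff₀ (by positivity)] at h1
  refine (Nat.cast_le.2 h3).trans (le_trans ?_ h1.le)
  exact le_mul_of_one_le_right (Nat.cast_nonneg _) (by exact_mod_cast n.factorial_pos)

end any

section succ

variable {M : Mdl (n + 1) N K} {A B D E G H L : Div K}

/-- cutting with a general member -/
theorem h0_cut (h : Pc M) (hH : H ∈ Gd M) (hf : ∀ x, M.Free H x) {T : Set (Place K)}
    (hT : T.Finite) : ∃ (Y : Finset (Place K)) (u : ∀ P : Y, SubM M P), (∀ P ∈ Y, M.Snc {P}) ∧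
      Cn.rd Y - H ∈ PrR M ∧ ∀ L, M.Dv L → (∀ P ∉ T, ∃ k : ℤ, L P = k) →
        h0 M (L + H) ≤ h0 M L + ∑ P : Y, h0 (u P).S ((u P).r (L + H)) := by
  classical
  obtain ⟨f, Y, hf, e1, -, e2, e3⟩ := h.cut hH.1 hH.2 hf finite_empty (snc_empty h.loc) hT
  have hY : ∀ P ∈ Y, M.Snc {P} := fun P hP => snc_mono e3 (by simpa using hP)
  let u : ∀ P : Y, SubM M P := fun P => (exists_sub tb h.proj (hY P.1 P.2)).some
  change _ = Cn.rd Y at e1
  refine ⟨Y, u, hY, by rw [← e1]; simpa using div_mem_prR hf, fun L hL hi => ?_⟩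
  have ind : ∀ V : Finset Y, h0 M (fl L + Cn.rd (V.map (.subtype _))) ≤
      h0 M (fl L) + ∑ P ∈ V, h0 (u P).S ((u P).r (L + H)) := fun V => by
    induction V using Finset.induction_on with
    | empty => simp [Cn.rd]
    | insert P V hP iv =>
      have g : fl L + Cn.rd (V.map (.subtype _)) ∈ Gd M := add_mem (fl_gd hL)
        (sum_mem fun Q hQ => gd_single ((hY Q (Finset.map_subtype_subset V hQ)).1 Q rfl))
      have p : P.1 ∉ V.map (.subtype _) := by simpa using hP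
      have k1 := (h.exs (u P) (hY P.1 P.2)).2.1 _ g.1 g.2
      obtain ⟨w, w0, w1⟩ := rsn_div h.loc (u P).rst (u P).ht hf
      have hS := h.sub (u P) (hY P.1 P.2)
      have e : Cn.rd ((insert P V).map (.subtype _)) =
          Cn.rd (V.map (.subtype _)) + Finsupp.single P.1 1 := by
        rw [Finset.map_insert, add_comm]
        exact Finset.sum_insert p
      have k2 : h0 (u P).S ((u P).r (fl L + Cn.rd ((insert P V).map (.subtype _)))) ≤
          h0 (u P).S ((u P).r (L + H)) := by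
        rw [← h0_add_div hS.loc ((u P).r (L + H)) w0, ← w1, SubM.r, ← map_add, add_assoc,
          add_comm H, e1]
        refine h0_le hS fun Q _ => Cn.rsn_mono _ _ (add_le_add (fl_le L)
          (Finset.sum_le_sum_of_subset_of_nonneg (Finset.map_subtype_subset _) fun _ _ _ =>
            Finsupp.single_nonneg.2 zero_le_one)) ?_ Q
        obtain ⟨z, hz⟩ := hi P (disjoint_left.1 e2 P.2)
        change fl L P + Cn.rd _ P.1 = L P + Cn.rd _ P.1
        rw [Cn.rd_apply, Cn.rd_apply, if_pos P.2,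
          if_pos (by simp)]
        simp [fl, hz]
      rw [Finset.sum_insert hP, e, ← add_assoc]
      rw [e, ← add_assoc] at k2
      exact k1.trans ((add_le_add iv k2).trans_eq (by ring))
  have := ind Finset.univ
  rwa [Finset.univ_eq_attach, Finset.attach_map_val, ← e1, add_comm _ H, ← add_assoc,
    h0_add_div h.loc _ hf, h0_fl hH.2, ← add_zero (fl L), h0_fl IsInt.zero, add_zero] at this

theorem h0_drop (h : Pc M) (hD : M.Dv D) (hE : M.Dv E) (hH : H ∈ Gd M) (hf : ∀ x, M.Free H x) :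
    ∃ C : ℝ, ∀ᶠ m : ℕ in atTop,
      (h0 M ((m : ℝ) • D + E + H) : ℝ) ≤ h0 M ((m : ℝ) • D + E) + C * (m : ℝ) ^ n := by
  obtain ⟨Y, u, h1, -, h2⟩ := h0_cut h hH hf (D.support.finite_toSet.union E.support.finite_toSet)
  choose C _ hC using fun P : Y => h0_bd (h.sub (u P) (h1 P.1 P.2)) ((u P).r D) ((u P).r (E + H))
  refine ⟨∑ P, C P, (eventually_all.2 hC).mono fun m hm => ?_⟩
  have := Nat.cast_le (α := ℝ).2 (h2 _ (dv_add (dv_smul hD m) hE) fun P hP => ⟨0, by
    simp only [mem_union, Finset.mem_coe, Finsupp.mem_support_iff, not_or, not_not] at hP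
    simp [hP.1, hP.2]⟩)
  push_cast at this
  rw [Finset.sum_mul]
  refine this.trans (add_le_add le_rfl (Finset.sum_le_sum fun P _ => ?_))
  rw [add_assoc, map_add, map_smul]
  exact hm P

end succ

variable {M : Mdl n N K} {A B D E G H L : Div K}

theorem h0_zero {M : Mdl 0 N K} (h : Pc M) (D : Div K) : h0 M D = 1 :=
  ((cpA 0 N K M h.proj).2 h.cpt).2.2.1 rfl D

theorem lim_aux (C : ℝ) (n : ℕ) : Tendsto (fun m : ℕ => C * (m : ℝ) ^ n / (m : ℝ) ^ (n + 1))
    atTop (𝓝 0) := by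
  simpa [mul_div_assoc] using ((tendsto_pow_div_pow_atTop_zero (𝕜 := ℝ) n.lt_succ_self).comp
    tendsto_natCast_atTop_atTop).const_mul C

/-- **asymptotic Riemann-Roch** for nef divisors -/
theorem rr_nef (h : Pc M) (hD : D ∈ Gd M) (hn : M.Nef D) (hE : M.Dv E) :
    Tendsto (fun m : ℕ => (h0 M ((m : ℝ) • D + E) : ℝ) * n.factorial / (m : ℝ) ^ n) atTop
      (𝓝 (vol M D)) := by
  obtain ⟨κ, hκ⟩ := exists_can h.loc
  obtain ⟨H, h1, h2⟩ := exists_free h (fl E - κ)
  have key := rr_adj h hκ hD hn (add_mem (fl_gd hE) ⟨h1.dv, h1.int⟩) (by rwa [add_sub_right_comm])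
  have e : ∀ m : ℕ, h0 M ((m : ℝ) • D + (fl E + H)) = h0 M ((m : ℝ) • D + E + H) := fun m => by
    rw [add_left_comm, h0_fl (IsInt.add (IsInt.nsmul hD.2 m) h1.int), add_left_comm, add_assoc]
  simp only [e] at key
  cases n with
  | zero => simpa only [h0_zero h] using key
  | succ n =>
    obtain ⟨C, hC⟩ := h0_drop h hD.1 hE ⟨h1.dv, h1.int⟩ h1.free
    have k := key.sub ((lim_aux C n).mul_const ((n + 1).factorial : ℝ))
    rw [zero_mul, sub_zero] at k
    refine tendsto_of_tendsto_of_tendsto_of_le_of_le' k key (hC.mono fun m hm => ?_)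
      (.of_forall fun m => ?_)
    · rw [← mul_div_right_comm, ← sub_div, ← sub_mul]
      gcongr
      linarith
    · gcongr
      exact h0_le_free h h1.dv h1.free _

/-- **the lemma of Kodaira** -/
theorem kodaira (h : Pc M) (hD : M.Dv D) (hE : M.Dv E) {c : ℝ} (hc : 0 < c)
    (hf : ∃ᶠ m : ℕ in atTop, c * (m : ℝ) ^ n ≤ h0 M ((m : ℝ) • D + E)) : Big M D := by
  obtain ⟨H, h1, h2⟩ := exists_free h (-E)
  have d := dv_add (dv_neg hE) h1.dv
  suffices k : ∃ m : ℕ, 0 < m ∧ h0 M ((m : ℝ) • D + (E - H)) ≠ 0 by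
    obtain ⟨m, k1, k2⟩ := k
    have k3 : (0 : ℝ) < m := by exact_mod_cast k1
    refine ⟨_, dv_smul d _, h.pos.smul _ _ (inv_pos.2 k3) h2, Eff.of_smul k3 ?_⟩
    rw [smul_sub, smul_smul, mul_inv_cancel₀ k3.ne', one_smul, neg_add_eq_sub, sub_eq_add_neg,
      neg_sub]
    exact eff_of_h0 h.loc (dv_add (dv_smul hD _) (dv_sub hE h1.dv)) k2
  cases n with
  | zero => exact ⟨1, one_pos, by simp [h0_zero h]⟩
  | succ n =>
    obtain ⟨C, hC⟩ := h0_drop h hD (dv_sub hE h1.dv) ⟨h1.dv, h1.int⟩ h1.free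
    obtain ⟨m, a1, a2, a3, a4⟩ := (hf.and_eventually (hC.and (((lim_aux C n).eventually
      (gt_mem_nhds hc)).and (eventually_gt_atTop 0)))).exists
    refine ⟨m, a4, fun e => ?_⟩
    rw [e, add_assoc, sub_add_cancel, Nat.cast_zero, zero_add] at a2
    rw [div_lt_iff₀ (by positivity)] at a3
    linarith

section siu

variable {M : Mdl (n + 1) N K} {A B D E : Div K}

/-- **the inequality of Siu** -/
theorem siu_h0 (h : Pc M) (hA : A ∈ Gd M) (hn : M.Nef A) (hB : B ∈ Gd M) (hf : ∀ x, M.Free B x)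
    (hE : E ∈ Gd M) {c : ℝ} (hc : c < vol M A - (n + 1) * num M (Fin.cons B fun _ => A)) :
    ∀ᶠ m : ℕ in atTop,
      c * (m : ℝ) ^ (n + 1) ≤ (h0 M ((m : ℝ) • (A - B) + E) : ℝ) * (n + 1).factorial := by
  obtain ⟨Y, u, h1, h2, h3⟩ := h0_cut h hB hf finite_empty
  have hS := fun P : Y => h.sub (u P) (h1 P.1 P.2)
  have k1 := (rr_nef h hA hn hE.1).sub ((tendsto_finset_sum Finset.univ fun P _ => rr_nef (hS P)
    (gd_r h.loc (u P) hA.2) (h.r_nef (u P) (h1 P.1 P.2) hn) (dv_r (u P) E)).const_mul ((n : ℝ) + 1))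
  rw [num_cut h u h1 h2 fun _ => hA.1] at hc
  filter_upwards [k1.eventually (lt_mem_nhds hc), eventually_gt_atTop 0] with m k2 k3
  have ind : ∀ j : ℕ, h0 M ((m : ℝ) • A + E) ≤ h0 M ((m : ℝ) • A + E - (j : ℝ) • B) +
      j * ∑ P : Y, h0 (u P).S ((m : ℝ) • (u P).r A + (u P).r E) := fun j => by
    induction j with
    | zero => simp
    | succ j ih =>
      have g := sub_mem (add_mem (gd_nsmul hA m) hE) (gd_nsmul hB (j + 1))
      have k4 := h3 _ g.1 fun P _ => g.2 P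
      have e : (m : ℝ) • A + E - ((j + 1 : ℕ) : ℝ) • B + B = (m : ℝ) • A + E - (j : ℝ) • B := by
        push_cast
        module
      rw [e] at k4
      have k5 : ∀ P : Y, h0 (u P).S ((u P).r ((m : ℝ) • A + E - (j : ℝ) • B)) ≤
          h0 (u P).S ((m : ℝ) • (u P).r A + (u P).r E) := fun P => by
        have := h0_le_free (hS P) (dv_smul (dv_r (u P) B) (j : ℝ)) (fun y => free_nsmul
          ((h.exs (u P) (h1 P.1 P.2)).2.2.2.2.1 B hB.2 hf y) j)
          ((u P).r ((m : ℝ) • A + E - (j : ℝ) • B))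
        rwa [← map_smul, ← map_add, sub_add_cancel, map_add, map_smul] at this
      have k6 := Finset.sum_le_sum (s := Finset.univ) fun P _ => k5 P
      rw [Nat.succ_mul]
      omega
  have k4 := Nat.cast_le (α := ℝ).2 (ind m)
  have m0 : (0 : ℝ) < m := by exact_mod_cast k3
  rw [add_sub_right_comm, ← smul_sub] at k4
  rw [← Finset.sum_div, ← Finset.sum_mul, ← mul_div_mul_left _ ((m : ℝ) ^ n) m0.ne', ← pow_succ',
    ← mul_div_assoc, ← sub_div, lt_div_iff₀ (by positivity)] at k2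
  refine k2.le.trans ?_
  have k5 := mul_le_mul_of_nonneg_right k4 (Nat.cast_nonneg (n + 1).factorial)
  rw [Nat.factorial_succ] at k5 ⊢
  push_cast at k5 ⊢
  linarith

theorem siu_int (h : Pc M) (hA : A ∈ Gd M) (hn : M.Nef A) (hB : B ∈ Gd M) (hf : ∀ x, M.Free B x)
    (hc : (n + 1) * num M (Fin.cons B fun _ => A) < vol M A) : Big M (A - B) := by
  obtain ⟨c, h1, h2⟩ := exists_between (sub_pos.2 hc)
  have p : (0 : ℝ) < (n + 1).factorial := by positivity
  refine kodaira h (dv_sub hA.1 hB.1) dv_zero (div_pos h1 p)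
    ((siu_h0 h hA hn hB hf (zero_mem _) h2).mono fun m hm => ?_).frequently
  rwa [div_mul_eq_mul_div, div_le_iff₀ p]

end siu

end Vale.Agent.P287D.I
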