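import Vale.Agent.P287D.I.Kt
import Vale.Agent.P287D.I.Cv

/-!
# P287D: the theorem of Riemann and Roch and the genus formula on surfaces
-/

set_option linter.all false

open Set Filter Topology
open Vale.Agent.P297 (Place)
open Vale.Agent.P277Z Vale.Agent.P277Z.FI Vale.Agent.P277Z.F5 Vale.Agent.P277Z.F5.Dg
open Vale.Agent.P287D.Ba (KM)

noncomputable section

namespace Vale.Agent.P287D.I

variable {K : Type} [Field K] [Algebra ℂ K]

theorem vol_one {N : ℕ} (M : Mdl 1 N K) (D : Div K) : vol M D = i1 M D :=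
  congrArg (num M) (funext (Fin.cases rfl fun i => i.elim0))

theorem Pc.pol_add {n N : ℕ} {M : Mdl n N K} (h : Pc M) {D : Div K} (hD : D ∈ Dg.Gd M) :
    ∃ H, Pol M H ∧ Pol M (D + H) := by
  obtain ⟨A, hA⟩ := h.pol
  obtain ⟨m₀, hm⟩ := h.pos.gg A D hA.amp hA.int hD.2
  obtain ⟨m, k1, k2, k3⟩ := ((Dg.amp_ev h.pos hA.amp D).and ((eventually_ge_atTop m₀).and
    (eventually_gt_atTop 0))).exists
  have k := hA.nsmul h.pos k3
  exact ⟨_, k, dv_add hD.1 k.dv, IsInt.add hD.2 k.int, add_comm D _ ▸ k1, hm m k2⟩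

variable {M : Mdl 2 0 K} {κ B D E H L : Div K} {P : Place K} {T : Set (Place K)}

/-- **adjunction** -/
theorem Pc.adj (h : Pc M) (hκ : IsCan M κ) (u : SubM M P) (hs : M.Snc {P}) :
    i2 M (Finsupp.single P 1) (κ + Finsupp.single P 1) = 2 * gn u.L - 2 := by
  obtain ⟨T', k, -⟩ := ((h.exs u hs).2.2.2.2.2.2 κ ∅ 0 (notMem_empty _)
    ⟨hκ, finite_empty.insert _, by simpa using hs⟩ (bd1_zero _)).1
  rw [h.i2_res u hs (dv_add hκ.dv (dv_single (hs.1 P rfl) 1)), ← vol_one, deg_can u.proj k.can]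

/-- the polynomial of Riemann and Roch without the constant term -/
def ch (M : Mdl 2 0 K) (κ L : Div K) : ℝ := i2 M (L - κ) L / 2

theorem Pc.ch_add (h : Pc M) (κ D E : Div K) : ch M κ (D + E) = ch M κ D + ch M κ E + i2 M D E := by
  simp only [ch, map_add, map_sub, LinearMap.add_apply, LinearMap.sub_apply]
  rw [h.q2_comm _ E D]
  ring

theorem Pc.ch_step (h : Pc M) (κ L Y : Div K) :
    ch M κ (L + Y) = ch M κ L + i2 M Y (L + Y) - i2 M Y (κ + Y) / 2 := by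
  simp only [ch, map_add, map_sub, LinearMap.add_apply, LinearMap.sub_apply]
  rw [h.q2_comm _ Y L, h.q2_comm _ Y κ]
  ring

theorem Pc.ch_eqv (h : Pc M) {κ' L' : Div K} (e : κ' - κ ∈ PrR M) (e' : L' - L ∈ PrR M) :
    ch M κ' L' = ch M κ L := by
  rw [ch, ch, h.q2_eqv' _ _ e', h.q2_eqv (D := L - κ)]
  rw [show L' - κ' - (L - κ) = L' - L - (κ' - κ) by abel]
  exact sub_mem e' e

theorem Pc.h0_curve (h : Pc M) (hκ : IsCan M κ) (u : SubM M P) (hs : M.Snc {P}) (hL : L ∈ Dg.Gd M)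
    (h1 : i2 M (Finsupp.single P 1) (κ - L) < 0) :
    (F5.h0 u.S (u.r (L + Finsupp.single P 1)) : ℝ) = ch M κ (L + Finsupp.single P 1) - ch M κ L := by
  have g := add_mem hL (gd_single (hs.1 P rfl))
  have a := h.adj hκ u hs
  have b := h.i2_res u hs g.1
  rw [rr1_large u.proj (gd_r h.loc u g.2).2, h.ch_step, vol_one, ← b, a]
  · ring
  · rw [vol_one, ← b, ← a]
    simp only [map_add, map_sub] at h1 ⊢
    linarith

/-- the defect -/
def df2 (M : Mdl 2 0 K) (κ L : Div K) : ℝ := F5.h0 M L - ch M κ L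

theorem Pc.df2_le (h : Pc M) (hκ : IsCan M κ) (hs : M.Snc {P}) (hL : L ∈ Dg.Gd M)
    (h1 : i2 M (Finsupp.single P 1) (κ - L) < 0) :
    df2 M κ (L + Finsupp.single P 1) ≤ df2 M κ L := by
  obtain ⟨u⟩ := h.ex_sub hs
  have k : (F5.h0 M (L + Finsupp.single P 1) : ℝ) ≤ F5.h0 M L + F5.h0 u.S (u.r (L + Finsupp.single P 1)) := by
    exact_mod_cast (h.exs u hs).2.1 L hL.1 hL.2
  rw [h.h0_curve hκ u hs hL h1] at k
  simp only [df2]
  linarith

theorem Pc.df2_div (h : Pc M) (κ L : Div K) {f : K} (hf : f ≠ 0) :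
    df2 M κ (L + M.div f) = df2 M κ L := by
  rw [df2, df2, h0_add_div h.loc L hf, h.ch_eqv (κ := κ) (L := L) (by simp)
    (by simpa using div_mem_prR hf)]

theorem Pc.df2_pol (h : Pc M) (hκ : Lg M κ T) (hB : Bd1 T B) (hL : L ∈ Dg.Gd M)
    (hA : M.Amp (L - κ - B)) (hH : Pol M H) : df2 M κ (L + H) = df2 M κ L := by
  obtain ⟨f, P, f0, e, k1, -, k2⟩ := h.cut_irr hκ.fin hκ.snc finite_empty hH
  have hs : M.Snc {P} := snc_mono k2 (by simp)
  obtain ⟨u⟩ := h.ex_sub hs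
  have dB : M.Dv B := fun Q hQ => hκ.snc.1 Q (hB.1 hQ)
  have a : 0 < i2 M (Finsupp.single P 1) (L - κ - B) := prime_pos h (hs.1 P rfl)
    (Fin.cases ⟨dv_sub (dv_sub hL.1 hκ.can.dv) dB, hA⟩ fun i => i.elim0)
  have b : 0 ≤ i2 M (Finsupp.single P 1) B := h.q2_prime (fun i => i.elim0) (fun Q => (hB.2 Q).1)
    (Finsupp.notMem_support_iff.1 fun c => k1 (hB.1 c))
  have k : (F5.h0 M (L + Finsupp.single P 1) : ℝ) = F5.h0 M L + F5.h0 u.S (u.r (L + Finsupp.single P 1)) := by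
    exact_mod_cast ((h.exs u hs).2.2.2.2.2.2 κ T B k1 ⟨hκ.can, hκ.fin.insert _, k2⟩ hB).2 L hL.1
      hL.2 hA
  rw [h.h0_curve hκ.can u hs hL (by simp only [map_sub] at a ⊢; linarith)] at k
  rw [← h.df2_div κ _ f0, add_assoc, add_comm H, e]
  simp only [df2]
  linarith

theorem Pc.df2_eq (h : Pc M) {κ' B' L' : Div K} {T' : Set (Place K)} (hκ : Lg M κ T) (hB : Bd1 T B)
    (hL : L ∈ Dg.Gd M) (hA : M.Amp (L - κ - B)) (hκ' : Lg M κ' T') (hB' : Bd1 T' B') (hL' : L' ∈ Dg.Gd M)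
    (hA' : M.Amp (L' - κ' - B')) : df2 M κ' L' = df2 M κ L := by
  obtain ⟨H, k1, k2⟩ := h.pol_add (sub_mem hL' hL)
  obtain ⟨f, f0, e⟩ := Ba.isCan_KM h.proj hκ.can
  obtain ⟨g, g0, e'⟩ := Ba.isCan_KM h.proj hκ'.can
  rw [← h.df2_pol hκ hB hL hA k2, ← h.df2_pol hκ' hB' hL' hA' k1, ← add_assoc, add_sub_cancel,
    df2, df2, h.ch_eqv (κ := κ) (L := L' + H) _ (by simp)]
  rw [e, e', add_sub_add_left_eq_sub]
  exact sub_mem (div_mem_prR g0) (div_mem_prR f0)

theorem Pc.i2_int (h : Pc M) (hD : IsInt D) (hE : IsInt E) : ∃ z : ℤ, i2 M D E = z :=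
  num_isInt h (a := ![D, E]) (Fin.cases hD (Fin.cases hE fun i => i.elim0))

theorem Pc.exists_chi (h : Pc M) : ∃ χ : ℤ, ∀ κ B L T, Lg M κ T → Bd1 T B → L ∈ Dg.Gd M →
    M.Amp (L - κ - B) → (F5.h0 M L : ℝ) = χ + ch M κ L := by
  obtain ⟨κ, hκ⟩ := h.can
  obtain ⟨H, hH⟩ := h.pol
  have g : κ + (H + H) ∈ Dg.Gd M := ⟨dv_add hκ.dv (dv_add hH.dv hH.dv),
    IsInt.add (hκ.int h.loc) (IsInt.add hH.int hH.int)⟩
  obtain ⟨z, hz⟩ := h.i2_int hH.int g.2
  refine ⟨F5.h0 M (κ + (H + H)) - z, fun κ' B L T h1 h2 h3 h4 => ?_⟩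
  have k := h.df2_eq ⟨hκ, finite_empty, snc_empty h.loc⟩ (bd1_zero _) g
    (by simpa using h.pos.add _ _ hH.amp hH.amp) h1 h2 h3 h4
  have e : ch M κ (κ + (H + H)) = z := by
    rw [ch, add_sub_cancel_left, map_add (i2 M) H H, LinearMap.add_apply, hz]
    ring
  simp only [df2, e] at k
  push_cast
  linarith

/-- the holomorphic Euler characteristic -/
def chi (M : Mdl 2 0 K) : ℤ := Classical.epsilon fun χ : ℤ => ∀ κ B L T, Lg M κ T → Bd1 T B →
  L ∈ Dg.Gd M → M.Amp (L - κ - B) → (F5.h0 M L : ℝ) = χ + ch M κ L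

/-- **Riemann and Roch** for adjoint divisors -/
theorem Pc.rr2 (h : Pc M) (hκ : Lg M κ T) (hB : Bd1 T B) (hL : L ∈ Dg.Gd M)
    (hA : M.Amp (L - κ - B)) : (F5.h0 M L : ℝ) = chi M + ch M κ L :=
  Classical.epsilon_spec h.exists_chi κ B L T hκ hB hL hA

theorem Pc.rr2' (h : Pc M) (hκ : IsCan M κ) (hL : L ∈ Dg.Gd M) (hA : M.Amp (L - κ)) :
    (F5.h0 M L : ℝ) = chi M + ch M κ L :=
  h.rr2 ⟨hκ, finite_empty, snc_empty h.loc⟩ (bd1_zero _) hL (by rwa [sub_zero])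

/-- **Riemann and Roch**, the inequality -/
theorem Pc.rr2_le (h : Pc M) (hκ : IsCan M κ) (hL : L ∈ Dg.Gd M) {A : Div K} (h1 : M.Dv A)
    (h2 : M.Nef A) (h3 : i2 M (κ - L) A < 0) : chi M + ch M κ L ≤ F5.h0 M L := by
  obtain ⟨H, hH, k⟩ : ∃ H, Pol M H ∧ i2 M (κ - L) H < 0 := by
    by_contra c
    exact h3.not_ge (lin_nef h.pos (fun H hH => le_of_not_gt fun e => c ⟨H, hH, e⟩) h1 h2)
  obtain ⟨f, P, f0, e, -, -, hs⟩ := h.cut_irr finite_empty (snc_empty h.loc) finite_empty hH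
  rw [insert_empty_eq] at hs
  have hp : Pol M (Finsupp.single P 1) := e ▸ h.pol_div hH f0
  have a : i2 M (Finsupp.single P 1) (κ - L) < 0 := by
    rwa [h.q2_comm, ← e, h.q2_eqv' _ _ (E := H) (by simpa using div_mem_prR f0)]
  have b := h.i2_amp hp.dv hp.amp hp.dv hp.amp
  have g : ∀ j : ℕ, (j : ℝ) • Finsupp.single P 1 + L ∈ Dg.Gd M := fun j =>
    add_mem (gd_nsmul ⟨hp.dv, hp.int⟩ j) hL
  have key : ∀ j : ℕ, df2 M κ ((j : ℝ) • Finsupp.single P 1 + L) ≤ df2 M κ L := fun j => by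
    induction j with
    | zero => simp
    | succ j ih =>
      refine le_trans (le_of_eq_of_le (congrArg _ (by push_cast; module)) (h.df2_le hκ hs (g j) ?_)) ih
      simp only [map_sub, map_add, map_smul, smul_eq_mul] at a ⊢
      linarith [mul_nonneg (Nat.cast_nonneg (α := ℝ) j) b.le]
  obtain ⟨j, hj⟩ := (Dg.amp_ev h.pos hp.amp (L - κ)).exists
  have k1 := key j
  simp only [df2, h.rr2' hκ (g j) (by rwa [add_sub_assoc])] at k1
  linarith

/-- parity -/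
theorem Pc.ch_int (h : Pc M) (hκ : IsCan M κ) (hD : D ∈ Dg.Gd M) : ∃ z : ℤ, ch M κ D = z := by
  obtain ⟨H, hH⟩ := h.pol
  obtain ⟨m, k1, k2⟩ := ((Dg.amp_ev h.pos hH.amp (-κ)).and (Dg.amp_ev h.pos hH.amp (D - κ))).exists
  have g := gd_nsmul ⟨hH.dv, hH.int⟩ m
  have a := h.rr2' hκ g (by rwa [sub_eq_add_neg])
  have b := h.rr2' hκ (add_mem g hD) (by rwa [add_sub_assoc])
  obtain ⟨z, hz⟩ := h.i2_int g.2 hD.2
  rw [h.ch_add, hz] at b
  exact ⟨F5.h0 M ((m : ℝ) • H + D) - F5.h0 M ((m : ℝ) • H) - z, by push_cast; linarith⟩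

theorem Pc.parity (h : Pc M) (hκ : IsCan M κ) (hD : D ∈ Dg.Gd M) :
    ∃ z : ℤ, i2 M (κ + D) D = 2 * z := by
  obtain ⟨z, hz⟩ := h.ch_int hκ (neg_mem hD)
  refine ⟨z, ?_⟩
  simp only [ch, map_add, map_sub, map_neg, LinearMap.add_apply, LinearMap.sub_apply,
    LinearMap.neg_apply] at hz ⊢
  linarith

section mod

variable {M' : Mdl 2 0 K}

theorem Pc.i2_proj (h : Pc M) (m : Mod M' M) (h' : M'.Proj) (D E : Div K) :
    i2 M' D (M.pull M' E) = i2 M D E :=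
  (congrArg (num M') (funext (Fin.cases rfl (Fin.cases rfl fun i => i.elim0)))).trans
    (num_proj h m h' D ![E])

theorem Pc.h0_pull (h : Pc M) (m : Mod M' M) (h' : M'.Proj) (D : Div K)
    (hE : (E.support : Set (Place K)) ⊆ Exc M' M) (h0E : 0 ≤ E) :
    F5.h0 M' (M.pull M' D + E) = F5.h0 M D := by
  have : (M'.H0 (M.pull M' D + E)).restrictScalars ℂ = (M.H0 D).restrictScalars ℂ :=
    Submodule.ext fun f => (h.bir m h').sec D E f hE h0E
  rw [F5.h0, F5.h0, this]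

/-- **the genus formula**, for a prime divisor which is smooth on a modification -/
theorem Pc.genus (h : Pc M) (hκ : IsCan M κ) (hP : M.Pr P) (m : Mod M' M) (h' : M'.Proj)
    (u : SubM M' P) (hs : M'.Snc {P}) : ∃ δ : ℕ,
      i2 M (κ + Finsupp.single P 1) (Finsupp.single P 1) = 2 * gn u.L - 2 + 2 * δ := by
  have k := h.mod m h'
  have b := h.bir m h'
  have hY := gd_single hP
  obtain ⟨H, hH⟩ := h.pol
  obtain ⟨j, k1, k2⟩ := ((Dg.amp_ev h.pos hH.amp (-κ)).and ((Dg.amp_ev h.pos hH.amp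
    (Finsupp.single P 1 - κ)).and (tendsto_natCast_atTop_atTop.eventually_gt_atTop
    ((2 * gn u.L - 2 - i2 M (Finsupp.single P 1) (Finsupp.single P 1)) /
      i2 M (Finsupp.single P 1) H)))).exists
  have g := gd_nsmul ⟨hH.dv, hH.int⟩ j
  have a0 : 0 < i2 M (Finsupp.single P 1) H :=
    prime_pos h hP (Fin.cases ⟨hH.dv, hH.amp⟩ fun i => i.elim0)
  have a1 := h.rr2' hκ g (by rwa [sub_eq_add_neg])
  have a2 := h.rr2' hκ (add_mem g hY) (by rw [add_sub_assoc]; exact k2.1)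
  have a3 : 2 * gn u.L - 2 < i2 M (Finsupp.single P 1) ((j : ℝ) • H + Finsupp.single P 1) := by
    have := (div_lt_iff₀ a0).1 k2.2
    simp only [map_add, map_smul, smul_eq_mul]
    linarith
  generalize (j : ℝ) • H = L at g a1 a2 a3
  have g1 : M.pull M' (L + Finsupp.single P 1) ∈ Dg.Gd M' := ⟨dv_pull _, pull_int b (add_mem g hY).2⟩
  have g2 := sub_mem g1 (gd_single (b.pr P hP))
  have c1 := (k.exs u hs).2.1 _ g2.1 g2.2
  have c2 := h.h0_pull m h' (L + Finsupp.single P 1) (E := 0) (by simp) le_rfl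
  have c3 := h.h0_pull m h' L (E := M.pull M' (Finsupp.single P 1) - Finsupp.single P 1)
    (fun Q hQ => sub_pull_exc h.loc b (dv_single (b.pr P hP) 1) (by
      rwa [← neg_sub, Finsupp.support_neg])) fun Q => by
      rw [Finsupp.sub_apply, Finsupp.zero_apply, sub_nonneg]
      by_cases e : Q = P
      · rw [e, pull_pr h.loc b hP]
      · rw [Finsupp.single_eq_of_ne e]
        exact pull_nonneg b (Finsupp.single_nonneg.2 zero_le_one) Q
  have c4 : M.pull M' L + (M.pull M' (Finsupp.single P 1) - Finsupp.single P 1) =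
      M.pull M' (L + Finsupp.single P 1) - Finsupp.single P 1 := by
    rw [← pl_apply b (L + _), map_add, add_sub_assoc]; rfl
  rw [add_zero] at c2
  rw [c4] at c3
  rw [sub_add_cancel, c2, c3] at c1
  have c5 := k.i2_res u hs g1.1
  rw [h.i2_proj m h'] at c5
  have c6 := rr1_large u.proj (gd_r k.loc u g1.2).2 (by rwa [vol_one, ← c5])
  rw [vol_one, ← c5] at c6
  obtain ⟨δ, hδ⟩ := Nat.exists_eq_add_of_le c1
  have c7 : (F5.h0 M L : ℝ) + F5.h0 u.S (u.r (M.pull M' (L + Finsupp.single P 1))) =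
      F5.h0 M (L + Finsupp.single P 1) + δ := by exact_mod_cast hδ
  rw [h.ch_step] at a2
  exact ⟨δ, by rw [h.q2_comm]; linarith⟩

end mod

/-- the arithmetic genus is non negative -/
theorem Pc.genus_ge (h : Pc M) (hκ : IsCan M κ) (hP : M.Pr P) :
    -2 ≤ i2 M (κ + Finsupp.single P 1) (Finsupp.single P 1) := by
  obtain ⟨M', m, h', hs⟩ := exists_smooth h.proj (finite_singleton P) (by rintro _ rfl; exact hP)
  have hs' := snc_mono hs subset_union_left
  obtain ⟨u⟩ := (h.mod m h').ex_sub hs'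
  obtain ⟨δ, e⟩ := h.genus hκ hP m h' u hs'
  rw [e]
  linarith [Nat.cast_nonneg (α := ℝ) δ, Nat.cast_nonneg (α := ℝ) (gn u.L)]

/-- effective divisors on negative definite curves -/
theorem Pc.ch_nonpos (h : Pc M) (hκ : IsCan M κ) (hD : 0 < i2 M D D) (hE : E ∈ Dg.Gd M) (hn : 0 ≤ E)
    (h1 : ∀ P, E P ≠ 0 → i2 M (Finsupp.single P 1) D = 0) : ch M κ E ≤ 0 := by
  obtain ⟨H, hH⟩ := h.pol
  obtain ⟨k, hk⟩ := exists_nat_ge (i2 M E H)
  induction k generalizing E with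
  | zero =>
    rw [eff_eq_zero h hn hE.1 (a := ![H]) (Fin.cases ⟨hH.dv, hH.amp⟩ fun i => i.elim0)
      (hk.trans_eq Nat.cast_zero)]
    simp [ch]
  | succ k ih =>
    by_cases c : ∀ P, E P ≠ 0 → 0 ≤ i2 M (Finsupp.single P 1) E
    · have e := h.neg_lemma (fun i => i.elim0) hD (F5.dv_neg hE.1) fun P hP =>
        have n : E P ≠ 0 := fun e => by simp [e] at hP
        ⟨h1 P n, by rw [map_neg, neg_nonpos]; exact c P n⟩
      rw [le_antisymm (neg_nonneg.1 e) hn]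
      simp [ch]
    push Not at c
    obtain ⟨P, p1, p2⟩ := c
    have hP := hE.1 P (Finsupp.mem_support_iff.2 p1)
    have hY := gd_single hP
    obtain ⟨z, hz⟩ := h.i2_int hY.2 hE.2
    obtain ⟨w, hw⟩ := h.i2_int hY.2 hH.int
    obtain ⟨v, hv⟩ := hE.2 P
    have a1 : (z : ℝ) ≤ -1 := by
      have : z < 0 := by exact_mod_cast hz ▸ p2
      exact_mod_cast (by omega : z ≤ -1)
    have a2 : (1 : ℝ) ≤ w := by
      have : 0 < w := by
        exact_mod_cast hw ▸ prime_pos h hP (a := ![H]) (Fin.cases ⟨hH.dv, hH.amp⟩ fun i => i.elim0)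
      exact_mod_cast (by omega : 1 ≤ w)
    have a3 : (1 : ℝ) ≤ E P := by
      have : 0 < v := by exact_mod_cast hv ▸ (lt_of_le_of_ne (hn P) (Ne.symm p1) : (0 : ℝ) < E P)
      rw [hv]
      exact_mod_cast (by omega : 1 ≤ v)
    have a4 := ih (sub_mem hE hY) (fun Q => by
      rw [Finsupp.sub_apply, Finsupp.zero_apply, sub_nonneg]
      by_cases e : Q = P
      · rwa [e, Finsupp.single_eq_same]
      · rw [Finsupp.single_eq_of_ne e]; exact hn Q) (fun Q hQ => h1 Q fun e => by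
      by_cases d : Q = P
      · exact p1 (d ▸ e)
      · exact hQ (by rw [Finsupp.sub_apply, e, Finsupp.single_eq_of_ne d, sub_zero])) (by
      rw [map_sub, LinearMap.sub_apply, hw]
      push_cast at hk
      linarith)
    have a5 := h.ch_step κ (E - Finsupp.single P 1) (Finsupp.single P 1)
    have a6 := h.genus_ge hκ hP
    rw [sub_add_cancel, hz, h.q2_comm] at a5
    linarith

end Vale.Agent.P287D.I
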